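import Crest.Agent.R278.Defs

/-! # Derivations of fields; construction of the field `K = ℂ(z, x, ρ)` -/

set_option autoImplicit false

noncomputable section

namespace Crest.Agent.R278

open MvPolynomial

variable {K : Type} [Field K] [Algebra ℂ K]

theorem exists_extend {A : Type} [CommRing A] [Algebra ℂ A] [Algebra A K] [IsScalarTower ℂ A K]
    [Algebra.FormallySmooth A K] (d : Derivation ℂ A K) :
    ∃ D : Derivation ℂ K K, ∀ a, D (algebraMap A K a) = d a := by
  have hinj : Function.Injective (KaehlerDifferential.mapBaseChange ℂ A K) := by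
    rw [injective_iff_map_eq_zero]
    intro x hx
    obtain ⟨y, rfl⟩ := (Algebra.H1Cotangent.exact_δ_mapBaseChange ℂ A K x).1 hx
    rw [Subsingleton.elim y 0, map_zero]
  obtain ⟨s, hs⟩ := LinearMap.exists_leftInverse_of_injective
    (KaehlerDifferential.mapBaseChange ℂ A K) (LinearMap.ker_eq_bot.2 hinj)
  let l : TensorProduct A K (KaehlerDifferential ℂ A) →ₗ[K] K :=
    LinearMap.liftBaseChange K d.liftKaehlerDifferential
  refine ⟨(l ∘ₗ s).compDer (KaehlerDifferential.D ℂ K), fun a => ?_⟩
  have h1 : KaehlerDifferential.D ℂ K (algebraMap A K a) =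
      KaehlerDifferential.mapBaseChange ℂ A K (1 ⊗ₜ KaehlerDifferential.D ℂ A a) := by
    rw [KaehlerDifferential.mapBaseChange_tmul, one_smul, KaehlerDifferential.map_D]
  have h2 := LinearMap.congr_fun hs (1 ⊗ₜ KaehlerDifferential.D ℂ A a)
  change l (s (KaehlerDifferential.D ℂ K (algebraMap A K a))) = d a
  rw [h1]
  rw [LinearMap.comp_apply, LinearMap.id_apply] at h2
  rw [h2]
  simp [l]

theorem der_eq_zero (T : Subalgebra ℂ K) (halg : Algebra.IsAlgebraic T K) (D : Derivation ℂ K K)
    (h : ∀ f ∈ T, D f = 0) : D = 0 := by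
  ext α
  by_contra hα
  have hα' : D α ≠ 0 := hα
  have chain : ∀ p : Polynomial T,
      D (Polynomial.aeval α p) = Polynomial.aeval α (Polynomial.derivative p) * D α := by
    intro p
    induction p using Polynomial.induction_on' with
    | add p q hp hq => simp only [map_add, hp, hq, add_mul]
    | monomial n c =>
      have hc : D (algebraMap T K c) = 0 := h c c.2
      rw [Polynomial.derivative_monomial, Polynomial.aeval_monomial, Polynomial.aeval_monomial,
        D.leibniz, D.leibniz_pow, hc]
      simp only [smul_eq_mul, nsmul_eq_mul, map_mul, map_natCast]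
      ring
  have : CharZero K := charZero_of_injective_algebraMap (algebraMap ℂ K).injective
  have key : ∀ n, ∀ p : Polynomial T, p.natDegree = n → Polynomial.aeval α p = 0 → p = 0 := by
    intro n
    induction n using Nat.strong_induction_on with
    | _ n ih =>
      intro p hn hp
      have h1 := chain p
      rw [hp, map_zero] at h1
      have h2 : Polynomial.aeval α (Polynomial.derivative p) = 0 :=
        (mul_eq_zero.1 h1.symm).resolve_right hα'
      have h0 : p.natDegree = 0 := by
        by_contra h0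
        have h3 := ih _ (hn ▸ Polynomial.natDegree_derivative_lt h0) _ rfl h2
        exact h0 (Polynomial.derivative_eq_zero.1 h3)
      rw [Polynomial.eq_C_of_natDegree_eq_zero h0] at hp ⊢
      rw [Polynomial.aeval_C] at hp
      have : p.coeff 0 = 0 := Subtype.ext hp
      rw [this, map_zero]
  obtain ⟨p, hp0, hp⟩ := halg.isAlgebraic α
  exact hp0 (key _ p rfl hp)

/-- chain rule -/
theorem der_aeval (D : Derivation ℂ K K) (a b : K) (f : S) :
    D (aeval ![a, b] f) = aeval ![a, b] (pderiv 0 f) * D a + aeval ![a, b] (pderiv 1 f) * D b := by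
  induction f using MvPolynomial.induction_on with
  | C c => simp
  | add p q hp hq => simp only [map_add, hp, hq]; ring
  | mul_X p i hp =>
    rw [map_mul, D.leibniz, hp, pderiv_mul, pderiv_mul]
    fin_cases i <;> simp <;> ring

theorem alg3_totalDegree_pderiv_lt {i : Fin 2} {f : S} (h : pderiv i f ≠ 0) :
    (pderiv i f).totalDegree < f.totalDegree := by
  obtain ⟨m, hm, e⟩ := Finset.exists_mem_eq_sup (pderiv i f).support (support_nonempty.2 h)
    (fun s => s.sum fun _ e => e)
  have h1 : m + Finsupp.single i 1 ∈ f.support := by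
    rw [mem_support_iff] at hm ⊢
    rw [coeff_pderiv] at hm
    exact left_ne_zero_of_mul hm
  have h2 := le_totalDegree h1
  rw [Finsupp.sum_add_index' (fun _ => rfl) (fun _ _ _ => rfl), Finsupp.sum_single_index rfl] at h2
  rw [totalDegree, e]
  omega

theorem alg3_eq_C_of_pderiv {f : S} (h : ∀ i, pderiv i f = 0) : f = C (coeff 0 f) := by
  ext m
  rw [coeff_C]
  split_ifs with hm
  · rw [hm]
  · obtain ⟨i, hi⟩ : ∃ i, m i ≠ 0 := by
      by_contra hh
      push Not at hh
      exact hm (Finsupp.ext fun i => (hh i).symm)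
    have h1 := coeff_pderiv (i := i) f (m - Finsupp.single i 1)
    rw [h i, coeff_zero, tsub_add_cancel_of_le (Finsupp.single_le_iff.2 (Nat.pos_of_ne_zero hi))]
      at h1
    exact (mul_eq_zero.1 h1.symm).resolve_right (Nat.cast_add_one_ne_zero _)

/-- Jacobian criterion -/
theorem indep_of_jac (v1 v2 : Derivation ℂ K K) (a b : K) (h : v1 a * v2 b - v2 a * v1 b ≠ 0) :
    AlgebraicIndependent ℂ ![a, b] := by
  rw [algebraicIndependent_iff]
  have key : ∀ n, ∀ f : S, f.totalDegree = n → aeval ![a, b] f = 0 → f = 0 := by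
    intro n
    induction n using Nat.strong_induction_on with
    | _ n ih =>
      intro f hn hf
      have h1 := der_aeval v1 a b f
      have h2 := der_aeval v2 a b f
      rw [hf, map_zero] at h1 h2
      have k0 : aeval ![a, b] (pderiv 0 f) = 0 := by
        refine (mul_eq_zero.1 ?_).resolve_right h
        linear_combination (-v2 b) * h1 + v1 b * h2
      have k1 : aeval ![a, b] (pderiv 1 f) = 0 := by
        refine (mul_eq_zero.1 ?_).resolve_right h
        linear_combination v2 a * h1 - v1 a * h2
      have hd : ∀ i, pderiv i f = 0 := by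
        intro i
        by_contra hne
        refine hne (ih _ (hn ▸ alg3_totalDegree_pderiv_lt hne) _ rfl ?_)
        fin_cases i
        · exact k0
        · exact k1
      have hC := alg3_eq_C_of_pderiv hd
      rw [hC, aeval_C, map_eq_zero] at hf
      rw [hC, hf, map_zero]
  exact fun f hf => key _ f rfl hf

theorem exists_setup (g : S) (hg : g ≠ 0) (r E : ℕ) (hr : 0 < r) :
    ∃ (K : Type) (_ : Field K) (_ : Algebra ℂ K) (σ : Setup K), σ.g = g ∧ σ.r = r ∧ σ.E = E := by
  let K0 := FractionRing S
  let L := AlgebraicClosure K0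
  obtain ⟨ρ, hρ⟩ := IsAlgClosed.exists_pow_nat_eq
    (algebraMap S L xx ^ E / algebraMap S L g) hr
  let K : IntermediateField K0 L := IntermediateField.adjoin K0 {ρ}
  have hinjL : Function.Injective (algebraMap S L) := by
    rw [IsScalarTower.algebraMap_eq S K0 L, RingHom.coe_comp]
    exact (algebraMap K0 L).injective.comp (IsFractionRing.injective S K0)
  have hval : ∀ f : S, ((algebraMap S K f : K) : L) = algebraMap S L f := fun f => rfl
  have e1 : Algebra.FormallyEtale S K0 := Algebra.FormallyEtale.of_isLocalization (nonZeroDivisors S)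
  have e2 : Algebra.FormallyEtale K0 K := Algebra.FormallyEtale.of_isSeparable K0 K
  have e3 : Algebra.FormallyEtale S K := Algebra.FormallyEtale.comp S K0 K
  have tw : IsScalarTower ℂ S K := IsScalarTower.of_algebraMap_eq fun c => Subtype.ext (by
    rw [hval]
    exact IsScalarTower.algebraMap_apply ℂ S L c)
  obtain ⟨δz, hδz⟩ := exists_extend (K := K) (A := S)
    ((Algebra.linearMap S K).compDer (pderiv 0))
  obtain ⟨δx, hδx⟩ := exists_extend (K := K) (A := S)
    ((Algebra.linearMap S K).compDer (pderiv 1))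
  refine ⟨K, inferInstance, inferInstance,
    { φ := IsScalarTower.toAlgHom ℂ S K
      inj := fun f f' h => hinjL (by rw [← hval, ← hval]; exact congrArg Subtype.val h)
      δz := δz
      δx := δx
      hδz := hδz
      hδx := hδx
      ρ := ⟨ρ, IntermediateField.mem_adjoin_simple_self K0 ρ⟩
      g := g
      r := r
      E := E
      hr := hr
      hρ := ?_
      gen := ?_ }, rfl, rfl, rfl⟩
  · apply Subtype.ext
    change ρ ^ r * algebraMap S L g = algebraMap S L xx ^ E
    rw [hρ, div_mul_cancel₀]
    exact fun h => hg (hinjL (by rw [h, map_zero]))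
  · set F := IntermediateField.adjoin ℂ ({IsScalarTower.toAlgHom ℂ S K zz,
      IsScalarTower.toAlgHom ℂ S K xx, ⟨ρ, IntermediateField.mem_adjoin_simple_self K0 ρ⟩} : Set K)
      with hF
    have h1 : ∀ f : S, algebraMap S K f ∈ F := by
      intro f
      induction f using MvPolynomial.induction_on with
      | C c => exact F.algebraMap_mem c
      | add p q hp hq => rw [map_add]; exact add_mem hp hq
      | mul_X p i hp =>
        rw [map_mul]
        refine mul_mem hp (IntermediateField.subset_adjoin _ _ ?_)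
        fin_cases i
        · exact Or.inl rfl
        · exact Or.inr (Or.inl rfl)
    have h2 : ∀ k : K0, algebraMap K0 K k ∈ F := by
      intro k
      obtain ⟨a, b, -, rfl⟩ := IsFractionRing.div_surjective (A := S) k
      rw [map_div₀, ← IsScalarTower.algebraMap_apply, ← IsScalarTower.algebraMap_apply]
      exact div_mem (h1 a) (h1 b)
    rw [eq_top_iff]
    rintro ⟨y, hy⟩ -
    induction hy using IntermediateField.adjoin_induction with
    | mem x hx =>
      obtain rfl : x = ρ := hx
      exact IntermediateField.subset_adjoin _ _ (Or.inr (Or.inr rfl))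
    | algebraMap k => exact h2 k
    | add x y hx hy h h' => exact add_mem h h'
    | inv x hx h => exact inv_mem h
    | mul x y hx hy h h' => exact mul_mem h h'

namespace Setup
variable (σ : Setup K)

theorem φ_eq (f : S) : σ.φ f = aeval ![σ.φ zz, σ.φ xx] f := by
  have : σ.φ = aeval ![σ.φ zz, σ.φ xx] := by
    refine MvPolynomial.algHom_ext fun i => ?_
    fin_cases i <;> simp
  exact DFunLike.congr_fun this f

theorem indep : AlgebraicIndependent ℂ ![σ.φ zz, σ.φ xx] := by
  rw [algebraicIndependent_iff]
  intro f hf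
  rw [← σ.φ_eq] at hf
  exact σ.inj (by rw [hf, map_zero])

theorem x_ne : σ.φ xx ≠ 0 := by
  intro h
  exact X_ne_zero (R := ℂ) (1 : Fin 2) (σ.inj (by rw [map_zero]; exact h))

theorem g_ne : σ.φ σ.g ≠ 0 := by
  intro h
  have := σ.hρ
  rw [h, mul_zero] at this
  exact pow_ne_zero _ σ.x_ne this.symm

theorem ρ_ne : σ.ρ ≠ 0 := by
  intro h
  have := σ.hρ
  rw [h, zero_pow σ.hr.ne', zero_mul] at this
  exact pow_ne_zero _ σ.x_ne this.symm

theorem alg : Algebra.IsAlgebraic (B2 (σ.φ zz) (σ.φ xx)) K := by
  have h0 : ∀ y ∈ B2 (σ.φ zz) (σ.φ xx), IsAlgebraic (B2 (σ.φ zz) (σ.φ xx)) y := fun y hy =>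
    isAlgebraic_algebraMap (⟨y, hy⟩ : B2 (σ.φ zz) (σ.φ xx))
  have h1 : ∀ f : S, σ.φ f ∈ B2 (σ.φ zz) (σ.φ xx) := by
    intro f
    induction f using MvPolynomial.induction_on with
    | C c => rw [algHom_C]; exact Subalgebra.algebraMap_mem _ c
    | add p q hp hq => rw [map_add]; exact add_mem hp hq
    | mul_X p i hp =>
      rw [map_mul]
      refine mul_mem hp (Algebra.subset_adjoin ?_)
      fin_cases i
      · exact Or.inl rfl
      · exact Or.inr rfl
  refine ⟨fun y => ?_⟩
  have hy : y ∈ IntermediateField.adjoin ℂ {σ.φ zz, σ.φ xx, σ.ρ} := by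
    rw [σ.gen]; exact IntermediateField.mem_top
  induction hy using IntermediateField.adjoin_induction with
  | mem x hx =>
    rcases hx with rfl | rfl | rfl
    · exact h0 _ (h1 _)
    · exact h0 _ (h1 _)
    · refine IsAlgebraic.of_pow σ.hr (IsAlgebraic.of_mul (y := σ.φ σ.g)
        (mem_nonZeroDivisors_of_ne_zero σ.g_ne) (h0 _ (h1 _)) ?_)
      rw [mul_comm, σ.hρ, ← map_pow]
      exact h0 _ (h1 _)
  | algebraMap c => exact h0 _ (Subalgebra.algebraMap_mem _ c)
  | add x y hx hy h h' => exact h.add h'
  | inv x hx h => exact h.inv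
  | mul x y hx hy h h' => exact h.mul h'

include σ in
theorem fg : (⊤ : IntermediateField ℂ K).FG := by
  rw [← σ.gen]
  exact IntermediateField.fg_adjoin_of_finite (Set.toFinite _)

include σ in
theorem trdeg_le : Algebra.trdeg ℂ K ≤ 2 := by
  have : Algebra.IsAlgebraic (Algebra.adjoin ℂ {σ.φ zz, σ.φ xx}) K := σ.alg
  refine (Algebra.IsAlgebraic.trdeg_le_cardinalMk ℂ {σ.φ zz, σ.φ xx}).trans ?_
  refine Cardinal.mk_insert_le.trans ?_
  rw [Cardinal.mk_singleton, one_add_one_eq_two]

theorem der_φ (p : S × S) (f : S) : σ.der p (σ.φ f) = σ.φ (act p f) := by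
  simp [der, act, σ.hδz, σ.hδx]

theorem tw_φ (n e : ℕ) (p : S × S) (f : S) :
    σ.tw n e p (σ.φ f) = σ.ρ ^ n / σ.φ xx ^ e * σ.φ (act p f) := by
  rw [tw, Derivation.smul_apply, σ.der_φ, smul_eq_mul]

end Setup

end Crest.Agent.R278
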