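import Crest.Agent.R278.Alg2
import Crest.Agent.R278.Alg3

/-! # The abstract criterion -/

set_option autoImplicit false

noncomputable section

namespace Crest.Agent.R278

variable {K : Type} [Field K] [Algebra ℂ K]

open MvPolynomial

/-- lying over, going up, incomparability -/
theorem abs_dim (A B : Type) [CommRing A] [CommRing B] [Algebra A B]
    [Algebra.IsIntegral A B] (h : Function.Injective (algebraMap A B)) :
    ringKrullDim B = ringKrullDim A := by
  apply le_antisymm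
  · refine Order.krullDim_le_of_strictMono (PrimeSpectrum.comap (algebraMap A B)) ?_
    intro P Q hPQ
    have hPQ' : P.asIdeal < Q.asIdeal := hPQ
    exact Ideal.IsIntegral.comap_lt_comap (R := A) hPQ'
  · refine iSup_le fun l => ?_
    obtain ⟨Q, -, hQ, hQ'⟩ := Ideal.exists_ideal_over_prime_of_isIntegral
      (RelSeries.head l).asIdeal (⊥ : Ideal B) (by
        intro x hx
        have hx0 : algebraMap A B x = 0 := by simpa using hx
        have : x = 0 := h (by simpa using hx0)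
        rw [this]
        exact Submodule.zero_mem _)
    have : Q.LiesOver (RelSeries.head l).asIdeal := ⟨hQ'.symm⟩
    obtain ⟨L, hL, -, -⟩ := Ideal.exists_ltSeries_of_hasGoingUp l Q
    rw [← hL]
    exact Order.LTSeries.length_le_krullDim L

lemma abs_alg {a b : K} (hind : AlgebraicIndependent ℂ ![a, b]) (htr : Algebra.trdeg ℂ K ≤ 2) :
    Algebra.IsAlgebraic (B2 a b) K := by
  have h1 : IsTranscendenceBasis ℂ ![a, b] :=
    hind.isTranscendenceBasis_of_trdeg_le_of_finite (by simpa using htr)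
  have h2 : Set.range ![a, b] = {a, b} := by
    rw [Matrix.range_cons, Matrix.range_cons, Matrix.range_empty, Set.union_empty]
    rfl
  have := h1.isAlgebraic
  rwa [h2] at this

lemma abs_int_of_mem {a b x : K} (hx : x ∈ B2 a b) : IsIntegral (B2 a b) x :=
  isIntegral_algebraMap (R := B2 a b) (A := K) (x := ⟨x, hx⟩)

lemma abs_a_mem (a b : K) : a ∈ B2 a b := Algebra.subset_adjoin (by simp)

lemma abs_b_mem (a b : K) : b ∈ B2 a b := Algebra.subset_adjoin (by simp)

/-- the quotient rule -/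
lemma abs_quot {I : K → Prop} {V : ValuationSubring K} (hV : ∀ f, I f → f ∈ V)
    (hloc : ∀ f ∈ V, ∃ p s, I p ∧ I s ∧ V.valuation s = 1 ∧ f = p / s) (D : Derivation ℂ K K)
    (hD : ∀ f, I f → I (D f)) {f : K} (hf : f ∈ V) : D f ∈ V := by
  obtain ⟨p, s, hp, hs, hs1, rfl⟩ := hloc f hf
  have hi : s⁻¹ ∈ V := by
    rw [← V.valuation_le_one_iff, map_inv₀, hs1, inv_one]
  rw [Derivation.leibniz_div, smul_eq_mul, smul_eq_mul, smul_eq_mul]
  exact mul_mem (pow_mem hi 2) (sub_mem (mul_mem (hV _ hs) (hV _ (hD _ hp)))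
    (mul_mem (hV _ hp) (hV _ (hD _ hs))))

lemma abs_decomp {v1 v2 : Derivation ℂ K K} {a b : K} (halg : Algebra.IsAlgebraic (B2 a b) K)
    (hJ : v1 a * v2 b - v2 a * v1 b ≠ 0) (D : Derivation ℂ K K) :
    ∃ f1 f2 : K, D = f1 • v1 + f2 • v2 := by
  refine ⟨(D a * v2 b - D b * v2 a) / (v1 a * v2 b - v2 a * v1 b),
    (v1 a * D b - v1 b * D a) / (v1 a * v2 b - v2 a * v1 b), sub_eq_zero.1 ?_⟩
  refine der_eq_zero (B2 a b) halg _ fun f hf => ?_
  refine Derivation.eqOn_adjoin (D2 := 0) (s := {a, b}) ?_ hf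
  have h := mul_inv_cancel₀ hJ
  rintro x (rfl | rfl) <;>
  · simp only [Derivation.sub_apply, Derivation.add_apply, Derivation.smul_apply, smul_eq_mul,
      Derivation.zero_apply, div_eq_mul_inv]
    linear_combination (-D x) * h

/-- restriction of a derivation to the integral closure -/
def absRes {B : Subalgebra ℂ K} (D : Derivation ℂ K K)
    (hD : ∀ f, IsIntegral B f → IsIntegral B (D f)) :
    Derivation ℂ (integralClosure B K) (integralClosure B K) :=
  Derivation.mk'
    { toFun := fun x => ⟨D x, hD _ x.2⟩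
      map_add' := fun x y => Subtype.ext (by simp)
      map_smul' := fun c x => Subtype.ext (D.map_smul c (x : K)) }
    fun x y => Subtype.ext (D.leibniz (x : K) y)

lemma absRes_apply {B : Subalgebra ℂ K} (D : Derivation ℂ K K)
    (hD : ∀ f, IsIntegral B f → IsIntegral B (D f)) (x : integralClosure B K) :
    (absRes D hD x : K) = D x := rfl

lemma abs_mem_val {B : Subalgebra ℂ K} {V : ValuationSubring K} (hB : ∀ f ∈ B, f ∈ V) {α : K}
    (hα : IsIntegral B α) : α ∈ V := by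
  let φ : B →+* V := (algebraMap B K).codRestrict V fun x => hB _ x.2
  have h1 : IsIntegral V α := hα.map_of_comp_eq φ (RingHom.id K) (by ext; rfl)
  obtain ⟨y, rfl⟩ := IsIntegrallyClosed.algebraMap_eq_of_integral h1
  exact y.2

lemma abs_const {a b : K} {V : ValuationSubring K} (hC : ∀ c : ℂ, algebraMap ℂ K c ∈ V)
    (ha : V.valuation a < 1) (hb : V.valuation b < 1) {x : K} (hx : x ∈ B2 a b) :
    x ∈ V ∧ ∃ c : ℂ, V.valuation (x - algebraMap ℂ K c) < 1 := by
  induction hx using Algebra.adjoin_induction with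
  | mem x hx =>
    rcases hx with rfl | rfl
    · exact ⟨(V.valuation_le_one_iff _).1 ha.le, 0, by simpa using ha⟩
    · exact ⟨(V.valuation_le_one_iff _).1 hb.le, 0, by simpa using hb⟩
  | algebraMap c => exact ⟨hC c, c, by simp⟩
  | add x y _ _ hx hy =>
    obtain ⟨h1, c, hc⟩ := hx
    obtain ⟨h2, d, hd⟩ := hy
    refine ⟨add_mem h1 h2, c + d, ?_⟩
    rw [map_add, add_sub_add_comm]
    exact V.valuation.map_add_lt hc hd
  | mul x y _ _ hx hy =>
    obtain ⟨h1, c, hc⟩ := hx
    obtain ⟨h2, d, hd⟩ := hy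
    refine ⟨mul_mem h1 h2, c * d, ?_⟩
    have e : x * y - algebraMap ℂ K (c * d)
        = x * (y - algebraMap ℂ K d) + algebraMap ℂ K d * (x - algebraMap ℂ K c) := by
      rw [map_mul]
      ring
    rw [e]
    refine V.valuation.map_add_lt ?_ ?_
    · rw [map_mul]
      exact (mul_le_of_le_one_left' ((V.valuation_le_one_iff _).2 h1)).trans_lt hd
    · rw [map_mul]
      exact (mul_le_of_le_one_left' ((V.valuation_le_one_iff _).2 (hC d))).trans_lt hc

/-- a prime of an integral extension in which the base is constant is a rational point -/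
lemma abs_point {B A : Type} [CommRing B] [CommRing A] [Algebra ℂ A] [Algebra B A]
    [Algebra.IsIntegral B A] (m : Ideal A) [m.IsPrime]
    (h : ∀ x : B, ∃ c : ℂ, algebraMap B A x - algebraMap ℂ A c ∈ m) :
    m.IsMaximal ∧ ∀ f : A, ∃ c : ℂ, f - algebraMap ℂ A c ∈ m := by
  have h1 : Algebra.IsIntegral ℂ (A ⧸ m) := ⟨fun x => by
    obtain ⟨p, hp, hp0⟩ := Algebra.IsIntegral.isIntegral (R := B) x
    have h2 : p.map (algebraMap B (A ⧸ m)) ∈ Polynomial.lifts (algebraMap ℂ (A ⧸ m)) := by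
      rw [Polynomial.lifts_iff_coeff_lifts]
      intro n
      obtain ⟨c, hc⟩ := h (p.coeff n)
      refine ⟨c, ?_⟩
      rw [Polynomial.coeff_map]
      exact (Ideal.Quotient.eq.2 hc).symm
    obtain ⟨q, hq, -, hq1⟩ := Polynomial.lifts_and_natDegree_eq_and_monic h2 (hp.map _)
    refine ⟨q, hq1, ?_⟩
    rw [← Polynomial.eval_map, hq, Polynomial.eval_map, hp0]⟩
  have h2 := IsAlgClosed.algebraMap_bijective_of_isIntegral (k := ℂ) (K := A ⧸ m)
  refine ⟨Ideal.Quotient.maximal_of_isField m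
    ((RingEquiv.ofBijective _ h2).symm.toMulEquiv.isField (Field.toIsField ℂ)), fun f => ?_⟩
  obtain ⟨c, hc⟩ := h2.2 (Ideal.Quotient.mk m f)
  exact ⟨c, Ideal.Quotient.eq.1 hc.symm⟩

/-- two local parameters -/
lemma abs_param {A : Type} [CommRing A] (hdim : ringKrullDim A = 2) (m : Ideal A) [m.IsPrime]
    [h : IsRegularLocalRing (Localization.AtPrime m)] :
    ∃ t1 ∈ m, ∃ t2 ∈ m, ∀ f ∈ m, ∃ s, s ∉ m ∧ ∃ f1 f2, s * f = t1 * f1 + t2 * f2 := by
  classical
  set R := Localization.AtPrime m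
  have h1 : (IsLocalRing.maximalIdeal R).spanFinrank ≤ 2 := by
    have h2 := h.spanFinrank_maximalIdeal
    rw [IsLocalization.AtPrime.ringKrullDim_eq_height m R] at h2
    have h3 := Ideal.height_le_ringKrullDim_of_ne_top (Ideal.IsPrime.ne_top (inferInstance : m.IsPrime))
    rw [← h2, hdim] at h3
    exact_mod_cast h3
  obtain ⟨T, hT, hT'⟩ := Submodule.FG.exists_span_finset_card_eq_spanFinrank
    (IsNoetherian.noetherian (IsLocalRing.maximalIdeal R))
  obtain ⟨x, hx, y, hy, hxy⟩ : ∃ x ∈ IsLocalRing.maximalIdeal R,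
      ∃ y ∈ IsLocalRing.maximalIdeal R, (T : Set R) ⊆ {x, y} := by
    have h4 : ∀ x ∈ T, x ∈ IsLocalRing.maximalIdeal R := fun x hx =>
      hT' ▸ Submodule.subset_span hx
    rw [← hT] at h1
    obtain h5 | h5 | h5 : T.card = 0 ∨ T.card = 1 ∨ T.card = 2 := by omega
    · rw [Finset.card_eq_zero.1 h5]
      exact ⟨0, zero_mem _, 0, zero_mem _, by simp⟩
    · obtain ⟨x, rfl⟩ := Finset.card_eq_one.1 h5
      exact ⟨x, h4 x (by simp), 0, zero_mem _, by simp⟩
    · obtain ⟨x, y, -, rfl⟩ := Finset.card_eq_two.1 h5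
      exact ⟨x, h4 x (by simp), y, h4 y (by simp), by simp⟩
  obtain ⟨⟨t1, s1⟩, rfl⟩ := IsLocalization.mk'_surjective m.primeCompl x
  obtain ⟨⟨t2, s2⟩, rfl⟩ := IsLocalization.mk'_surjective m.primeCompl y
  refine ⟨t1, (IsLocalization.AtPrime.mk'_mem_maximal_iff R m t1 s1).1 hx, t2,
    (IsLocalization.AtPrime.mk'_mem_maximal_iff R m t2 s2).1 hy, fun f hf => ?_⟩
  have h6 : IsLocalRing.maximalIdeal R ≤ (Ideal.span {t1, t2}).map (algebraMap A R) := by
    rw [← hT']
    refine Submodule.span_le.2 (hxy.trans ?_)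
    rintro z (rfl | rfl)
    · exact (IsLocalization.mk'_mem_map_algebraMap_iff _ _ _ _ _).2
        ⟨1, one_mem _, by simpa using Ideal.subset_span (by simp)⟩
    · exact (IsLocalization.mk'_mem_map_algebraMap_iff _ _ _ _ _).2
        ⟨1, one_mem _, by simpa using Ideal.subset_span (by simp)⟩
  have h7 := h6 ((IsLocalization.AtPrime.to_map_mem_maximal_iff R m f).2 hf)
  obtain ⟨s, hs, hsf⟩ := (IsLocalization.algebraMap_mem_map_algebraMap_iff m.primeCompl R _ f).1 h7
  obtain ⟨f1, f2, h8⟩ := Ideal.mem_span_pair.1 hsf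
  exact ⟨s, hs, f1, f2, by rw [← h8]; ring⟩

/-- Nakayama: the differentials are generated by those of the parameters -/
lemma abs_nakayama {A : Type} [CommRing A] [Algebra ℂ A] [IsNoetherianRing A] (m : Ideal A)
    (hc : ∀ f : A, ∃ c : ℂ, f - algebraMap ℂ A c ∈ m) {t1 t2 : A} (h1 : t1 ∈ m) (h2 : t2 ∈ m)
    (ht : ∀ f ∈ m, ∃ s, s ∉ m ∧ ∃ f1 f2, s * f = t1 * f1 + t2 * f2) (w1 w2 : Derivation ℂ A A) :
    ∃ r : A, r - 1 ∈ m ∧ ∀ f, ∃ g1 g2 : A, r * w1 f = g1 * w1 t1 + g2 * w1 t2 ∧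
      r * w2 f = g1 * w2 t1 + g2 * w2 t2 := by
  let δ : A → A × A := fun f => (w1 f, w2 f)
  let M : Submodule A (A × A) := Submodule.span A (Set.range δ)
  let N : Submodule A (A × A) := Submodule.span A {δ t1, δ t2}
  have hM : ∀ f, δ f ∈ M := fun f => Submodule.subset_span ⟨f, rfl⟩
  have hle : M ≤ N ⊔ m • M := by
    refine Submodule.span_le.2 ?_
    rintro _ ⟨f, rfl⟩
    obtain ⟨c, hc1⟩ := hc f
    obtain ⟨s, hs, f1, f2, hf⟩ := ht _ hc1
    obtain ⟨d, hd⟩ := hc s
    have hd0 : d ≠ 0 := by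
      rintro rfl
      exact hs (by simpa using hd)
    have key : ∀ w : Derivation ℂ A A, algebraMap ℂ A d * w f
        = (f1 * w t1 + f2 * w t2) + (t1 * w f1 + t2 * w f2 - (f - algebraMap ℂ A c) * w s
          - (s - algebraMap ℂ A d) * w f) := fun w => by
      have := congrArg w hf
      simp only [Derivation.leibniz, map_add, map_sub, Derivation.map_algebraMap, sub_zero,
        smul_eq_mul] at this
      linear_combination this
    have e : δ f = algebraMap ℂ A d⁻¹ • ((f1 • δ t1 + f2 • δ t2) + (t1 • δ f1 + t2 • δ f2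
        - (f - algebraMap ℂ A c) • δ s - (s - algebraMap ℂ A d) • δ f)) := by
      have hdd : algebraMap ℂ A d⁻¹ * algebraMap ℂ A d = 1 := by
        rw [← map_mul, inv_mul_cancel₀ hd0, map_one]
      ext
      · simp only [δ, Prod.smul_fst, Prod.fst_add, Prod.fst_sub, smul_eq_mul]
        rw [← key w1, ← mul_assoc, hdd, one_mul]
      · simp only [δ, Prod.smul_snd, Prod.snd_add, Prod.snd_sub, smul_eq_mul]
        rw [← key w2, ← mul_assoc, hdd, one_mul]
    rw [e]
    refine Submodule.smul_mem _ _ (Submodule.add_mem_sup (add_mem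
      (Submodule.smul_mem _ _ (Submodule.subset_span (by simp)))
      (Submodule.smul_mem _ _ (Submodule.subset_span (by simp)))) ?_)
    exact sub_mem (sub_mem (add_mem (Submodule.smul_mem_smul h1 (hM _))
      (Submodule.smul_mem_smul h2 (hM _))) (Submodule.smul_mem_smul hc1 (hM _)))
      (Submodule.smul_mem_smul hd (hM _))
  obtain ⟨r, hr, hr'⟩ := Submodule.exists_sub_one_mem_and_smul_le_of_fg_of_le_sup
    (IsNoetherian.noetherian M) le_rfl hle
  refine ⟨r, hr, fun f => ?_⟩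
  obtain ⟨g1, g2, hg⟩ := Submodule.mem_span_pair.1 (hr' (Submodule.smul_mem_pointwise_smul _ r _
    (hM f)))
  exact ⟨g1, g2, (congrArg Prod.fst hg).symm, (congrArg Prod.snd hg).symm⟩

theorem abstract (v1 v2 : Derivation ℂ K K) (a b : K)
    (hfg : (⊤ : IntermediateField ℂ K).FG) (htr : Algebra.trdeg ℂ K ≤ 2)
    (hJ : v1 a * v2 b - v2 a * v1 b ≠ 0)
    (hgood : ∀ V : ValuationSubring K, (∀ c : ℂ, algebraMap ℂ K c ∈ V) → a ∈ V → b ∈ V →
      (V.valuation a = 1 ∨ V.valuation b = 1) → Chart V v1 v2 a b)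
    (hbad : ∃ V : ValuationSubring K, (∀ c : ℂ, algebraMap ℂ K c ∈ V) ∧ V.valuation a < 1 ∧
      V.valuation b < 1 ∧ ∀ α : K, IsIntegral (B2 a b) α →
        V.valuation (v1 α) < 1 ∧ V.valuation (v2 α) < 1) :
    ∃ (A : Type) (_ : CommRing A) (_ : Algebra ℂ A),
      IsDomain A ∧ Algebra.FiniteType ℂ A ∧ IsIntegrallyClosed A ∧
      ringKrullDim A = 2 ∧
      Nonempty (Derivation ℂ A A ≃ₗ[A] (Fin 2 → A)) ∧
      ∃ (m : Ideal A) (_ : m.IsMaximal), ¬ IsRegularLocalRing (Localization.AtPrime m) := by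
  have hind := indep_of_jac v1 v2 a b hJ
  have halg := abs_alg hind htr
  obtain ⟨hfin, hfrac⟩ := closure_finite a b hind halg hfg
  obtain ⟨hnoeth, hft, hdimB, -, -, -⟩ := B2_props a b hind
  have hchart : ∀ α : K, ¬ IsIntegral (B2 a b) α → ∃ V : ValuationSubring K,
      (∀ f, IsIntegral (B2 a b) f → f ∈ V) ∧ α ∉ V ∧ Arch V ∧
      (∀ f ∈ V, ∃ p s, IsIntegral (B2 a b) p ∧ IsIntegral (B2 a b) s ∧ V.valuation s = 1 ∧
        f = p / s) ∧ Chart V v1 v2 a b := fun α hα => by
    obtain ⟨V, h1, h2, h3, h4, h5⟩ := exists_dvr a b hind halg hfg α hα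
    refine ⟨V, h1, h2, h3, h4, hgood V (fun c => h1 _ (abs_int_of_mem (algebraMap_mem _ c)))
      (h1 _ (abs_int_of_mem (abs_a_mem a b))) (h1 _ (abs_int_of_mem (abs_b_mem a b))) ?_⟩
    simpa using h5 (X 0) (X 1) (X_prime.irreducible.isRelPrime_iff_not_dvd.2 (by simp [X_dvd_X]))
  have hv : ∀ α : K, IsIntegral (B2 a b) α →
      IsIntegral (B2 a b) (v1 α) ∧ IsIntegral (B2 a b) (v2 α) := fun α hα => by
    have key : ∀ V : ValuationSubring K, Arch V → Chart V v1 v2 a b → v1 α ∈ V ∧ v2 α ∈ V := by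
      rintro V harch ⟨⟨R, hRV, haR, hbR, hR, hR1, hR2⟩, -⟩
      have hle : B2 a b ≤ R := Algebra.adjoin_le (by
        rintro x (rfl | rfl)
        exacts [haR, hbR])
      have hαR : IsIntegral R α :=
        hα.map_of_comp_eq (Subalgebra.inclusion hle).toRingHom (RingHom.id K) (by ext; rfl)
      exact ⟨seidenberg R v1 hR1 hR V hRV harch α hαR, seidenberg R v2 hR2 hR V hRV harch α hαR⟩
    constructor
    · by_contra h
      obtain ⟨V, -, h2, h3, -, h5⟩ := hchart _ h
      exact h2 (key V h3 h5).1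
    · by_contra h
      obtain ⟨V, -, h2, h3, -, h5⟩ := hchart _ h
      exact h2 (key V h3 h5).2
  have hv1 := fun α hα => (hv α hα).1
  have hv2 := fun α hα => (hv α hα).2
  have hcoef : ∀ f1 f2 : K, (∀ α, IsIntegral (B2 a b) α →
      IsIntegral (B2 a b) ((f1 • v1 + f2 • v2) α)) →
      IsIntegral (B2 a b) f1 ∧ IsIntegral (B2 a b) f2 := fun f1 f2 hD => by
    have key : ∀ V : ValuationSubring K, (∀ f, IsIntegral (B2 a b) f → f ∈ V) →
        (∀ f ∈ V, ∃ p s, IsIntegral (B2 a b) p ∧ IsIntegral (B2 a b) s ∧ V.valuation s = 1 ∧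
          f = p / s) → Chart V v1 v2 a b → f1 ∈ V ∧ f2 ∈ V := by
      rintro V h1 h4 ⟨-, s, hs, t, ht, hst⟩
      have hi : (v1 s * v2 t - v2 s * v1 t)⁻¹ ∈ V := by
        rw [← V.valuation_le_one_iff, map_inv₀, hst, inv_one]
      have h0 : v1 s * v2 t - v2 s * v1 t ≠ 0 := by
        intro h
        rw [h, map_zero] at hst
        exact zero_ne_one hst
      have a1 := abs_quot h1 h4 v1 hv1 hs
      have a2 := abs_quot h1 h4 v1 hv1 ht
      have a3 := abs_quot h1 h4 v2 hv2 hs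
      have a4 := abs_quot h1 h4 v2 hv2 ht
      have a5 := abs_quot h1 h4 _ hD hs
      have a6 := abs_quot h1 h4 _ hD ht
      simp only [Derivation.add_apply, Derivation.smul_apply, smul_eq_mul] at a5 a6
      constructor
      · convert mul_mem hi (sub_mem (mul_mem a5 a4) (mul_mem a6 a3)) using 1
        field_simp
        ring
      · convert mul_mem hi (sub_mem (mul_mem a6 a1) (mul_mem a5 a2)) using 1
        field_simp
        ring
    constructor
    · by_contra h
      obtain ⟨V, h1, h2, -, h4, h5⟩ := hchart _ h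
      exact h2 (key V h1 h4 h5).1
    · by_contra h
      obtain ⟨V, h1, h2, -, h4, h5⟩ := hchart _ h
      exact h2 (key V h1 h4 h5).2
  set A := integralClosure (B2 a b) K with hA
  have hdim : ringKrullDim A = 2 := by
    rw [abs_dim (B2 a b) A fun x y h => Subtype.ext (congrArg (fun z : A => (z : K)) h), hdimB]
  have hAn : IsNoetherianRing A := IsNoetherianRing.of_finite (B2 a b) A
  let w1 : Derivation ℂ A A := absRes v1 hv1
  let w2 : Derivation ℂ A A := absRes v2 hv2
  let a' : A := ⟨a, abs_int_of_mem (abs_a_mem a b)⟩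
  let b' : A := ⟨b, abs_int_of_mem (abs_b_mem a b)⟩
  refine ⟨A, inferInstance, inferInstance, inferInstance, hft.trans inferInstance, ?_, hdim,
    ?_, ?_⟩
  · exact (isIntegrallyClosed_iff K).2 fun {x} hx => ⟨⟨x, isIntegral_trans x hx⟩, rfl⟩
  · let Φ : (Fin 2 → A) →ₗ[A] Derivation ℂ A A :=
      (LinearMap.proj 0).smulRight w1 + (LinearMap.proj 1).smulRight w2
    have hΦ : ∀ f x, (Φ f x : K) = f 0 * v1 x + f 1 * v2 x := fun f x => rfl
    refine ⟨(LinearEquiv.ofBijective Φ ⟨?_, fun d => ?_⟩).symm⟩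
    · rw [injective_iff_map_eq_zero]
      intro f hf
      have h1 := hΦ f a'
      have h2 := hΦ f b'
      rw [hf] at h1 h2
      change 0 = f 0 * v1 a + f 1 * v2 a at h1
      change 0 = f 0 * v1 b + f 1 * v2 b at h2
      have h3 : (f 0 : K) = 0 := (mul_eq_zero.1 (show (f 0 : K) * (v1 a * v2 b - v2 a * v1 b) = 0 by
        linear_combination v2 a * h2 - v2 b * h1)).resolve_right hJ
      have h4 : (f 1 : K) = 0 := (mul_eq_zero.1 (show (f 1 : K) * (v1 a * v2 b - v2 a * v1 b) = 0 by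
        linear_combination v1 b * h1 - v1 a * h2)).resolve_right hJ
      funext i
      fin_cases i
      exacts [Subtype.ext h3, Subtype.ext h4]
    · have := Algebra.FormallySmooth.of_isLocalization (Rₘ := K) (nonZeroDivisors A)
      obtain ⟨D, hD⟩ := exists_extend (K := K) ((Algebra.linearMap A K).compDer d)
      obtain ⟨f1, f2, rfl⟩ := abs_decomp halg hJ D
      have hD' : ∀ x : A, (f1 • v1 + f2 • v2) (x : K) = d x := hD
      obtain ⟨h1, h2⟩ := hcoef f1 f2 fun α hα => by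
        rw [hD' ⟨α, hα⟩]
        exact (d ⟨α, hα⟩).2
      refine ⟨![⟨f1, h1⟩, ⟨f2, h2⟩], Derivation.ext fun x => Subtype.ext ?_⟩
      rw [hΦ, ← hD']
      rfl
  · obtain ⟨V, hC, ha, hb, hV⟩ := hbad
    have hAV : ∀ x : A, V.valuation (x : K) ≤ 1 := fun x => (V.valuation_le_one_iff _).2
      (abs_mem_val (fun f hf => (abs_const hC ha hb hf).1) x.2)
    let m : Ideal A :=
      { carrier := {x | V.valuation (x : K) < 1}
        add_mem' := fun hx hy => V.valuation.map_add_lt hx hy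
        zero_mem' := by simp
        smul_mem' := fun c x hx => by
          change V.valuation ((c : K) * x) < 1
          rw [map_mul]
          exact (mul_le_of_le_one_left' (hAV c)).trans_lt hx }
    have hm : ∀ x : A, x ∈ m ↔ V.valuation (x : K) < 1 := fun x => Iff.rfl
    have h1m : (1 : A) ∉ m := by simp [hm]
    have hprime : m.IsPrime := ⟨(Ideal.ne_top_iff_one m).2 h1m, fun {x y} hxy => by
      by_contra h
      rw [not_or, hm, hm] at h
      have e1 := le_antisymm (hAV x) (not_lt.1 h.1)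
      have e2 := le_antisymm (hAV y) (not_lt.1 h.2)
      change V.valuation ((x : K) * y) < 1 at hxy
      rw [map_mul, e1, e2, mul_one] at hxy
      exact lt_irrefl _ hxy⟩
    obtain ⟨hmax, hc⟩ := abs_point (B := B2 a b) m fun x => by
      obtain ⟨c, hc⟩ := (abs_const hC ha hb x.2).2
      exact ⟨c, (hm _).2 hc⟩
    refine ⟨m, hmax, fun hreg => ?_⟩
    obtain ⟨t1, ht1, t2, ht2, ht⟩ := abs_param hdim m
    obtain ⟨r, hr, hr'⟩ := abs_nakayama m hc ht1 ht2 ht w1 w2
    have hrK : ∀ x : A, ∃ g1 g2 : A, (r : K) * v1 x = g1 * v1 t1 + g2 * v1 t2 ∧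
        (r : K) * v2 x = g1 * v2 t1 + g2 * v2 t2 := fun x => by
      obtain ⟨g1, g2, e1, e2⟩ := hr' x
      exact ⟨g1, g2, congrArg Subtype.val e1, congrArg Subtype.val e2⟩
    have hrm : r ∉ m := fun h => h1m (by simpa using sub_mem h hr)
    have hr0 : (r : K) ≠ 0 := fun h => hrm (by simp [hm, h])
    have hΔ : v1 t1 * v2 t2 - v2 t1 * v1 t2 ≠ 0 := fun h => by
      obtain ⟨g1, g2, e1, e2⟩ := hrK a'
      obtain ⟨g3, g4, e3, e4⟩ := hrK b'
      change (r : K) * v1 a = _ at e1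
      change (r : K) * v2 a = _ at e2
      change (r : K) * v1 b = _ at e3
      change (r : K) * v2 b = _ at e4
      refine mul_ne_zero (mul_ne_zero hr0 hr0) hJ ?_
      calc (r : K) * r * (v1 a * v2 b - v2 a * v1 b)
          = (r * v1 a) * (r * v2 b) - (r * v2 a) * (r * v1 b) := by ring
        _ = (g1 * g4 - g2 * g3) * (v1 t1 * v2 t2 - v2 t1 * v1 t2) := by
          rw [e1, e2, e3, e4]
          ring
        _ = 0 := by rw [h, mul_zero]
    obtain ⟨h1, h2⟩ := hcoef (r * v2 t2 / (v1 t1 * v2 t2 - v2 t1 * v1 t2))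
      (-(r * v1 t2) / (v1 t1 * v2 t2 - v2 t1 * v1 t2)) fun α hα => by
        obtain ⟨g1, g2, e1, e2⟩ := hrK ⟨α, hα⟩
        refine (congrArg (IsIntegral (B2 a b)) ?_).mpr g1.2
        simp only [Derivation.add_apply, Derivation.smul_apply, smul_eq_mul, div_eq_mul_inv]
        linear_combination (v1 t1 * v2 t2 - v2 t1 * v1 t2)⁻¹ * (v2 t2 * e1 - v1 t2 * e2)
          + g1 * mul_inv_cancel₀ hΔ
    refine hrm ?_
    have e : r = ⟨_, h1⟩ * w1 t1 + ⟨_, h2⟩ * w2 t1 := Subtype.ext (by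
      change (r : K) = r * v2 t2 / (v1 t1 * v2 t2 - v2 t1 * v1 t2) * v1 t1
        + -(r * v1 t2) / (v1 t1 * v2 t2 - v2 t1 * v1 t2) * v2 t1
      simp only [div_eq_mul_inv]
      linear_combination (-r) * mul_inv_cancel₀ hΔ)
    rw [e]
    exact add_mem (m.mul_mem_left _ (hV _ t1.2).1) (m.mul_mem_left _ (hV _ t1.2).2)

end Crest.Agent.R278
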