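import Crest.Agent.R278.Defs

/-! # Seidenberg's lemma and Krull's lemma -/

set_option autoImplicit false

noncomputable section

namespace Crest.Agent.R278

variable {K : Type} [Field K] [Algebra ℂ K]

/-- commutator with the multiplication by `α` -/
def alg1Ad (α : K) : Module.End K (K → K) where
  toFun T := fun x => T (α * x) - α * T x
  map_add' S T := by funext x; simp only [Pi.add_apply]; ring
  map_smul' b T := by funext x; simp only [Pi.smul_apply, smul_eq_mul, RingHom.id_apply]; ring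

omit [Algebra ℂ K] in
theorem alg1Ad_apply (α : K) (T : K → K) (x : K) : alg1Ad α T x = T (α * x) - α * T x := rfl

theorem alg1Ad_comp (D : Derivation ℂ K K) (α : K) (T : K → K) (m : ℕ) :
    (alg1Ad α ^ (m + 1)) (D ∘ T) =
      D ∘ (alg1Ad α ^ (m + 1)) T + (((m : K) + 1) * D α) • (alg1Ad α ^ m) T := by
  have h1 : ∀ T : K → K, alg1Ad α (D ∘ T) = D ∘ alg1Ad α T + D α • T := fun T => by
    funext x
    simp only [alg1Ad_apply, Function.comp_apply, Pi.add_apply, Pi.smul_apply, smul_eq_mul, map_sub,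
      Derivation.leibniz]
    ring
  induction m with
  | zero => simpa using h1 T
  | succ m ih =>
    rw [pow_succ' _ (m + 1), Module.End.mul_apply, ih, map_add, map_smul, h1,
      ← Module.End.mul_apply, ← Module.End.mul_apply, ← pow_succ', ← pow_succ', add_assoc,
      ← add_smul]
    congr 2
    push_cast
    ring

theorem alg1Ad_iter (D : Derivation ℂ K K) (α : K) (n : ℕ) :
    ((alg1Ad α ^ n) ((⇑D)^[n]) = fun x => (n.factorial : K) * D α ^ n * x) ∧
      (alg1Ad α ^ (n + 1)) ((⇑D)^[n]) = 0 := by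
  have h0 : ∀ b : K, alg1Ad α (fun x => b * x) = 0 := fun b => by
    funext x; simp only [alg1Ad_apply, Pi.zero_apply]; ring
  have key : (alg1Ad α ^ n) ((⇑D)^[n]) = fun x => (n.factorial : K) * D α ^ n * x := by
    induction n with
    | zero => funext x; simp
    | succ n ih =>
      rw [Function.iterate_succ', alg1Ad_comp, pow_succ' _ n, Module.End.mul_apply, ih, h0]
      funext x
      simp only [Pi.add_apply, Function.comp_apply, Pi.zero_apply, map_zero, Pi.smul_apply,
        smul_eq_mul, Nat.factorial_succ]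
      push_cast
      ring
  exact ⟨key, by rw [pow_succ', Module.End.mul_apply, key, h0]⟩

/-- Seidenberg: a derivation preserving `R` maps elements integral over `R` into every rank one
valuation ring containing `R`. -/
theorem seidenberg (R : Subalgebra ℂ K) (D : Derivation ℂ K K) (hD : ∀ f ∈ R, D f ∈ R)
    (hR : IntermediateField.adjoin ℂ (R : Set K) = ⊤) (V : ValuationSubring K)
    (hV : ∀ f ∈ R, f ∈ V) (harch : Arch V) (α : K) (hα : IsIntegral R α) : D α ∈ V := by
  have : IsFractionRing R K := IsFractionRing.of_field R K fun z => by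
    have hz : z ∈ IntermediateField.adjoin ℂ (R : Set K) := hR ▸ IntermediateField.mem_top
    rw [IntermediateField.mem_adjoin_iff_div, Algebra.adjoin_eq] at hz
    obtain ⟨p, hp, q, hq, rfl⟩ := hz
    exact ⟨⟨p, hp⟩, ⟨q, hq⟩, rfl⟩
  obtain ⟨c, hc0, hc⟩ := hα.isAlmostIntegral
  have hc' : ∀ n : ℕ, (c : K) * α ^ n ∈ R := fun n => by
    obtain ⟨y, hy⟩ := hc n
    have h1 : (c : K) * α ^ n = y := hy.symm
    rw [h1]; exact y.2
  have hc1 : (c : K) ≠ 0 := fun h => nonZeroDivisors.ne_zero hc0 (Subtype.ext h)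
  have hmem : ∀ T : K → K, (∀ f ∈ R, T f ∈ R) → ∀ m j k : ℕ,
      (c : K) * α ^ j * (alg1Ad α ^ m) T (c * α ^ k) ∈ R := by
    intro T hT m
    induction m with
    | zero => exact fun j k => R.mul_mem (hc' j) (hT _ (hc' k))
    | succ m ih =>
      intro j k
      have h1 := R.sub_mem (ih j (k + 1)) (ih (j + 1) k)
      rw [pow_succ', Module.End.mul_apply, alg1Ad_apply,
        show α * (c * α ^ k) = c * α ^ (k + 1) by ring]
      convert h1 using 1
      ring
  refine harch (c * c) _ (mul_ne_zero hc1 hc1) fun n => hV _ ?_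
  have hit : ∀ f ∈ R, (⇑D)^[n] f ∈ R := fun f hf => by
    induction n with
    | zero => exact hf
    | succ n ih => rw [Function.iterate_succ_apply']; exact hD _ ih
  have h1 := hmem _ hit n 0 0
  rw [(alg1Ad_iter D α n).1] at h1
  have h2 := R.smul_mem h1 ((n.factorial : ℂ)⁻¹)
  have h3 : (n.factorial : ℂ) ≠ 0 := Nat.cast_ne_zero.2 n.factorial_ne_zero
  have h4 : (n.factorial : K) = algebraMap ℂ K (n.factorial : ℂ) := (map_natCast _ _).symm
  convert h2 using 1
  rw [h4, Algebra.smul_def, map_inv₀]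
  have h5 : algebraMap ℂ K (n.factorial : ℂ) ≠ 0 := (_root_.map_ne_zero _).2 h3
  field_simp

/-- Krull: a Noetherian normal domain is the intersection of discrete valuation rings which are
localizations at primes of the form `(A : β)`. -/
theorem krull_dvr (A : Subalgebra ℂ K) [IsNoetherianRing A]
    (hic : ∀ k : K, IsIntegral A k → k ∈ A)
    (hfr : ∀ k : K, ∃ p ∈ A, ∃ q ∈ A, q ≠ 0 ∧ k = p / q) (α : K) (hα : α ∉ A) :
    ∃ V : ValuationSubring K, (∀ f ∈ A, f ∈ V) ∧ α ∉ V ∧ Arch V ∧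
      (∀ f ∈ V, ∃ p ∈ A, ∃ s ∈ A, V.valuation s = 1 ∧ f = p / s) ∧
      ∃ β : K, β ∉ A ∧ ∀ c ∈ A, V.valuation c < 1 → c * β ∈ A := by
  have : IsFractionRing A K := IsFractionRing.of_field A K fun z => by
    obtain ⟨p, hp, q, hq, -, rfl⟩ := hfr z
    exact ⟨⟨p, hp⟩, ⟨q, hq⟩, rfl⟩
  let I : K → Ideal A := fun β =>
    { carrier := {c | (c : K) * β ∈ A}
      zero_mem' := by simp
      add_mem' := fun {a b} ha hb => by
        show ((a : K) + b) * β ∈ A
        rw [add_mul]; exact A.add_mem ha hb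
      smul_mem' := fun a b hb => by
        show ((a : K) * b) * β ∈ A
        rw [mul_assoc]; exact A.mul_mem a.2 hb }
  have hI : ∀ (β : K) (c : A), c ∈ I β ↔ (c : K) * β ∈ A := fun _ _ => Iff.rfl
  obtain ⟨_, ⟨a₀, ha₀, rfl⟩, hmax⟩ := set_has_maximal_iff_noetherian.2
    (inferInstance : IsNoetherian A A) {J | ∃ a : A, (a : K) * α ∉ A ∧ J = I (a * α)}
    ⟨_, 1, by simpa using hα, rfl⟩
  set β : K := a₀ * α with hβ
  set p : Ideal A := I β with hp
  have hprime : p.IsPrime := by
    refine ⟨fun h => ha₀ ?_, fun {x y} hxy => ?_⟩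
    · have : (1 : A) ∈ p := h ▸ Submodule.mem_top
      simpa using (hI _ _).1 this
    · by_contra hn
      rw [not_or] at hn
      have h1 : ((y * a₀ : A) : K) * α = y * β := by rw [hβ]; push_cast; ring
      refine hmax (I (((y * a₀ : A) : K) * α)) ⟨y * a₀, by rw [h1]; exact hn.2, rfl⟩ ?_
      rw [h1]
      refine lt_of_le_of_ne (fun c hc => ?_) (fun h => hn.1 ?_)
      · rw [hI, mul_left_comm]; exact A.mul_mem y.2 hc
      · rw [h, hI, ← mul_assoc]; exact hxy
  have hex : ∃ π ∈ p, ∃ u : A, u ∉ p ∧ (u : K) = π * β := by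
    by_contra hn
    push Not at hn
    refine ha₀ (hic β (isIntegral_of_smul_mem_submodule (Submodule.map (Algebra.linearMap A K) p) ?_
      ((IsNoetherian.noetherian p).map _) β ?_))
    · obtain ⟨x, hx, q, hq, hq0, hxq⟩ := hfr β
      intro h
      have h1 : (⟨q, hq⟩ : A) ∈ p := by
        rw [hI, hxq, mul_div_cancel₀ _ hq0]; exact hx
      have h2 : q ∈ Submodule.map (Algebra.linearMap A K) p := ⟨_, h1, rfl⟩
      rw [h] at h2
      exact hq0 h2
    · rintro _ ⟨x, hx, rfl⟩
      refine ⟨⟨x * β, hx⟩, ?_, mul_comm _ _⟩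
      by_contra h
      exact hn x hx _ h rfl
  obtain ⟨π, hπ, u, hu, huπ⟩ := hex
  let L : Subalgebra A K :=
    Localization.subalgebra.ofField K p.primeCompl (Ideal.primeCompl_le_nonZeroDivisors p)
  have hL : ∀ x : K, x ∈ L ↔ ∃ (a s : A) (_ : s ∉ p), x = (a : K) * (s : K)⁻¹ := fun _ => Iff.rfl
  have hne : ∀ s : A, s ∉ p → (s : K) ≠ 0 := fun s hs h =>
    hs ((Subtype.ext h : s = 0) ▸ p.zero_mem)
  have hAL : ∀ a : A, (a : K) ∈ L := fun a => L.algebraMap_mem a
  have hinv : ∀ s : A, s ∉ p → (s : K)⁻¹ ∈ L := fun s hs => (hL _).2 ⟨1, s, hs, by simp⟩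
  have : IsLocalRing L := IsLocalization.AtPrime.isLocalRing L p
  have : IsNoetherianRing L := IsLocalization.isNoetherianRing p.primeCompl L inferInstance
  have hprin : (IsLocalRing.maximalIdeal L).IsPrincipal := by
    refine ⟨algebraMap A L π, ?_⟩
    rw [← IsLocalization.AtPrime.map_eq_maximalIdeal p L]
    refine le_antisymm (Ideal.map_le_iff_le_comap.2 fun x hx => ?_)
      ((Ideal.span_singleton_le_iff_mem _).2 (Ideal.mem_map_of_mem _ hπ))
    refine Ideal.mem_span_singleton'.2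
      ⟨⟨x * β * (u : K)⁻¹, (hL _).2 ⟨⟨x * β, hx⟩, u, hu, rfl⟩⟩, Subtype.ext ?_⟩
    show (x : K) * β * (u : K)⁻¹ * π = x
    have := hne u hu
    field_simp
    rw [huπ]; ring
  have : ValuationRing L :=
    ((tfae_of_isNoetherianRing_of_isLocalRing_of_isDomain L).out 4 1).1 hprin
  have hor : ∀ x : K, x ∈ L.toSubring ∨ x⁻¹ ∈ L.toSubring := fun x => by
    rcases ValuationRing.isInteger_or_isInteger L x with ⟨y, hy⟩ | ⟨y, hy⟩
    · exact Or.inl (hy ▸ y.2)
    · exact Or.inr (hy ▸ y.2)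
  let V : ValuationSubring K := ValuationSubring.ofSubring L.toSubring hor
  have hVL : ∀ x : K, x ∈ V ↔ x ∈ L := fun _ => Iff.rfl
  have hval : ∀ s : A, s ∉ p → V.valuation s = 1 := fun s hs => by
    have h1 := (V.valuation_le_one_iff s).2 (hAL s)
    have h2 := (V.valuation_le_one_iff (s : K)⁻¹).2 (hinv s hs)
    rw [map_inv₀, inv_le_one₀ ((Valuation.pos_iff _).2 (hne s hs))] at h2
    exact le_antisymm h1 h2
  refine ⟨V, fun f hf => hAL ⟨f, hf⟩, ?_, ?_, ?_, β, ha₀, ?_⟩
  · intro h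
    obtain ⟨a, s, hs, h1⟩ := (hL _).1 h
    refine hs ((hI _ _).2 ?_)
    have h2 : (s : K) * β = a₀ * a := by
      have := hne s hs
      rw [hβ, h1]; field_simp
    rw [h2]; exact A.mul_mem a₀.2 a.2
  · intro c γ hc hn
    have h1 : IsAlmostIntegral L γ :=
      ⟨⟨c, (hVL c).1 (by simpa using hn 0)⟩, mem_nonZeroDivisors_of_ne_zero fun h => hc (congrArg Subtype.val h),
        fun n => ⟨⟨_, hn n⟩, rfl⟩⟩
    obtain ⟨y, hy⟩ := IsIntegrallyClosed.isIntegral_iff.1 h1.isIntegral
    exact hy ▸ y.2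
  · intro f hf
    obtain ⟨a, s, hs, h1⟩ := (hL _).1 hf
    exact ⟨a, a.2, s, s.2, hval s hs, by rw [h1, div_eq_mul_inv]⟩
  · intro c hc hv
    by_contra h
    exact hv.ne (hval ⟨c, hc⟩ h)

end Crest.Agent.R278
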