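import Crest.Agent.R278.Alg1

/-! # Integral closure of a polynomial ring `ℂ[a,b]` in a function field -/

set_option autoImplicit false

noncomputable section

namespace Crest.Agent.R278

variable {K : Type} [Field K] [Algebra ℂ K]

open Polynomial in
theorem alg2_integral_of_coprime {B L : Type*} [CommRing B] [IsDomain B] [IsIntegrallyClosed B]
    [DecompositionMonoid B] [Field L] [Algebra B L] [FaithfulSMul B L] (c1 c2 : B)
    (h : IsRelPrime c1 c2) (β : L) (h1 : IsIntegral B (c1 • β)) (h2 : IsIntegral B (c2 • β)) :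
    IsIntegral B β := by
  have unit : ∀ c : B, IsUnit c → IsIntegral B (c • β) → IsIntegral B β := by
    intro c hc hi
    obtain ⟨u, rfl⟩ := hc
    have := hi.smul ((u⁻¹ : Bˣ) : B)
    rwa [smul_smul, Units.inv_mul, one_smul] at this
  by_cases z1 : c1 = 0
  · subst z1; exact unit c2 (isRelPrime_zero_left.mp h) h2
  by_cases z2 : c2 = 0
  · subst z2; exact unit c1 (isRelPrime_zero_right.mp h) h1
  have e1 := IsIntegrallyClosed.minpoly_smul z2 h1
  have e2 := IsIntegrallyClosed.minpoly_smul z1 h2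
  rw [smul_comm c2 c1 β, e2] at e1
  set p := minpoly B (c1 • β) with hp
  set q := minpoly B (c2 • β) with hq
  have hn : q.natDegree = p.natDegree := by
    have := congrArg natDegree e1
    rwa [natDegree_scaleRoots, natDegree_scaleRoots] at this
  have hd : ∀ i, ∃ r, p.coeff i = c1 ^ (p.natDegree - i) * r := by
    intro i
    have := congrArg (fun f => coeff f i) e1
    simp only [coeff_scaleRoots, hn] at this
    have hr : IsRelPrime (c1 ^ (p.natDegree - i)) (c2 ^ (p.natDegree - i)) := h.pow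
    exact hr.dvd_of_dvd_mul_right ⟨q.coeff i, by rw [← this, mul_comm]⟩
  choose r hr using hd
  have pm : p.Monic := minpoly.monic h1
  refine ⟨X ^ p.natDegree + ∑ i : Fin p.natDegree, C (r i) * X ^ (i : ℕ),
    monic_X_pow_add (degree_sum_fin_lt _), ?_⟩
  have ha : aeval (c1 • β) p = 0 := minpoly.aeval B _
  rw [aeval_eq_sum_range, Finset.sum_range_succ, pm.coeff_natDegree, one_smul,
    Finset.sum_range] at ha
  have c0 : algebraMap B L c1 ≠ 0 := fun e =>
    z1 ((FaithfulSMul.algebraMap_injective B L) (by rw [e, map_zero]))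
  apply mul_left_cancel₀ (pow_ne_zero p.natDegree c0)
  rw [mul_zero, ← ha, ← aeval_def]
  simp only [map_add, map_pow, aeval_X, map_sum, map_mul, aeval_C]
  rw [mul_add, add_comm, Finset.mul_sum, Algebra.smul_def c1 β, mul_pow]
  congr 1
  refine Finset.sum_congr rfl fun i _ => ?_
  rw [hr i, Algebra.smul_def, map_mul, map_pow, mul_pow]
  have : algebraMap B L c1 ^ p.natDegree =
      algebraMap B L c1 ^ (p.natDegree - i) * algebraMap B L c1 ^ (i : ℕ) := by
    rw [← pow_add]; congr 1; omega
  rw [this]; ring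

open MvPolynomial

/-- `B2 a b` is a polynomial ring -/
def alg2_eqv (a b : K) (hind : AlgebraicIndependent ℂ ![a, b]) : S ≃ₐ[ℂ] B2 a b :=
  hind.aevalEquiv.trans (Subalgebra.equivOfEq _ _ (by
    unfold B2; congr 1; simp [Matrix.range_cons, Matrix.range_empty, Set.pair_comm]))

theorem alg2_eqv_coe (a b : K) (hind : AlgebraicIndependent ℂ ![a, b]) (f : S) :
    ((alg2_eqv a b hind f : B2 a b) : K) = aeval ![a, b] f :=
  hind.algebraMap_aevalEquiv f

theorem alg2_ufd (a b : K) (hind : AlgebraicIndependent ℂ ![a, b]) :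
    UniqueFactorizationMonoid (B2 a b) :=
  (alg2_eqv a b hind).toMulEquiv.uniqueFactorizationMonoid inferInstance

theorem alg2_noeth (a b : K) (hind : AlgebraicIndependent ℂ ![a, b]) :
    IsNoetherianRing (B2 a b) :=
  isNoetherianRing_of_ringEquiv S (alg2_eqv a b hind).toRingEquiv

theorem integral_of_coprime (a b : K) (hind : AlgebraicIndependent ℂ ![a, b]) (c1 c2 : S)
    (h : IsRelPrime c1 c2) (β : K) (h1 : IsIntegral (B2 a b) (aeval ![a, b] c1 * β))
    (h2 : IsIntegral (B2 a b) (aeval ![a, b] c2 * β)) : IsIntegral (B2 a b) β := by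
  have := alg2_ufd a b hind
  refine alg2_integral_of_coprime (alg2_eqv a b hind c1) (alg2_eqv a b hind c2) ?_ β ?_ ?_
  · intro d d1 d2
    have u : IsUnit ((alg2_eqv a b hind).symm d) :=
      h (by simpa using map_dvd (alg2_eqv a b hind).symm d1)
        (by simpa using map_dvd (alg2_eqv a b hind).symm d2)
    simpa using u.map (alg2_eqv a b hind)
  · rwa [Subalgebra.smul_def, smul_eq_mul, alg2_eqv_coe]
  · rwa [Subalgebra.smul_def, smul_eq_mul, alg2_eqv_coe]

theorem closure_finite (a b : K) (hind : AlgebraicIndependent ℂ ![a, b])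
    (halg : Algebra.IsAlgebraic (B2 a b) K) (hfg : (⊤ : IntermediateField ℂ K).FG) :
    Module.Finite (B2 a b) (integralClosure (B2 a b) K) ∧
      IsFractionRing (integralClosure (B2 a b) K) K := by
  have := alg2_ufd a b hind
  have := alg2_noeth a b hind
  let F := FractionRing (B2 a b)
  let _ : Algebra F K := FractionRing.liftAlgebra (B2 a b) K
  have := FractionRing.isScalarTower_liftAlgebra (B2 a b) K
  have : IsScalarTower ℂ F K := IsScalarTower.of_algebraMap_eq fun x => by
    rw [IsScalarTower.algebraMap_apply ℂ (B2 a b) F, ← IsScalarTower.algebraMap_apply (B2 a b) F K,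
      ← IsScalarTower.algebraMap_apply]
  have : Algebra.EssFiniteType ℂ K := IntermediateField.fg_top_iff.mp hfg
  have : Algebra.EssFiniteType F K := .of_comp ℂ F K
  have : Algebra.IsAlgebraic F K := IsFractionRing.comap_isAlgebraic_iff.mp halg
  have : Module.Finite F K := Algebra.finite_of_essFiniteType_of_isAlgebraic
  have : CharZero F := charZero_of_injective_algebraMap (algebraMap ℂ F).injective
  exact ⟨IsIntegralClosure.finite (B2 a b) F K _,
    integralClosure.isFractionRing_of_finite_extension F K⟩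

/-- `B2 a b` is a polynomial ring -/
theorem B2_props (a b : K) (hind : AlgebraicIndependent ℂ ![a, b]) :
    IsNoetherianRing (B2 a b) ∧ Algebra.FiniteType ℂ (B2 a b) ∧ ringKrullDim (B2 a b) = 2 ∧
      (∀ f : S, aeval ![a, b] f ∈ B2 a b) ∧ (∀ k ∈ B2 a b, ∃ f : S, aeval ![a, b] f = k) ∧
      (∀ f g : S, g ≠ 0 → IsIntegral (B2 a b) (aeval ![a, b] f / aeval ![a, b] g) → g ∣ f) := by
  have := alg2_ufd a b hind
  refine ⟨alg2_noeth a b hind, Algebra.FiniteType.equiv inferInstance (alg2_eqv a b hind), ?_,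
    fun f => ?_, fun k hk => ?_, fun f g hg hi => ?_⟩
  · rw [← ringKrullDim_eq_of_ringEquiv (alg2_eqv a b hind).toRingEquiv,
      MvPolynomial.ringKrullDim_of_isNoetherianRing, ringKrullDim_eq_zero_of_field]
    simp
  · rw [← alg2_eqv_coe a b hind]; exact (alg2_eqv a b hind f).2
  · exact ⟨(alg2_eqv a b hind).symm ⟨k, hk⟩, by rw [← alg2_eqv_coe a b hind]; simp⟩
  · let F := FractionRing (B2 a b)
    let _ : Algebra F K := FractionRing.liftAlgebra (B2 a b) K
    have := FractionRing.isScalarTower_liftAlgebra (B2 a b) K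
    have g0 : aeval ![a, b] g ≠ 0 := fun e => hg (hind (by rw [e, map_zero]))
    have e : aeval ![a, b] f / aeval ![a, b] g = algebraMap F K
        (algebraMap (B2 a b) F (alg2_eqv a b hind f) / algebraMap (B2 a b) F (alg2_eqv a b hind g)) := by
      rw [map_div₀, ← IsScalarTower.algebraMap_apply, ← IsScalarTower.algebraMap_apply,
        ← alg2_eqv_coe a b hind, ← alg2_eqv_coe a b hind]
      rfl
    have hi' := hi
    rw [e, isIntegral_algebraMap_iff (algebraMap F K).injective] at hi'
    obtain ⟨y, hy⟩ := IsIntegrallyClosed.algebraMap_eq_of_integral hi'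
    have e2 : (y : K) = aeval ![a, b] f / aeval ![a, b] g := by
      rw [e, ← hy, ← IsScalarTower.algebraMap_apply]; rfl
    refine ⟨(alg2_eqv a b hind).symm y, hind ?_⟩
    rw [map_mul, ← alg2_eqv_coe a b hind ((alg2_eqv a b hind).symm y), AlgEquiv.apply_symm_apply, e2]
    field_simp

theorem exists_dvr (a b : K) (hind : AlgebraicIndependent ℂ ![a, b])
    (halg : Algebra.IsAlgebraic (B2 a b) K) (hfg : (⊤ : IntermediateField ℂ K).FG)
    (α : K) (hα : ¬ IsIntegral (B2 a b) α) :
    ∃ V : ValuationSubring K, (∀ f, IsIntegral (B2 a b) f → f ∈ V) ∧ α ∉ V ∧ Arch V ∧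
      (∀ f ∈ V, ∃ p s, IsIntegral (B2 a b) p ∧ IsIntegral (B2 a b) s ∧ V.valuation s = 1 ∧
        f = p / s) ∧
      ∀ c1 c2 : S, IsRelPrime c1 c2 →
        V.valuation (aeval ![a, b] c1) = 1 ∨ V.valuation (aeval ![a, b] c2) = 1 := by
  obtain ⟨hfin, hfrac⟩ := closure_finite a b hind halg hfg
  have := alg2_noeth a b hind
  have hN : IsNoetherianRing (integralClosure (B2 a b) K) :=
    IsNoetherianRing.of_finite (B2 a b) _
  let A : Subalgebra ℂ K := (integralClosure (B2 a b) K).restrictScalars ℂ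
  have : IsNoetherianRing A := hN
  have mem : ∀ k : K, k ∈ A ↔ IsIntegral (B2 a b) k := fun k => Iff.rfl
  obtain ⟨V, h1, h2, h3, h4, β, hβ, h5⟩ := krull_dvr A
    (fun k hk => by
      have hk' : IsIntegral (integralClosure (B2 a b) K) k := hk
      exact isIntegral_trans (R := B2 a b) k hk')
    (fun k => by
      obtain ⟨p, q, hq, e⟩ := IsFractionRing.div_surjective (A := integralClosure (B2 a b) K) k
      exact ⟨p, p.2, q, q.2, fun e0 => nonZeroDivisors.ne_zero hq (Subtype.ext e0), e.symm⟩)
    α hα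
  refine ⟨V, h1, h2, h3, fun f hf => ?_, fun c1 c2 hc => ?_⟩
  · obtain ⟨p, hp, s, hs, e1, e2⟩ := h4 f hf
    exact ⟨p, s, hp, hs, e1, e2⟩
  · have mA : ∀ c : S, aeval ![a, b] c ∈ A := fun c => by
      rw [mem, ← alg2_eqv_coe a b hind]
      exact isIntegral_algebraMap (x := alg2_eqv a b hind c)
    have le1 : ∀ c : S, V.valuation (aeval ![a, b] c) ≤ 1 := fun c =>
      (V.valuation_le_one_iff _).mpr (h1 _ (mA c))
    by_contra hne
    rw [not_or] at hne
    exact hβ (integral_of_coprime a b hind c1 c2 hc β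
      (h5 _ (mA c1) (lt_of_le_of_ne (le1 c1) hne.1)) (h5 _ (mA c2) (lt_of_le_of_ne (le1 c2) hne.2)))

end Crest.Agent.R278
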