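import Crest.Agent.R278.Data

/-! # The finite checks -/

set_option autoImplicit false

namespace Crest.Agent.R278

def zL : L2 := [[0, 1]]
def vfA (f1 f3 : L2) : L2 := add2 f1 (mul2 zL f3)
def vfB (f1 f2 f3 : L2) : L2 :=
  add2 (add2 (smul2 (-2) (mul2 zL f1)) f2) (mul2 (sub2 (xpow 1) (mul2 zL zL)) f3)

def eQ : Fin 4 → ℚ := ![59436, 0, 59223, -142]
def QL : Fin 4 → L2 := ![QL0, QL1, QL2, QL3]
def bE : Fin 4 → L2 := ![bE0, bE1, bE2, bE3]
def uE : Fin 4 → ℕ := ![2, 2, 3, 3]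
def QZ (k : Fin 4) : L2 := shift2 (-eQ k) (QL k)
def A1 : L2 := vfA f1_1 f3_1
def B1 : L2 := vfB f1_1 f2_1 f3_1
def A2 : L2 := vfA f1_2 f3_2
def B2' : L2 := vfB f1_2 f2_2 f3_2
def etaA1 : Fin 4 → L2 := ![etaA0_1, etaA1_1, etaA2_1, etaA3_1]
def etaB1 : Fin 4 → L2 := ![etaB0_1, etaB1_1, etaB2_1, etaB3_1]
def etaA2 : Fin 4 → L2 := ![etaA0_2, etaA1_2, etaA2_2, etaA3_2]
def etaB2 : Fin 4 → L2 := ![etaB0_2, etaB1_2, etaB2_2, etaB3_2]
def sq (p : L2) : L2 := mul2 p p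

theorem cU1 : chkM false (xpow 1) UL (0 + 3) 2 (ext4 A1 etaU_1) (ext4 B1 []) = true := by
  decide +kernel
theorem cU2 : chkM false (xpow 1) UL (0 + 3) 2 (ext4 A2 etaU_2) (ext4 B2' []) = true := by
  decide +kernel
theorem cE1 : ∀ k : Fin 4, chkM true zL (QL k) (uE k + 2) 4
    (ext4 (shift2 (eQ k) A1) (etaA1 k)) (ext4 (shift2 (eQ k) B1) (etaB1 k)) = true := by
  decide +kernel
theorem cE2 : ∀ k : Fin 4, chkM true zL (QL k) (uE k + 2) (![3, 3, 5, 5] k)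
    (ext4 (shift2 (eQ k) A2) (etaA2 k)) (ext4 (shift2 (eQ k) B2') (etaB2 k)) = true := by
  decide +kernel

theorem cUx : ordOK false 1 (dx2 UL) = true := by decide +kernel
theorem cUbez : memF false UL (0 + 3) 1 (0 + 0 + 1) (sub2 (xpow (0 + 0)) (mul2 bU (dz2 UL))) = true := by
  decide +kernel
theorem cUe : ∀ k : Fin 4, ev1 (eQ k) (UL.headD []) ≠ 0 := by decide +kernel
theorem cUm : zero1 (add1 ((UL.headD []).drop 9) [-1]) = true := by decide +kernel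
theorem cQz : ∀ k : Fin 4, ordOK true (uE k) (dz2 (QL k)) = true := by decide +kernel
theorem cQx : ∀ k : Fin 4, ordOK true (uE k) (dx2 (QL k)) = true := by decide +kernel
theorem cQj : ∀ k : Fin 4, ordOK true (uE k) (QL k).tail = true := by decide +kernel
theorem cQ0 : ∀ k : Fin 4, QL k = (List.replicate (uE k + 1) 0 ++ [1]) :: (QL k).tail := by
  decide +kernel
theorem cEb : ∀ k : Fin 4, ordOK true (uE k + 1) (bE k) = true := by decide +kernel
theorem cEbez : ∀ k : Fin 4, memF true (QL k) (uE k + 2) 2 (uE k + 1 + uE k + 1)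
    (sub2 (xpow (uE k + 1 + uE k)) (mul2 (bE k) (dz2 (QL k)))) = true := by decide +kernel

theorem cdet : ordOK false 2 (sub2 (sub2 (mul2 (A1.take 2) (B2'.take 2)) (mul2 (A2.take 2) (B1.take 2)))
    ([] :: smul2 (1491 / 50) (sq (mul2 (UL.take 1) (mul2 (mul2 ((QZ 0).take 1) ((QZ 1).take 1))
      (mul2 ((QZ 2).take 1) ((QZ 3).take 1))))))) = true := by decide +kernel

end Crest.Agent.R278
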