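import Crest.Agent.R278.Cert1

/-! # The finite checks at infinity -/

set_option autoImplicit false

namespace Crest.Agent.R278

def lam1 : Option L2 :=
  mulO (mulO (powO (some (win 6 (sq UL))) 26) (powO (some (win 0 (sq (mul2 (QZ 0) (QZ 1))))) 34))
    (powO (some (win 4 (sq (mul2 (QZ 2) (QZ 3))))) 27)

def lam2 : Option L2 :=
  mulO (mulO (some (win 6 (sq UL)))
    (some (win 6 (mul2 (mul2 (QZ 0) (QZ 1)) (sq (mul2 (QZ 0) (QZ 1)))))))
    (some (win 4 (sq (mul2 (QZ 2) (QZ 3)))))

def chk3 (N : ℕ) (l : Option L2) (f1 f2 f3 : L2) : Bool :=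
  finChk N (mulO l (some (win 12 f1))) && finChk N (mulO l (some (win 12 f2))) &&
    finChk N (mulO l (some (win 12 f3)))

theorem cH2 : chk3 29 lam2 f1_2 f2_2 f3_2 = true := by decide +kernel

theorem cH1 : chk3 680 lam1 f1_1 f2_1 f3_1 = true := by decide +kernel

end Crest.Agent.R278
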