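import Crest.Agent.R278.Cert2

/-! # The jets exist -/

set_option autoImplicit false

noncomputable section

namespace Crest.Agent.R278

open MvPolynomial

def eC (k : Fin 4) : ℂ := (eQ k : ℂ)

def armU : Arm := ⟨den zz (xpow 1), den zz UL, 0, 3⟩
def armE (k : Fin 4) : Arm := ⟨den (lin (eC k)) zL, den (lin (eC k)) (QL k), uE k, 2⟩

theorem den_zL (y : S) : den y zL = y := by simp [zL]

theorem pz_zz : pderiv 0 zz = 1 := by simp
theorem px_zz : pderiv 1 zz = 0 := by simp
theorem pz_lin (e : ℂ) : pderiv 0 (lin e) = 1 := by simp [lin]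
theorem px_lin (e : ℂ) : pderiv 1 (lin e) = 0 := by simp [lin]

theorem den_to_lin (k : Fin 4) (p : L2) : den zz p = den (lin (eC k)) (shift2 (eQ k) p) := by
  rw [den_shift]; simp [lin, eC]

theorem armE_Q (k : Fin 4) : (armE k).Q = den zz (QZ k) := by
  rw [QZ, den_shift]; simp [armE, lin, eC, sub_eq_add_neg]

theorem vf_den (f1 f2 f3 : L2) :
    vf (den zz f1) (den zz f2) (den zz f3) = (den zz (vfA f1 f3), den zz (vfB f1 f2 f3)) := by
  have h2 : (C (2 : ℂ) : S) = 2 := rfl
  simp [vf, vfA, vfB, den_add, den_mul, den_sub, den_smul, den_zL, den_xpow, h2]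
  ring

theorem den1_degree : ∀ u : L1, (den1 (Polynomial.X : Polynomial ℂ) u).degree < u.length
  | [] => by simp
  | a :: u => by
    rw [den1_cons, List.length_cons]
    refine lt_of_le_of_lt (Polynomial.degree_add_le _ _) (max_lt ?_ ?_)
    · refine lt_of_le_of_lt Polynomial.degree_C_le ?_
      exact_mod_cast Nat.succ_pos _
    · rw [Polynomial.degree_mul, Polynomial.degree_X, add_comm]
      push_cast
      exact WithBot.add_lt_add_right (by simp) (den1_degree u)

theorem UL_eq : UL = UL.headD [] :: UL.tail := rfl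

theorem res_U : res armU.Q = Polynomial.X ^ 9 + den1 Polynomial.X ((UL.headD []).take 9) := by
  have h := den1_zero (Polynomial.X : Polynomial ℂ) _ cUm
  rw [den1_add] at h
  simp only [armU]
  rw [UL_eq, res_den, res_zz, ← UL_eq, den1_take_drop _ 9]
  simp at h
  simp
  linear_combination Polynomial.X ^ 9 * h

theorem U_lt : (den1 (Polynomial.X : Polynomial ℂ) ((UL.headD []).take 9)).degree < (9 : ℕ) :=
  lt_of_lt_of_le (den1_degree _) (by exact_mod_cast List.length_take_le _ _)

theorem U_monic : (res armU.Q).Monic := by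
  rw [res_U]; exact Polynomial.monic_X_pow_add U_lt

theorem U_deg : (res armU.Q).natDegree = 9 := by
  rw [res_U]
  apply Polynomial.natDegree_eq_of_degree_eq_some
  rw [Polynomial.degree_add_eq_left_of_degree_lt] <;> rw [Polynomial.degree_X_pow]
  exact U_lt

theorem armU_good : armU.Good where
  hw := by simp [armU]
  hQz := Fil_zero _
  hQx := Fil_zero _
  hQ := U_monic.ne_zero
  shape := Or.inl (by simp [armU, den_xpow])
  bez := by
    refine ⟨0, den zz bU, Fil_zero _, ?_⟩
    have := memF_spec false zz (den zz (xpow 1)) (by simp) UL _ _ _ _ cUbez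
    rw [den_sub, den_mul, den_xpow zz (0 + 0), ← den_dz zz pz_zz] at this
    exact this

theorem den1_replicate (y : S) : ∀ n, den1 y (List.replicate n 0 ++ [1]) = y ^ n
  | 0 => by simp
  | n + 1 => by simp [List.replicate_succ, den1_replicate y n, pow_succ']

theorem res_lin (e : ℂ) : res (lin e) = Polynomial.X - Polynomial.C e := by
  simp [lin, res]

theorem armE_shape (k : Fin 4) :
    (armE k).Q = (armE k).ζ ^ ((armE k).u + 1) + xx * den (lin (eC k)) (QL k).tail := by
  simp only [armE, den_zL]
  conv_lhs => rw [cQ0 k, den_cons, den1_replicate]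

theorem armE_good (k : Fin 4) : (armE k).Good where
  hw := by simp [armE]
  hQz := by
    have := ordOK_spec true _ _ (fun _ => (den_zL (lin (eC k))).symm) _ _ (cQz k)
    rw [← den_dz _ (pz_lin _)] at this
    exact span_pow_le _ this
  hQx := by
    have := ordOK_spec true _ _ (fun _ => (den_zL (lin (eC k))).symm) _ _ (cQx k)
    rw [← den_dx _ (px_lin _)] at this
    exact span_pow_le _ this
  hQ := by
    rw [armE_shape]
    simp only [map_add, map_mul, res_xx, zero_mul, add_zero, map_pow, armE, den_zL, res_lin]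
    exact pow_ne_zero _ (Polynomial.X_sub_C_ne_zero _)
  shape := by
    refine Or.inr ⟨?_, rfl, _, ?_, armE_shape k⟩
    · simp only [armE, den_zL, res_lin]; exact Polynomial.X_sub_C_ne_zero _
    · exact ordOK_spec true _ _ (fun _ => (den_zL (lin (eC k))).symm) _ _ (cQj k)
  bez := by
    refine ⟨uE k + 1, den (lin (eC k)) (bE k), span_pow_le _ ?_, ?_⟩
    · exact ordOK_spec true _ _ (fun _ => (den_zL (lin (eC k))).symm) _ _ (cEb k)
    · have := memF_spec true _ _ (fun _ => (den_zL (lin (eC k))).symm) (QL k) _ _ _ _ (cEbez k)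
      rw [den_sub, den_mul, den_xpow, ← den_dz _ (pz_lin _)] at this
      exact this

def cfg : Config where
  e := eC
  e_inj := by
    intro i j h
    have : eQ i = eQ j := by simpa [eC] using h
    revert i j
    suffices ∀ i j : Fin 4, eQ i = eQ j → i = j from fun i j _ h => this i j h
    decide +kernel
  hs := by simp [eC, eQ]; norm_num
  aU := armU
  aE := armE
  goodU := armU_good
  Uζ := by simp [armU, den_xpow]
  Uu := rfl
  Uw := rfl
  Ux := by
    have := ordOK_spec false zz xx (by simp) _ _ cUx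
    rw [← den_dx _ px_zz] at this
    simpa [armU, Ideal.mem_span_singleton] using this
  Umonic := U_monic
  Udeg := U_deg
  Ue := by
    intro k
    simp only [armU]
    have h : res (den zz UL) = den1 Polynomial.X (UL.headD []) := by
      conv_lhs => rw [UL_eq, res_den, res_zz]
    rw [h, ← Polynomial.coe_aeval_eq_eval, map_den1, Polynomial.aeval_X, eC, den1_ev]
    exact_mod_cast cUe k
  goodE := armE_good
  Eζ := fun k => den_zL _
  Eu := fun k => rfl
  Ew := fun k => rfl

theorem top_lam1 : Top 1342 (Lam armU armE 54 70 56) lam1 := by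
  have h1 := (Top_win 6 (sq UL)).pow 26
  have h2 := (Top_win 0 (sq (mul2 (QZ 0) (QZ 1)))).pow 34
  have h3 := (Top_win 4 (sq (mul2 (QZ 2) (QZ 3)))).pow 27
  have := (h1.mul h2).mul h3
  convert this using 1
  · simp only [Lam, armE_Q, sq, den_mul, armU]
    ring
  · rfl

theorem top_lam2 : Top 40 (Lam armU armE 2 3 2) lam2 := by
  have h1 := Top_win 6 (sq UL)
  have h2 := Top_win 6 (mul2 (mul2 (QZ 0) (QZ 1)) (sq (mul2 (QZ 0) (QZ 1))))
  have h3 := Top_win 4 (sq (mul2 (QZ 2) (QZ 3)))
  have := (h1.mul h2).mul h3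
  convert this using 1
  · simp only [Lam, armE_Q, sq, den_mul, armU]
    ring
  · rfl

theorem chk3_spec {N k : ℕ} {L : S} {l : Option L2} (hL : Top k L l) (hk : k + 24 = 2 * (N + 1) + 6)
    {f1 f2 f3 : L2} (h : chk3 (N + 1) l f1 f2 f3 = true) :
    ∃ η : S × S, Vd (N + 9) (L • vf (den zz f1) (den zz f2) (den zz f3) + xx ^ 4 • η) := by
  simp only [chk3, Bool.and_eq_true] at h
  have e : N + 9 + 1 = N + 1 + 9 := by ring
  apply Vd_of_reg <;> rw [e]
  · exact (hL.mul (Top_win 12 f1)).reg (by omega) h.1.1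
  · exact (hL.mul (Top_win 12 f2)).reg (by omega) h.1.2
  · exact (hL.mul (Top_win 12 f3)).reg (by omega) h.2

theorem det_eq : ∃ s : S, det (den zz A1, den zz B1) (den zz A2, den zz B2') =
    xx * (C (1491 / 50 : ℂ) * Lam armU armE 2 2 2) + xx ^ 2 * s := by
  have h := ordOK_spec false zz xx (by simp) _ _ cdet
  simp only [Set.pair_eq_singleton, Ideal.span_singleton_pow, Ideal.mem_span_singleton] at h
  simp only [den_sub, den_mul, den_cons, den1_nil, den_smul, sq, zero_add] at h
  have key : xx ^ 2 ∣ det (den zz A1, den zz B1) (den zz A2, den zz B2') -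
      xx * (C (1491 / 50 : ℂ) * Lam armU armE 2 2 2) := by
    have c1 : ((1491 / 50 : ℚ) : ℂ) = 1491 / 50 := by norm_num
    rw [c1] at h
    have t2 : ∀ p : L2, den zz (p.take 2) ≡ den zz p [SMOD (Ideal.span {xx ^ 2} : Ideal S)] := by
      intro p
      rw [SModEq.sub_mem, Ideal.mem_span_singleton, den_take_drop zz 2 p]
      exact ⟨-den zz (p.drop 2), by ring⟩
    have t1 : ∀ p : L2, den zz (p.take 1) ≡ den zz p [SMOD (Ideal.span {xx} : Ideal S)] := by
      intro p
      rw [SModEq.sub_mem, Ideal.mem_span_singleton, den_take_drop zz 1 p]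
      exact ⟨-den zz (p.drop 1), by ring⟩
    have d2 := ((t2 A1).mul (t2 B2')).sub ((t2 A2).mul (t2 B1))
    have d0 := (t1 UL).mul (((t1 (QZ 0)).mul (t1 (QZ 1))).mul ((t1 (QZ 2)).mul (t1 (QZ 3))))
    have d1 := d0.mul d0
    rw [SModEq.sub_mem, Ideal.mem_span_singleton] at d1 d2
    obtain ⟨a, ha⟩ := h
    obtain ⟨b, hb⟩ := d1
    obtain ⟨c, hc⟩ := d2
    refine ⟨a - c + C (1491 / 50 : ℂ) * b, ?_⟩
    simp only [det, Lam, armE_Q, armU]
    linear_combination ha - hc + xx * C (1491 / 50 : ℂ) * hb
  obtain ⟨s, hs⟩ := key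
  exact ⟨s, by linear_combination hs⟩

theorem exists_base : Nonempty Base := by
  refine ⟨{ toConfig := cfg
            W1 := (den zz A1, den zz B1)
            W2 := (den zz A2, den zz B2')
            U1 := exists_M false zz pz_zz px_zz _ UL (by simp) 0 3 2 _ _ _ _ cU1
            U2 := exists_M false zz pz_zz px_zz _ UL (by simp) 0 3 2 _ _ _ _ cU2
            E1 := fun k => ?_
            E2 := fun k => ?_
            H1 := ?_
            H2 := ?_
            c := 1491 / 50
            hc := by norm_num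
            hdet := det_eq }⟩
  · rw [den_to_lin k A1, den_to_lin k B1]
    exact exists_M true _ (pz_lin _) (px_lin _) zL (QL k) (fun _ => (den_zL _).symm) _ 2 4 _ _ _ _
      (cE1 k)
  · rw [den_to_lin k A2, den_to_lin k B2']
    exact exists_M true _ (pz_lin _) (px_lin _) zL (QL k) (fun _ => (den_zL _).symm) _ 2 _ _ _ _ _
      (cE2 k)
  · have := chk3_spec (N := 679) top_lam1 (by norm_num) cH1
    rwa [vf_den] at this
  · have := chk3_spec (N := 28) top_lam2 (by norm_num) cH2
    rwa [vf_den] at this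

end Crest.Agent.R278
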