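import Crest.Agent.R278.Filt
import Crest.Agent.R278.Alg3

/-! # Charts: the general lemma, the affine chart and the arm charts -/

set_option autoImplicit false

noncomputable section

namespace Crest.Agent.R278

open MvPolynomial

variable {K : Type} [Field K] [Algebra ℂ K]

/-- to check that a derivation preserves a subalgebra it suffices to look at generators -/
theorem adjoin_stable (D : Derivation ℂ K K) (s : Set K)
    (h : ∀ f ∈ s, D f ∈ Algebra.adjoin ℂ s) :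
    ∀ f ∈ Algebra.adjoin ℂ s, D f ∈ Algebra.adjoin ℂ s := by
  intro f hf
  induction hf using Algebra.adjoin_induction with
  | mem x hx => exact h x hx
  | algebraMap c => rw [Derivation.map_algebraMap]; exact zero_mem _
  | add x y _ _ hx hy => rw [map_add]; exact add_mem hx hy
  | mul x y hx' hy' hx hy =>
    rw [Derivation.leibniz, smul_eq_mul, smul_eq_mul]
    exact add_mem (mul_mem hx' hy) (mul_mem hy' hx)

theorem adjoin_le_val (V : ValuationSubring K) (hC : ∀ c : ℂ, algebraMap ℂ K c ∈ V) (s : Set K)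
    (h : ∀ f ∈ s, f ∈ V) : ∀ f ∈ Algebra.adjoin ℂ s, f ∈ V := by
  intro f hf
  induction hf using Algebra.adjoin_induction with
  | mem x hx => exact h x hx
  | algebraMap c => exact hC c
  | add x y _ _ hx hy => exact add_mem hx hy
  | mul x y _ _ hx hy => exact mul_mem hx hy

theorem der_root_ch1 (ξ : Derivation ℂ K K) {ρ h : K} {r : ℕ} (hr : 0 < r) (hρ : ρ ^ r * h = 1) :
    ξ ρ = algebraMap ℂ K (-(r : ℂ)⁻¹) * (ρ ^ (r + 1) * ξ h) := by
  have h1 := congrArg ξ hρ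
  rw [Derivation.leibniz, Derivation.leibniz_pow, Derivation.map_one_eq_zero] at h1
  simp only [smul_eq_mul, nsmul_eq_mul] at h1
  have hrC : (r : ℂ) ≠ 0 := Nat.cast_ne_zero.2 hr.ne'
  have h2 : algebraMap ℂ K (r : ℂ)⁻¹ * (r : K) = 1 := by
    rw [← map_natCast (algebraMap ℂ K), ← map_mul, inv_mul_cancel₀ hrC, map_one]
  obtain ⟨k, rfl⟩ := Nat.exists_eq_succ_of_ne_zero hr.ne'
  rw [map_neg]
  simp only [Nat.succ_eq_add_one, Nat.add_sub_cancel] at h1 h2 hρ ⊢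
  set c := algebraMap ℂ K (((k + 1 : ℕ) : ℂ))⁻¹
  linear_combination (c * ρ) * h1 - (ξ ρ * ρ ^ (k + 1) * h) * h2 - ξ ρ * hρ

omit [Algebra ℂ K] in
theorem val_eq_one_ch1 (V : ValuationSubring K) {x y : K} (hx : x ∈ V) (hy : y ∈ V)
    (h : V.valuation (x * y) = 1) : V.valuation x = 1 := by
  rw [map_mul] at h
  have hx' := (V.valuation_le_one_iff x).2 hx
  have hy' := (V.valuation_le_one_iff y).2 hy
  refine le_antisymm hx' ?_
  calc 1 = V.valuation x * V.valuation y := h.symm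
    _ ≤ V.valuation x * 1 := by gcongr
    _ = _ := mul_one _

theorem val_const_ch1 (V : ValuationSubring K) (hC : ∀ c : ℂ, algebraMap ℂ K c ∈ V) {c : ℂ}
    (hc : c ≠ 0) : V.valuation (algebraMap ℂ K c) = 1 := by
  refine val_eq_one_ch1 V (hC c) (hC c⁻¹) ?_
  rw [← map_mul, mul_inv_cancel₀ hc, map_one, map_one]

theorem chart_core (V : ValuationSubring K) (hC : ∀ c : ℂ, algebraMap ℂ K c ∈ V)
    (R0 : Subalgebra ℂ K) (hR0 : ∀ f ∈ R0, f ∈ V) (ξ1 ξ2 : Derivation ℂ K K)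
    (h1 : ∀ f ∈ R0, ξ1 f ∈ R0) (h2 : ∀ f ∈ R0, ξ2 f ∈ R0) (ρ' h : K) (hh : h ∈ R0) (r : ℕ)
    (hr : 0 < r) (hρ : ρ' ^ r * h = 1) (hρV : ρ' ∈ V) (n1 n2 : ℕ) (v1 v2 : Derivation ℂ K K)
    (hv1 : v1 = ρ' ^ n1 • ξ1) (hv2 : v2 = ρ' ^ n2 • ξ2) (a b a0 b0 : K) (ha0 : a0 ∈ R0)
    (hb0 : b0 ∈ R0) (ha : a = ρ' * a0) (hb : b = ρ' * b0)
    (gen : IntermediateField.adjoin ℂ (insert ρ' (R0 : Set K)) = ⊤)
    (s t : K) (hs : s ∈ V) (ht : t ∈ V) (w : K) (hw : V.valuation w = 1)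
    (hdet : v1 s * v2 t - v2 s * v1 t = w * ρ') : Chart V v1 v2 a b := by
  set R : Subalgebra ℂ K := Algebra.adjoin ℂ (insert ρ' (R0 : Set K)) with hR
  have hρR : ρ' ∈ R := Algebra.subset_adjoin (Set.mem_insert _ _)
  have hR0R : ∀ f ∈ R0, f ∈ R := fun f hf =>
    Algebra.subset_adjoin (Set.mem_insert_of_mem _ hf)
  have key : ∀ ξ : Derivation ℂ K K, (∀ f ∈ R0, ξ f ∈ R0) → ∀ n : ℕ, ∀ f ∈ R,
      (ρ' ^ n • ξ) f ∈ R := by
    intro ξ hξ n f hf
    rw [Derivation.smul_apply, smul_eq_mul]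
    refine mul_mem (pow_mem hρR n) (adjoin_stable ξ _ ?_ f hf)
    rintro g (rfl | hg)
    · rw [der_root_ch1 ξ hr hρ]
      exact mul_mem (algebraMap_mem _ _) (mul_mem (pow_mem hρR _) (hR0R _ (hξ h hh)))
    · exact hR0R _ (hξ g hg)
  refine ⟨⟨R, adjoin_le_val V hC _ ?_, ?_, ?_, ?_, ?_, ?_⟩, s, hs, t, ht, ?_⟩
  · rintro g (rfl | hg)
    · exact hρV
    · exact hR0 g hg
  · rw [ha]; exact mul_mem hρR (hR0R _ ha0)
  · rw [hb]; exact mul_mem hρR (hR0R _ hb0)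
  · rw [eq_top_iff, ← gen]
    exact IntermediateField.adjoin.mono _ _ _ Algebra.subset_adjoin
  · rw [hv1]; exact key ξ1 h1 n1
  · rw [hv2]; exact key ξ2 h2 n2
  · rw [hdet, map_mul, hw, one_mul]
    obtain ⟨k, rfl⟩ := Nat.exists_eq_succ_of_ne_zero hr.ne'
    refine val_eq_one_ch1 V hρV (y := ρ' ^ k * h) (mul_mem (pow_mem hρV k) (hR0 h hh)) ?_
    rw [← mul_assoc, ← pow_succ', hρ, map_one]

theorem der_div_pow_ch1 (D : Derivation ℂ K K) (f : K) {x : K} (hx : x ≠ 0) (m : ℕ) :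
    D (f / x ^ m) = (x * D f - m * f * D x) / x ^ (m + 1) := by
  have h1 : f = f / x ^ m * x ^ m := by field_simp
  have h2 := congrArg D h1
  rw [Derivation.leibniz, Derivation.leibniz_pow] at h2
  simp only [smul_eq_mul, nsmul_eq_mul] at h2
  rw [eq_div_iff (pow_ne_zero _ hx), h2]
  rcases m with _ | m
  · simp; ring
  · simp only [Nat.add_sub_cancel]
    field_simp
    ring

namespace Setup
variable (σ : Setup K)

theorem φ_C_ch1 (c : ℂ) : σ.φ (C c) = algebraMap ℂ K c := σ.φ.commutes c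

theorem φ_mem_alg_ch1 (R : Subalgebra ℂ K) (hz : σ.φ zz ∈ R) (hx : σ.φ xx ∈ R) (f : S) :
    σ.φ f ∈ R := by
  induction f using MvPolynomial.induction_on with
  | C c => rw [σ.φ_C_ch1]; exact algebraMap_mem _ c
  | add f g hf hg => rw [map_add]; exact add_mem hf hg
  | mul_X f i hf =>
    rw [map_mul]
    refine mul_mem hf ?_
    fin_cases i
    · exact hz
    · exact hx

theorem φ_mem (V : ValuationSubring K) (hC : ∀ c : ℂ, algebraMap ℂ K c ∈ V) (hz : σ.φ zz ∈ V)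
    (hx : σ.φ xx ∈ V) (f : S) : σ.φ f ∈ V := by
  induction f using MvPolynomial.induction_on with
  | C c => rw [σ.φ_C_ch1]; exact hC c
  | add f g hf hg => rw [map_add]; exact add_mem hf hg
  | mul_X f i hf =>
    rw [map_mul]
    refine mul_mem hf ?_
    fin_cases i
    · exact hz
    · exact hx

/-- value at the centre of the valuation -/
theorem val_eq_one_of_eval (V : ValuationSubring K) (hC : ∀ c : ℂ, algebraMap ℂ K c ∈ V)
    (z0 x0 : ℂ) (hz : V.valuation (σ.φ (zz - C z0)) < 1) (hx : V.valuation (σ.φ (xx - C x0)) < 1)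
    (f : S) (hf : eval ![z0, x0] f ≠ 0) : V.valuation (σ.φ f) = 1 := by
  have hmem : ∀ (g : S) (c : ℂ), V.valuation (σ.φ (g - C c)) < 1 → σ.φ g ∈ V := by
    intro g c h
    have : σ.φ g = σ.φ (g - C c) + algebraMap ℂ K c := by
      rw [map_sub, σ.φ_C_ch1]; ring
    rw [this]
    exact add_mem ((V.valuation_le_one_iff _).1 h.le) (hC c)
  have hzV := hmem _ _ hz
  have hxV := hmem _ _ hx
  have key : ∀ g : S, V.valuation (σ.φ (g - C (eval ![z0, x0] g))) < 1 := by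
    intro g
    induction g using MvPolynomial.induction_on with
    | C c => simp
    | add f g hf hg =>
      have : f + g - C (eval ![z0, x0] (f + g)) =
          (f - C (eval ![z0, x0] f)) + (g - C (eval ![z0, x0] g)) := by
        simp only [map_add]; ring
      rw [this, map_add]
      exact Valuation.map_add_lt _ hf hg
    | mul_X f i hf =>
      have : f * X i - C (eval ![z0, x0] (f * X i)) =
          (f - C (eval ![z0, x0] f)) * X i +
            C (eval ![z0, x0] f) * (X i - C (![z0, x0] i)) := by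
        simp only [map_mul, eval_X]; ring
      rw [this, map_add, map_mul, map_mul]
      have hi : V.valuation (σ.φ (X i - C (![z0, x0] i))) < 1 := by
        fin_cases i
        · exact hz
        · exact hx
      refine Valuation.map_add_lt _ ?_ ?_
      · rw [map_mul]
        exact mul_lt_one_of_lt_of_le hf
          ((V.valuation_le_one_iff _).2 (σ.φ_mem V hC hzV hxV _))
      · rw [map_mul, mul_comm]
        exact mul_lt_one_of_lt_of_le hi
          ((V.valuation_le_one_iff _).2 (σ.φ_mem V hC hzV hxV _))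
  have h1 := val_const_ch1 V hC hf
  have h2 : σ.φ f = algebraMap ℂ K (eval ![z0, x0] f) + σ.φ (f - C (eval ![z0, x0] f)) := by
    rw [map_sub, σ.φ_C_ch1]; ring
  rw [h2, Valuation.map_add_eq_of_lt_left _ (h1 ▸ key f), h1]

/-- the basic determinant -/
theorem det_zx (p1 p2 : S × S) (n1 n2 e1 e2 : ℕ) (hdet : det p1 p2 = xx * σ.g)
    (hr : n1 + n2 = σ.r + 1) (hE : e1 + e2 = σ.E + 1) (f h : S) :
    σ.tw n1 e1 p1 (σ.φ f) * σ.tw n2 e2 p2 (σ.φ h) - σ.tw n2 e2 p2 (σ.φ f) * σ.tw n1 e1 p1 (σ.φ h)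
      = σ.φ (pderiv 0 f * pderiv 1 h - pderiv 1 f * pderiv 0 h) * σ.ρ := by
  rw [tw_φ, tw_φ, tw_φ, tw_φ]
  have hx := σ.x_ne
  have h1 : act p1 f * act p2 h - act p2 f * act p1 h =
      xx * σ.g * (pderiv 0 f * pderiv 1 h - pderiv 1 f * pderiv 0 h) := by
    rw [← hdet]; simp only [act, det]; ring
  have h2 := congrArg σ.φ h1
  rw [map_sub, map_mul, map_mul, map_mul, map_mul] at h2
  have h3 : σ.ρ ^ n1 * σ.ρ ^ n2 = σ.ρ ^ σ.r * σ.ρ := by rw [← pow_add, hr, pow_succ]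
  have h4 : σ.φ xx ^ e1 * σ.φ xx ^ e2 = σ.φ xx ^ σ.E * σ.φ xx := by rw [← pow_add, hE, pow_succ]
  have h5 := σ.hρ
  set J := σ.φ (pderiv 0 f * pderiv 1 h - pderiv 1 f * pderiv 0 h)
  field_simp
  linear_combination (σ.ρ ^ n1 * σ.ρ ^ n2) * h2 + (σ.φ xx * σ.φ σ.g * J) * h3 +
    (σ.φ xx * J * σ.ρ) * h5 - (J * σ.ρ) * h4

theorem fn_pow (f : S) (T : ℕ) (hT : σ.E = 3 * σ.r + T) :
    σ.fn f ^ σ.r * σ.φ σ.g = σ.φ xx ^ T * σ.φ f ^ σ.r := by
  have hx := σ.x_ne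
  have h5 := σ.hρ
  rw [hT, pow_add, pow_mul] at h5
  rw [fn, div_pow, mul_pow]
  field_simp
  linear_combination (σ.φ f ^ σ.r) * h5

/-- the chart `x ≠ 0` -/
theorem aff_chart (p1 p2 : S × S) (n1 n2 e1 e2 : ℕ) (hdet : det p1 p2 = xx * σ.g)
    (hr : n1 + n2 = σ.r + 1) (hE : e1 + e2 = σ.E + 1)
    (V : ValuationSubring K) (hC : ∀ c : ℂ, algebraMap ℂ K c ∈ V) (hz : σ.φ zz ∈ V)
    (hx : V.valuation (σ.φ xx) = 1) (hρ : σ.ρ ∈ V) (α β : S) :
    Chart V (σ.tw n1 e1 p1) (σ.tw n2 e2 p2) (σ.fn α) (σ.fn β) := by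
  have hx0 := σ.x_ne
  have hxV : σ.φ xx ∈ V := (V.valuation_le_one_iff _).1 hx.le
  have hxi : (σ.φ xx)⁻¹ ∈ V := (V.valuation_le_one_iff _).1 (by rw [map_inv₀, hx, inv_one])
  set R0 : Subalgebra ℂ K := Algebra.adjoin ℂ {σ.φ zz, σ.φ xx, (σ.φ xx)⁻¹} with hR0
  have hz0 : σ.φ zz ∈ R0 := Algebra.subset_adjoin (by simp)
  have hxR : σ.φ xx ∈ R0 := Algebra.subset_adjoin (by simp)
  have hiR : (σ.φ xx)⁻¹ ∈ R0 := Algebra.subset_adjoin (by simp)
  have hφ := σ.φ_mem_alg_ch1 R0 hz0 hxR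
  have hdiv : ∀ (f : S) (n : ℕ), σ.φ f / σ.φ xx ^ n ∈ R0 := fun f n => by
    rw [div_eq_mul_inv, ← inv_pow]; exact mul_mem (hφ f) (pow_mem hiR n)
  have hst : ∀ (e : ℕ) (p : S × S), ∀ f ∈ R0, σ.tw 0 e p f ∈ R0 := by
    intro e p
    have h0 : ∀ f : S, σ.tw 0 e p (σ.φ f) ∈ R0 := fun f => by
      rw [tw_φ, pow_zero, div_mul_eq_mul_div, one_mul]; exact hdiv _ _
    refine adjoin_stable _ _ ?_
    rintro g (rfl | rfl | rfl)
    · exact h0 _
    · exact h0 _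
    · rw [Derivation.leibniz_inv, smul_eq_mul]
      exact mul_mem (neg_mem (pow_mem hiR 2)) (h0 _)
  refine chart_core V hC R0 (adjoin_le_val V hC _ ?_) (σ.tw 0 e1 p1) (σ.tw 0 e2 p2) (hst _ _)
    (hst _ _) σ.ρ (σ.φ σ.g / σ.φ xx ^ σ.E) (hdiv _ _) σ.r σ.hr ?_ hρ n1 n2 _ _ ?_ ?_ _ _
    (σ.φ α / σ.φ xx ^ 3) (σ.φ β / σ.φ xx ^ 3) (hdiv _ _) (hdiv _ _) ?_ ?_ ?_
    (σ.φ zz) (σ.φ xx) hz hxV 1 (map_one _) ?_
  · rintro g (rfl | rfl | rfl)
    · exact hz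
    · exact hxV
    · exact hxi
  · rw [← mul_div_assoc, σ.hρ, div_self (pow_ne_zero _ hx0)]
  · simp only [tw, smul_smul, pow_zero, mul_one_div]
  · simp only [tw, smul_smul, pow_zero, mul_one_div]
  · rw [fn, mul_div_assoc]
  · rw [fn, mul_div_assoc]
  · rw [eq_top_iff, ← σ.gen]
    refine IntermediateField.adjoin.mono _ _ _ ?_
    rintro g (rfl | rfl | rfl)
    · exact Set.mem_insert_of_mem _ hz0
    · exact Set.mem_insert_of_mem _ hxR
    · exact Set.mem_insert _ _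
  · rw [σ.det_zx p1 p2 n1 n2 e1 e2 hdet hr hE]
    simp

theorem Fil_div_mem_ch1 {ζ Q : S} {α n : ℕ} (R : Subalgebra ℂ K) (hz : σ.φ zz ∈ R)
    (hx : σ.φ xx ∈ R) (hζ : σ.φ ζ / σ.φ xx ∈ R) (hQ : σ.φ Q / σ.φ xx ^ α ∈ R) {f : S}
    (hf : f ∈ Fil ζ Q α n) : σ.φ f / σ.φ xx ^ n ∈ R := by
  have hx0 := σ.x_ne
  induction hf using Submodule.span_induction with
  | mem f hf =>
    obtain ⟨i, k, l, hn, rfl⟩ := hf
    obtain ⟨d, hd⟩ := Nat.exists_eq_add_of_le hn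
    have h1 : σ.φ xx ^ i * σ.φ xx ^ k * (σ.φ xx ^ α) ^ l = σ.φ xx ^ n * σ.φ xx ^ d := by
      rw [← pow_mul, ← pow_add, ← pow_add, ← pow_add, hd]
    have : σ.φ (xx ^ i * ζ ^ k * Q ^ l) / σ.φ xx ^ n =
        σ.φ xx ^ d * (σ.φ ζ / σ.φ xx) ^ k * (σ.φ Q / σ.φ xx ^ α) ^ l := by
      rw [map_mul, map_mul, map_pow, map_pow, map_pow, div_pow, div_pow]
      field_simp
      linear_combination (σ.φ ζ ^ k * σ.φ Q ^ l) * h1
    rw [this]
    exact mul_mem (mul_mem (pow_mem hx _) (pow_mem hζ _)) (pow_mem hQ _)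
  | zero => rw [map_zero, zero_div]; exact zero_mem _
  | add f g _ _ hf hg => rw [map_add, add_div]; exact add_mem hf hg
  | smul s f _ hf =>
    rw [smul_eq_mul, map_mul, mul_div_assoc]
    exact mul_mem (σ.φ_mem_alg_ch1 R hz hx s) hf

/-- the chart `ℂ[z, x, ζ/x, Q/x^α]` -/
theorem arm_chart (a : Arm) (ha : a.Good) (hw : a.w ≤ 3) (p1 p2 : S × S)
    (n1 n2 e1 e2 κ1 κ2 : ℕ) (hp1 : a.M κ1 p1) (hp2 : a.M κ2 p2) (hdet : det p1 p2 = xx * σ.g)
    (he1 : e1 = a.w * n1 + κ1) (he2 : e2 = a.w * n2 + κ2)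
    (hr : n1 + n2 = σ.r + 1) (hE : e1 + e2 = σ.E + 1)
    (V : ValuationSubring K) (hC : ∀ c : ℂ, algebraMap ℂ K c ∈ V) (hz : σ.φ zz ∈ V)
    (hx : V.valuation (σ.φ xx) < 1) (hζ : σ.φ a.ζ / σ.φ xx ∈ V)
    (hQ : σ.φ a.Q / σ.φ xx ^ a.α ∈ V) (hρ : σ.ρ / σ.φ xx ^ a.w ∈ V)
    (α β : S) (hα : α ∈ a.F (3 - a.w)) (hβ : β ∈ a.F (3 - a.w)) :
    Chart V (σ.tw n1 e1 p1) (σ.tw n2 e2 p2) (σ.fn α) (σ.fn β) := by
  have hx0 := σ.x_ne
  have hxV : σ.φ xx ∈ V := (V.valuation_le_one_iff _).1 hx.le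
  set R0 : Subalgebra ℂ K :=
    Algebra.adjoin ℂ {σ.φ zz, σ.φ xx, σ.φ a.ζ / σ.φ xx, σ.φ a.Q / σ.φ xx ^ a.α} with hR0
  have hz0 : σ.φ zz ∈ R0 := Algebra.subset_adjoin (by simp)
  have hxR : σ.φ xx ∈ R0 := Algebra.subset_adjoin (by simp)
  have hζR : σ.φ a.ζ / σ.φ xx ∈ R0 := Algebra.subset_adjoin (by simp)
  have hQR : σ.φ a.Q / σ.φ xx ^ a.α ∈ R0 := Algebra.subset_adjoin (by simp)
  have hR0V : ∀ f ∈ R0, f ∈ V := by
    refine adjoin_le_val V hC _ ?_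
    rintro g (rfl | rfl | rfl | rfl)
    · exact hz
    · exact hxV
    · exact hζ
    · exact hQ
  have hF : ∀ (n : ℕ) (f : S), f ∈ a.F n → σ.φ f / σ.φ xx ^ n ∈ R0 :=
    fun n f hf => σ.Fil_div_mem_ch1 R0 hz0 hxR hζR hQR hf
  have h0 : ∀ (κ : ℕ) (p : S × S) (f : S),
      σ.tw 0 κ p (σ.φ f) = σ.φ (act p f) / σ.φ xx ^ κ := fun κ p f => by
    rw [tw_φ, pow_zero, div_mul_eq_mul_div, one_mul]
  have hst : ∀ (κ : ℕ) (p : S × S), a.M κ p → ∀ f ∈ R0, σ.tw 0 κ p f ∈ R0 := by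
    intro κ p hp
    obtain ⟨m1, m2, m3, m4⟩ := hp
    refine adjoin_stable _ _ ?_
    rintro g (rfl | rfl | rfl | rfl)
    · rw [h0, act_zz]; exact hF _ _ m1
    · rw [h0, act_xx]; exact hF _ _ m2
    · convert hF _ _ m3 using 1
      have := der_div_pow_ch1 (σ.tw 0 κ p) (σ.φ a.ζ) hx0 1
      rw [pow_one] at this
      rw [this, h0, h0, act_xx, map_sub, map_mul, map_mul]
      field_simp
      ring
    · convert hF _ _ m4 using 1
      rw [der_div_pow_ch1 _ _ hx0, h0, h0, act_xx, map_sub, map_mul, map_mul, map_mul,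
        map_natCast]
      field_simp
      ring
  have hw2 := ha.hw
  obtain ⟨M, hM⟩ : ∃ M, M + 1 = κ1 + κ2 + a.w := ⟨κ1 + κ2 + a.w - 1, by omega⟩
  have hEM : σ.E = a.w * σ.r + M := by
    have : a.w * n1 + a.w * n2 = a.w * σ.r + a.w := by rw [← mul_add, hr, mul_add, mul_one]
    omega
  have hgM := ha.g_mem hp1 hp2 hdet hM
  have htw : ∀ (n κ : ℕ) (p : S × S),
      σ.tw n (a.w * n + κ) p = (σ.ρ / σ.φ xx ^ a.w) ^ n • σ.tw 0 κ p := by
    intro n κ p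
    simp only [tw, smul_smul]
    congr 1
    rw [pow_add, pow_mul, div_pow]
    field_simp
  have hfn : ∀ f : S, σ.fn f = σ.ρ / σ.φ xx ^ a.w * (σ.φ f / σ.φ xx ^ (3 - a.w)) := by
    intro f
    have : σ.φ xx ^ 3 = σ.φ xx ^ a.w * σ.φ xx ^ (3 - a.w) := by
      rw [← pow_add]; congr 1; omega
    rw [fn, this]
    field_simp
  have hunit : V.valuation (-(σ.φ (pderiv 0 a.Q) / σ.φ xx ^ a.u)) = 1 := by
    rw [Valuation.map_neg]
    obtain ⟨s, b, hb, hc⟩ := ha.bez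
    refine val_eq_one_ch1 V (hR0V _ (hF _ _ ha.hQz)) (hR0V _ (hF _ _ hb)) ?_
    have hcV := hR0V _ (hF _ _ hc)
    have : σ.φ (pderiv 0 a.Q) / σ.φ xx ^ a.u * (σ.φ b / σ.φ xx ^ s) =
        1 + -(σ.φ xx * (σ.φ (xx ^ (s + a.u) - b * pderiv 0 a.Q) / σ.φ xx ^ (s + a.u + 1))) := by
      rw [map_sub, map_mul, map_pow]
      field_simp
      ring
    rw [this]
    refine Valuation.map_one_add_of_lt _ ?_
    rw [Valuation.map_neg, map_mul]
    exact mul_lt_one_of_lt_of_le hx ((V.valuation_le_one_iff _).2 hcV)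
  refine chart_core V hC R0 hR0V (σ.tw 0 κ1 p1) (σ.tw 0 κ2 p2) (hst _ _ hp1)
    (hst _ _ hp2) (σ.ρ / σ.φ xx ^ a.w) (σ.φ σ.g / σ.φ xx ^ M) (hF _ _ hgM) σ.r σ.hr ?_ hρ
    n1 n2 _ _ (he1 ▸ htw _ _ _) (he2 ▸ htw _ _ _) _ _
    (σ.φ α / σ.φ xx ^ (3 - a.w)) (σ.φ β / σ.φ xx ^ (3 - a.w)) (hF _ _ hα) (hF _ _ hβ)
    (hfn _) (hfn _) ?_ (σ.φ xx) (σ.φ a.Q / σ.φ xx ^ a.α) hxV hQ _ hunit ?_
  · have h5 := σ.hρ
    rw [hEM, pow_add, pow_mul] at h5
    rw [div_pow]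
    field_simp
    exact h5
  · rw [eq_top_iff, ← σ.gen, IntermediateField.adjoin_le_iff]
    have hsub : insert (σ.ρ / σ.φ xx ^ a.w) (R0 : Set K) ⊆
        IntermediateField.adjoin ℂ (insert (σ.ρ / σ.φ xx ^ a.w) (R0 : Set K)) :=
      IntermediateField.subset_adjoin _ _
    rintro g (rfl | rfl | rfl)
    · exact hsub (Set.mem_insert_of_mem _ hz0)
    · exact hsub (Set.mem_insert_of_mem _ hxR)
    · have h1 := mul_mem (SetLike.mem_coe.1 (hsub (Set.mem_insert _ _)))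
        (pow_mem (SetLike.mem_coe.1 (hsub (Set.mem_insert_of_mem _ hxR))) a.w)
      rwa [div_mul_cancel₀ _ (pow_ne_zero _ hx0)] at h1
  · have hd := σ.det_zx p1 p2 n1 n2 e1 e2 hdet hr hE xx a.Q
    have hJ : pderiv 0 xx * pderiv 1 a.Q - pderiv 1 xx * pderiv 0 a.Q = -pderiv 0 a.Q := by
      simp
    rw [hJ, map_neg] at hd
    rw [der_div_pow_ch1 _ _ hx0, der_div_pow_ch1 _ _ hx0]
    have hαe : σ.φ xx ^ a.α = σ.φ xx ^ a.u * σ.φ xx ^ a.w := by rw [Arm.α, pow_add]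
    rw [pow_succ, hαe]
    field_simp
    linear_combination (σ.φ xx) * hd

theorem val_span_pow_ch1 (V : ValuationSubring K) (hle : ∀ f : S, V.valuation (σ.φ f) ≤ 1)
    {ζ : S} {d : V.ValueGroup} (hx : V.valuation (σ.φ xx) ≤ d) (hζ : V.valuation (σ.φ ζ) ≤ d)
    {n : ℕ} {f : S} (hf : f ∈ (Ideal.span {xx, ζ}) ^ n) : V.valuation (σ.φ f) ≤ d ^ n := by
  induction n generalizing f with
  | zero => simpa using hle f
  | succ n ih =>
    rw [pow_succ] at hf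
    refine Submodule.mul_induction_on hf ?_ ?_
    · intro m hm k hk
      rw [map_mul, map_mul, pow_succ]
      refine mul_le_mul' (ih hm) ?_
      obtain ⟨u, w, rfl⟩ := Ideal.mem_span_pair.1 hk
      rw [map_add]
      refine Valuation.map_add_le _ ?_ ?_
      · rw [map_mul, map_mul]; exact (mul_le_of_le_one_left' (hle u)).trans hx
      · rw [map_mul, map_mul]; exact (mul_le_of_le_one_left' (hle w)).trans hζ
    · intro x y hx hy
      rw [map_add]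
      exact Valuation.map_add_le _ hx hy

/-- valuations centred on the exceptional curves of an arm -/
theorem arm_region (a : Arm) (ha : a.Good) (hw : a.w ≤ 3) (M q : ℕ) (hq : M = a.α * q)
    (hq0 : 0 < q) (hM : σ.E = a.w * σ.r + M) (T : ℕ) (hT : σ.E = 3 * σ.r + T)
    (hgM : σ.g ∈ a.F M) (g0 g1 : S) (hg : σ.g = g0 * a.Q ^ q + xx * g1)
    (V : ValuationSubring K) (hC : ∀ c : ℂ, algebraMap ℂ K c ∈ V) (hz : σ.φ zz ∈ V)
    (hx : V.valuation (σ.φ xx) < 1) (hζ : V.valuation (σ.φ a.ζ) < 1)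
    (hg0 : V.valuation (σ.φ g0) = 1)
    (hnot : ¬ (σ.φ a.ζ / σ.φ xx ∈ V ∧ σ.φ a.Q / σ.φ xx ^ a.α ∈ V))
    (α : S) (hα : α ∈ (Ideal.span {xx, a.ζ}) ^ (3 - a.w)) : V.valuation (σ.fn α) < 1 := by
  have hx0 := σ.x_ne
  have hxV : σ.φ xx ∈ V := (V.valuation_le_one_iff _).1 hx.le
  set v := V.valuation with hv
  have hle : ∀ f : S, v (σ.φ f) ≤ 1 := fun f =>
    (V.valuation_le_one_iff _).2 (σ.φ_mem V hC hz hxV f)
  have hvx : 0 < v (σ.φ xx) := (Valuation.pos_iff _).2 hx0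
  -- the larger of the two valuations
  obtain ⟨d, hd0, hd1, hxd, hζd, hdQ⟩ : ∃ d : V.ValueGroup, 0 < d ∧ d < 1 ∧ v (σ.φ xx) ≤ d ∧
      v (σ.φ a.ζ) ≤ d ∧ d ^ a.α < v (σ.φ a.Q) := by
    by_cases h1 : σ.φ a.ζ / σ.φ xx ∈ V
    · refine ⟨v (σ.φ xx), hvx, hx, le_rfl, ?_, ?_⟩
      · have := (V.valuation_le_one_iff _).2 h1
        rwa [map_div₀, div_le_one₀ hvx] at this
      · by_contra h2
        refine hnot ⟨h1, (V.valuation_le_one_iff _).1 ?_⟩
        rw [map_div₀, map_pow, div_le_one₀ (pow_pos hvx _)]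
        exact not_lt.1 h2
    · have h2 : v (σ.φ xx) < v (σ.φ a.ζ) := by
        by_contra h2
        refine h1 ((V.valuation_le_one_iff _).1 ?_)
        rw [map_div₀, div_le_one₀ hvx]
        exact not_lt.1 h2
      have h3 := hvx.trans h2
      refine ⟨v (σ.φ a.ζ), h3, hζ, h2.le, le_rfl, ?_⟩
      rcases ha.shape with h | ⟨-, hw2, j, hj, hQ⟩
      · rw [h] at h2; exact absurd h2 (lt_irrefl _)
      · have h4 := σ.val_span_pow_ch1 V hle h2.le le_rfl hj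
        have h5 : v (σ.φ (xx * j)) < v (σ.φ (a.ζ ^ (a.u + 1))) := by
          rw [map_mul, map_mul, map_pow, map_pow, pow_succ']
          exact mul_lt_mul_of_lt_of_le_of_nonneg_of_pos h2 h4 zero_le (pow_pos h3 _)
        rw [hQ, map_add, Valuation.map_add_eq_of_lt_left _ h5, map_pow, map_pow, Arm.α, hw2]
        exact pow_lt_pow_right_of_lt_one₀ h3 hζ (by omega)
  have hQ0 : 0 < v (σ.φ a.Q) := (pow_pos hd0 _).trans hdQ
  have hα2 : 2 ≤ a.α := le_trans ha.hw (Nat.le_add_left _ _)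
  obtain ⟨N, hN⟩ : ∃ N, M = N + 1 := ⟨M - 1, by
    have : 0 < M := by rw [hq]; positivity
    omega⟩
  have hg1 : g1 ∈ a.F N := by
    refine ha.colon ?_
    have : xx * g1 = σ.g - g0 * a.Q ^ q := by rw [hg]; ring
    rw [this, ← hN]
    refine sub_mem hgM (Ideal.mul_mem_left _ _ ?_)
    rw [hq]
    exact Q_pow_mem q
  have key : ∀ f ∈ a.F N, v (σ.φ (xx * f)) < v (σ.φ a.Q) ^ q := by
    intro f hf
    induction hf using Submodule.span_induction with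
    | mem f hf =>
      obtain ⟨i, k, l, hn, rfl⟩ := hf
      simp only [map_mul, map_pow]
      rcases le_or_gt q l with hl | hl
      · calc v (σ.φ xx) * (v (σ.φ xx) ^ i * v (σ.φ a.ζ) ^ k * v (σ.φ a.Q) ^ l)
            ≤ v (σ.φ xx) * (1 * 1 * v (σ.φ a.Q) ^ q) := by
              gcongr _ * (?_ * ?_ * ?_)
              · exact pow_le_one₀ zero_le hx.le
              · exact pow_le_one₀ zero_le hζ.le
              · exact pow_le_pow_of_le_one zero_le (hle _) hl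
          _ < 1 * (1 * 1 * v (σ.φ a.Q) ^ q) :=
              mul_lt_mul_of_pos_right hx (by simpa using pow_pos hQ0 q)
          _ = _ := by simp
      · obtain ⟨m, rfl⟩ := Nat.exists_eq_add_of_lt hl
        have hik : a.α * (m + 1) ≤ i + k + 1 := by
          have : a.α * (l + m + 1) = a.α * l + a.α * (m + 1) := by ring
          omega
        calc v (σ.φ xx) * (v (σ.φ xx) ^ i * v (σ.φ a.ζ) ^ k * v (σ.φ a.Q) ^ l)
            ≤ d * (d ^ i * d ^ k * v (σ.φ a.Q) ^ l) := by gcongr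
          _ = d ^ (i + k + 1) * v (σ.φ a.Q) ^ l := by
              rw [pow_succ', pow_add, mul_assoc d]
          _ ≤ (d ^ a.α) ^ (m + 1) * v (σ.φ a.Q) ^ l := by
              rw [← pow_mul]
              gcongr ?_ * _
              exact pow_le_pow_of_le_one zero_le hd1.le hik
          _ < v (σ.φ a.Q) ^ (m + 1) * v (σ.φ a.Q) ^ l :=
              mul_lt_mul_of_pos_right (pow_lt_pow_left₀ hdQ zero_le (by omega)) (pow_pos hQ0 _)
          _ = _ := by rw [← pow_add]; congr 1; omega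
    | zero => simpa using pow_pos hQ0 q
    | add f g _ _ hf hg =>
      rw [mul_add, map_add]
      exact Valuation.map_add_lt _ hf hg
    | smul s f _ hf =>
      rw [smul_eq_mul, mul_left_comm, map_mul, map_mul]
      exact (mul_le_of_le_one_left' (hle s)).trans_lt hf
  have hgv : v (σ.φ σ.g) = v (σ.φ a.Q) ^ q := by
    have h1 : v (σ.φ (g0 * a.Q ^ q)) = v (σ.φ a.Q) ^ q := by
      rw [map_mul, map_mul, hg0, one_mul, map_pow, map_pow]
    rw [hg, map_add, Valuation.map_add_eq_of_lt_left _ (h1 ▸ key g1 hg1), h1]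
  have h1 := congrArg v (σ.fn_pow α T hT)
  rw [map_mul, map_mul, map_pow, map_pow, map_pow, hgv] at h1
  have h2 := σ.val_span_pow_ch1 V hle hxd hζd hα
  have h3 : T + (3 - a.w) * σ.r = a.α * q := by
    have : 3 * σ.r = a.w * σ.r + (3 - a.w) * σ.r := by
      rw [← add_mul]; congr 1; omega
    omega
  have h4 : v (σ.fn α) ^ σ.r * v (σ.φ a.Q) ^ q < 1 * v (σ.φ a.Q) ^ q := by
    calc v (σ.fn α) ^ σ.r * v (σ.φ a.Q) ^ q = v (σ.φ xx) ^ T * v (σ.φ α) ^ σ.r := h1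
      _ ≤ d ^ T * (d ^ (3 - a.w)) ^ σ.r := by gcongr
      _ = (d ^ a.α) ^ q := by rw [← pow_mul, ← pow_add, h3, pow_mul]
      _ < v (σ.φ a.Q) ^ q := pow_lt_pow_left₀ hdQ zero_le hq0.ne'
      _ = _ := (one_mul _).symm
  have h5 : v (σ.fn α) ^ σ.r < 1 := lt_of_mul_lt_mul_right h4 zero_le
  exact (pow_lt_one_iff_of_nonneg zero_le σ.hr.ne').1 h5

end Setup

end Crest.Agent.R278
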