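import Crest.Agent.R278.Filt

/-! # The degree filtration and vector fields with poles at infinity -/

set_option autoImplicit false

noncomputable section

namespace Crest.Agent.R278

open MvPolynomial

theorem res_ZZ : res ZZ = Polynomial.X ^ 2 := by
  unfold ZZ; rw [map_add, map_pow, res_xx, res_zz, zero_add]

theorem Dg_gen {n : ℕ} (i k : ℕ) (h : i + k ≤ n) : zz ^ i * ZZ ^ k ∈ Dg n :=
  Submodule.subset_span ⟨i, k, h, rfl⟩

theorem Dg_mono {m n : ℕ} (h : m ≤ n) {f : S} (hf : f ∈ Dg m) : f ∈ Dg n := by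
  refine Submodule.span_mono ?_ hf
  rintro _ ⟨i, k, hl, rfl⟩
  exact ⟨i, k, hl.trans h, rfl⟩

theorem Dg_mul {m n : ℕ} {f g : S} (hf : f ∈ Dg m) (hg : g ∈ Dg n) : f * g ∈ Dg (m + n) := by
  have h := Submodule.mul_mem_mul hf hg
  unfold Dg at h
  rw [Submodule.span_mul_span] at h
  refine (Submodule.span_le.2 ?_) h
  rintro _ ⟨_, ⟨i, k, hl, rfl⟩, _, ⟨i', k', hl', rfl⟩, rfl⟩
  have e : zz ^ i * ZZ ^ k * (zz ^ i' * ZZ ^ k') = zz ^ (i + i') * ZZ ^ (k + k') := by ring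
  change zz ^ i * ZZ ^ k * (zz ^ i' * ZZ ^ k') ∈ Dg (m + n)
  rw [e]
  exact Dg_gen _ _ (by omega)

theorem Dg_mul' {m n k : ℕ} {f g : S} (hf : f ∈ Dg m) (hg : g ∈ Dg n) (h : m + n ≤ k) :
    f * g ∈ Dg k := Dg_mono h (Dg_mul hf hg)

theorem C_mem_Dg (c : ℂ) (n : ℕ) : (C c : S) ∈ Dg n := by
  have h := Submodule.smul_mem _ c (Dg_gen (n := n) 0 0 (by simp))
  simpa [MvPolynomial.smul_eq_C_mul] using h

theorem zz_mem_Dg : zz ∈ Dg 1 := by
  simpa using Dg_gen (n := 1) 1 0 (by simp)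

theorem ZZ_mem_Dg : ZZ ∈ Dg 1 := by
  simpa using Dg_gen (n := 1) 0 1 (by simp)

theorem xx_mem_Dg : xx ∈ Dg 2 := by
  have e : xx = ZZ - zz * zz := by unfold ZZ; ring
  rw [e]
  exact Submodule.sub_mem _ (Dg_mono (by norm_num) ZZ_mem_Dg) (Dg_mul' zz_mem_Dg zz_mem_Dg le_rfl)

theorem xx_pow_mem_Dg (j : ℕ) : xx ^ j ∈ Dg (2 * j) := by
  induction j with
  | zero => simpa using C_mem_Dg 1 0
  | succ j ih => rw [pow_succ]; exact Dg_mul' ih xx_mem_Dg (by omega)

theorem al0_mem_Dg (e1 e2 e3 e4 : ℂ) : al0 e1 e2 e3 e4 ∈ Dg 3 := by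
  have hl : ∀ e, lin e ∈ Dg 1 := fun e => by
    unfold lin; exact Submodule.sub_mem _ zz_mem_Dg (C_mem_Dg e 1)
  have e : xx + lin e3 * lin e4 = ZZ - C (e3 + e4) * zz + C (e3 * e4) := by
    rw [map_add, map_mul, ZZ, lin, lin]; ring
  have h3 : xx + lin e3 * lin e4 ∈ Dg 1 := by
    rw [e]
    have h4 : C (e3 + e4) * zz ∈ Dg 1 := Dg_mul' (C_mem_Dg (e3 + e4) 0) zz_mem_Dg le_rfl
    exact Submodule.add_mem _ (Submodule.sub_mem _ ZZ_mem_Dg h4) (C_mem_Dg (e3 * e4) 1)
  have h12 : lin e1 * lin e2 ∈ Dg 2 := Dg_mul' (hl e1) (hl e2) le_rfl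
  unfold al0
  exact Dg_mul' h12 h3 le_rfl

/-- the linear lift `z^{2i+ε} ↦ z^ε Z^i` -/
def lift : Polynomial ℂ →ₗ[ℂ] S :=
  Polynomial.lsum fun k => LinearMap.toSpanSingleton ℂ S (zz ^ (k % 2) * ZZ ^ (k / 2))

theorem lift_monomial (k : ℕ) (c : ℂ) :
    lift (Polynomial.monomial k c) = C c * (zz ^ (k % 2) * ZZ ^ (k / 2)) := by
  unfold lift
  rw [Polynomial.lsum_apply, Polynomial.sum_monomial_index]
  · rw [LinearMap.toSpanSingleton_apply, MvPolynomial.smul_eq_C_mul]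
  · simp

theorem res_lift (f : Polynomial ℂ) : res (lift f) = f := by
  induction f using Polynomial.induction_on' with
  | add p q hp hq => rw [map_add, map_add, hp, hq]
  | monomial k c =>
    have hC : res (C c) = Polynomial.C c := by
      rw [← MvPolynomial.algebraMap_eq, AlgHom.commutes, Polynomial.algebraMap_eq]
    rw [lift_monomial, map_mul, map_mul, map_pow, map_pow, res_zz, res_ZZ, hC, ← pow_mul,
      ← pow_add, Nat.mod_add_div, Polynomial.C_mul_X_pow_eq_monomial]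

theorem lift_mem {n : ℕ} {f : Polynomial ℂ} (hf : f.natDegree ≤ 2 * n) : lift f ∈ Dg n := by
  rw [f.as_sum_range, map_sum]
  refine Submodule.sum_mem _ fun k hk => ?_
  rw [lift_monomial]
  have := Finset.mem_range.1 hk
  exact Dg_mul' (C_mem_Dg _ 0) (Dg_gen (n := n) _ _ (by omega)) (by omega)

theorem natDegree_res_le {n : ℕ} {f : S} (hf : f ∈ Dg n) : (res f).natDegree ≤ 2 * n := by
  induction hf using Submodule.span_induction with
  | mem f hf =>
    obtain ⟨i, k, hik, rfl⟩ := hf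
    rw [map_mul, map_pow, map_pow, res_zz, res_ZZ, ← pow_mul, ← pow_add,
      Polynomial.natDegree_X_pow]
    omega
  | zero => simp
  | add f g _ _ hf hg =>
    rw [map_add]
    exact (Polynomial.natDegree_add_le _ _).trans (max_le hf hg)
  | smul c f _ hf =>
    rw [map_smul]
    exact (Polynomial.natDegree_smul_le _ _).trans hf

theorem Dg_decomp {n : ℕ} {f : S} (hf : f ∈ Dg (n + 2)) :
    ∃ d ∈ Dg n, f = lift (res f) + xx * d := by
  have hres : ∀ i k : ℕ, res (zz ^ i * ZZ ^ k) = Polynomial.monomial (i + 2 * k) 1 := by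
    intro i k
    rw [map_mul, map_pow, map_pow, res_zz, res_ZZ, ← pow_mul, ← pow_add,
      Polynomial.X_pow_eq_monomial]
  have key : ∀ i k : ℕ, i + k ≤ n + 2 →
      ∃ d ∈ Dg n, zz ^ i * ZZ ^ k = lift (res (zz ^ i * ZZ ^ k)) + xx * d := by
    intro i
    induction i using Nat.strong_induction_on with
    | _ i ih =>
      intro k hik
      rcases lt_or_ge i 2 with hi | hi
      · refine ⟨0, Submodule.zero_mem _, ?_⟩
        have h1 : (i + 2 * k) % 2 = i := by omega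
        have h2 : (i + 2 * k) / 2 = k := by omega
        rw [hres, lift_monomial, h1, h2, map_one, one_mul, mul_zero, add_zero]
      · obtain ⟨j, rfl⟩ := Nat.exists_eq_add_of_le' hi
        obtain ⟨d, hd, e⟩ := ih j (by omega) (k + 1) (by omega)
        refine ⟨d - zz ^ j * ZZ ^ k, Submodule.sub_mem _ hd (Dg_gen _ _ (by omega)), ?_⟩
        have h1 : res (zz ^ (j + 2) * ZZ ^ k) = res (zz ^ j * ZZ ^ (k + 1)) := by
          rw [hres, hres, show j + 2 + 2 * k = j + 2 * (k + 1) by ring]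
        have h2 : zz ^ (j + 2) * ZZ ^ k = zz ^ j * ZZ ^ (k + 1) - xx * (zz ^ j * ZZ ^ k) := by
          rw [pow_succ ZZ]
          generalize ZZ ^ k = Y
          unfold ZZ; ring
        rw [h1]
        linear_combination h2 + e
  induction hf using Submodule.span_induction with
  | mem f hf =>
    obtain ⟨i, k, hik, rfl⟩ := hf
    exact key i k hik
  | zero => exact ⟨0, Submodule.zero_mem _, by simp⟩
  | add f g _ _ hf hg =>
    obtain ⟨d, hd, e⟩ := hf
    obtain ⟨d', hd', e'⟩ := hg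
    refine ⟨d + d', Submodule.add_mem _ hd hd', ?_⟩
    rw [map_add, map_add]
    linear_combination e + e'
  | smul c f _ hf =>
    obtain ⟨d, hd, e⟩ := hf
    refine ⟨c • d, Submodule.smul_mem _ _ hd, ?_⟩
    rw [map_smul, map_smul, mul_smul_comm, ← smul_add, ← e]

theorem Dg_colon {n : ℕ} {f : S} (hf : xx * f ∈ Dg (n + 2)) : f ∈ Dg n := by
  obtain ⟨d, hd, e⟩ := Dg_decomp hf
  rw [map_mul, res_xx, zero_mul, map_zero, zero_add] at e
  rw [mul_left_cancel₀ xx_ne e]; exact hd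

theorem Vd_add {d : ℕ} {p q : S × S} (hp : Vd d p) (hq : Vd d q) : Vd d (p + q) := by
  obtain ⟨f1, h1, f2, h2, f3, h3, rfl⟩ := hp
  obtain ⟨g1, k1, g2, k2, g3, k3, rfl⟩ := hq
  refine ⟨f1 + g1, Submodule.add_mem _ h1 k1, f2 + g2, Submodule.add_mem _ h2 k2,
    f3 + g3, Submodule.add_mem _ h3 k3, ?_⟩
  unfold vf
  ext1
  · simp only [Prod.fst_add]; ring
  · simp only [Prod.snd_add]; ring

theorem Vd_smul {d n : ℕ} {s : S} (hs : s ∈ Dg n) {p : S × S} (hp : Vd d p) :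
    Vd (d + n) (s • p) := by
  obtain ⟨f1, h1, f2, h2, f3, h3, rfl⟩ := hp
  refine ⟨s * f1, Dg_mul' hs h1 (by omega), s * f2, Dg_mul' hs h2 (by omega),
    s * f3, Dg_mul' hs h3 (by omega), ?_⟩
  unfold vf
  ext1
  · simp only [Prod.smul_fst, smul_eq_mul]; ring
  · simp only [Prod.smul_snd, smul_eq_mul]; ring

theorem det_mem_Dg {d1 d2 : ℕ} {p q : S × S} (hp : Vd d1 p) (hq : Vd d2 q) :
    det p q ∈ Dg (d1 + d2 + 3) := by
  obtain ⟨f1, h1, f2, h2, f3, h3, rfl⟩ := hp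
  obtain ⟨g1, k1, g2, k2, g3, k3, rfl⟩ := hq
  have e : det (vf f1 f2 f3) (vf g1 g2 g3) =
      f1 * g2 - f2 * g1 + ZZ * (f1 * g3 - f3 * g1) + zz * (f3 * g2 - f2 * g3) := by
    unfold det vf ZZ; ring
  rw [e]
  have hm : ∀ {f g : S}, f ∈ Dg (d1 + 1) → g ∈ Dg (d2 + 1) → f * g ∈ Dg (d1 + d2 + 2) :=
    fun hf hg => Dg_mul' hf hg (by omega)
  refine Submodule.add_mem _ (Submodule.add_mem _ ?_ ?_) ?_
  · exact Dg_mono (by omega) (Submodule.sub_mem _ (hm h1 k2) (hm h2 k1))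
  · exact Dg_mul' ZZ_mem_Dg (Submodule.sub_mem _ (hm h1 k3) (hm h3 k1)) (by omega)
  · exact Dg_mul' zz_mem_Dg (Submodule.sub_mem _ (hm h3 k2) (hm h2 k3)) (by omega)

/-- `T(d)|_C = O(2d+3)²`: sections surject onto subschemes of length `≤ 2d+4`. -/
theorem Vd_surj (d : ℕ) (m : Polynomial ℂ) (hm : m ≠ 0) (hdeg : m.natDegree ≤ 2 * d + 4)
    (A B : Polynomial ℂ) : ∃ η : S × S, Vd d η ∧ m ∣ A - res η.1 ∧ m ∣ B - res η.2 := by
  have hrem : ∀ A : Polynomial ℂ, ∃ R : Polynomial ℂ, R.natDegree ≤ 2 * d + 3 ∧ m ∣ A - R := by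
    intro A
    refine ⟨A % m, ?_, ⟨A / m, ?_⟩⟩
    · by_cases h0 : A % m = 0
      · rw [h0]; simp
      · have := Polynomial.natDegree_lt_natDegree h0 (Polynomial.degree_mod_lt A hm)
        omega
    · rw [sub_eq_iff_eq_add]; exact (EuclideanDomain.div_add_mod A m).symm
  have hC : ∀ c : ℂ, res (C c) = Polynomial.C c := by
    intro c
    rw [← MvPolynomial.algebraMap_eq, AlgHom.commutes, Polynomial.algebraMap_eq]
  obtain ⟨R, hR, hmR⟩ := hrem A
  set η1 : S × S := vf (C (R.coeff 0)) 0 (lift R.divX) with hη1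
  have hV1 : Vd d η1 := by
    refine ⟨_, C_mem_Dg _ _, _, Submodule.zero_mem _, _, lift_mem ?_, rfl⟩
    rw [Polynomial.natDegree_divX_eq_natDegree_tsub_one]; omega
  have hr1 : res η1.1 = R := by
    simp only [hη1, vf, map_add, map_mul, res_zz, res_lift, hC]
    linear_combination Polynomial.divX_mul_X_add R
  obtain ⟨T, hT, hmT⟩ := hrem (B - res η1.2)
  set f := T.divX.divX with hf
  set g : Polynomial ℂ := Polynomial.C (T.coeff 0) + Polynomial.C (T.divX.coeff 0) * Polynomial.X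
    with hg
  have hfd : f.natDegree ≤ 2 * d + 1 := by
    rw [hf, Polynomial.natDegree_divX_eq_natDegree_tsub_one,
      Polynomial.natDegree_divX_eq_natDegree_tsub_one]; omega
  have hXf : (Polynomial.X * f).natDegree ≤ 2 * (d + 1) := by
    refine Polynomial.natDegree_mul_le.trans ?_
    rw [Polynomial.natDegree_X]; omega
  have hgd : g.natDegree ≤ 2 * (d + 1) := by
    have : g.natDegree ≤ 1 := by rw [hg]; compute_degree
    omega
  have hTe : T = Polynomial.X ^ 2 * f + g := by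
    have e1 := Polynomial.divX_mul_X_add T
    have e2 := Polynomial.divX_mul_X_add T.divX
    rw [hg, hf]
    linear_combination -e1 - Polynomial.X * e2
  set η2 : S × S := vf (-(lift (Polynomial.X * f))) (lift g) (lift f) with hη2
  have hV2 : Vd d η2 :=
    ⟨_, Submodule.neg_mem _ (lift_mem hXf), _, lift_mem hgd, _, lift_mem (by omega), rfl⟩
  have hr21 : res η2.1 = 0 := by
    simp only [hη2, vf, map_add, map_mul, map_neg, res_zz, res_lift]
    ring
  have hr22 : res η2.2 = T := by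
    simp only [hη2, vf, map_add, map_mul, map_neg, map_sub, map_pow, res_zz, res_xx, res_lift,
      map_ofNat]
    rw [hTe]; ring
  refine ⟨η1 + η2, Vd_add hV1 hV2, ?_, ?_⟩
  · rw [Prod.fst_add, map_add, hr1, hr21, add_zero]; exact hmR
  · rw [Prod.snd_add, map_add, hr22, ← sub_sub]; exact hmT

end Crest.Agent.R278
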