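import Crest.Agent.R278.Chart1
import Crest.Agent.R278.Deg

/-! # The chart at infinity and the point at infinity of the conic -/

set_option autoImplicit false

noncomputable section

namespace Crest.Agent.R278

open MvPolynomial

variable {K : Type} [Field K] [Algebra ℂ K]

omit [Algebra ℂ K] in
theorem chart2_mem_iff (V : ValuationSubring K) (a : K) : a ∈ V ↔ V.valuation a ≤ 1 :=
  (V.valuation_le_one_iff a).symm

theorem chart2_val_C (V : ValuationSubring K) (hC : ∀ c : ℂ, algebraMap ℂ K c ∈ V) {c : ℂ}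
    (hc : c ≠ 0) : V.valuation (algebraMap ℂ K c) = 1 := by
  have h1 := (chart2_mem_iff V _).1 (hC c)
  have h2 := (chart2_mem_iff V _).1 (hC c⁻¹)
  have h0 : V.valuation (algebraMap ℂ K c) ≠ 0 := by simpa using hc
  rw [map_inv₀, map_inv₀, inv_le_one₀ (zero_lt_iff.2 h0)] at h2
  exact le_antisymm h1 h2

omit [Algebra ℂ K] in
theorem chart2_mul_lt (V : ValuationSubring K) {a b : K} (ha : a ∈ V) (hb : V.valuation b < 1) :
    V.valuation (a * b) < 1 := by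
  rw [map_mul]
  exact mul_lt_one_of_nonneg_of_lt_one_right ((V.valuation_le_one_iff a).2 ha) zero_le hb

omit [Algebra ℂ K] in
theorem chart2_add_eq_one (V : ValuationSubring K) {a b : K} (ha : V.valuation a = 1)
    (hb : V.valuation b < 1) : V.valuation (a + b) = 1 := by
  rw [V.valuation.map_add_eq_of_lt_left (by rwa [ha]), ha]

omit [Algebra ℂ K] in
theorem chart2_cancel (V : ValuationSubring K) {a c : K} (hc : V.valuation c = 1)
    (h : a * c ∈ V) : a ∈ V := by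
  rw [← V.valuation_le_one_iff] at h ⊢
  rwa [map_mul, hc, mul_one] at h

omit [Algebra ℂ K] in
theorem chart2_inv_lt (V : ValuationSubring K) {z : K} (hz : 1 < V.valuation z) :
    V.valuation z⁻¹ < 1 := by
  rw [map_inv₀]
  exact inv_lt_one_of_one_lt₀ hz

namespace Setup
variable (σ : Setup K)

theorem chart2_ZZ : σ.φ xx = σ.φ ZZ - σ.φ zz ^ 2 := by simp [ZZ]

theorem chart2_der (p : S × S) (f : S) : σ.der p (σ.φ f) = σ.φ (act p f) := by
  simp [der, act, σ.hδz, σ.hδx]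

theorem chart2_act_z (f1 f2 f3 : S) : act (vf f1 f2 f3) zz = f1 + zz * f3 := by
  simp [act, vf]

theorem chart2_act_Z (f1 f2 f3 : S) : act (vf f1 f2 f3) ZZ = f2 + ZZ * f3 := by
  simp [act, vf, ZZ]
  ring

/-- homogenisation: if `q, q z, q Z` lie in a subring closed under scalars, so does `q^n f` -/
theorem chart2_Dg (R : Subring K) (hC : ∀ c : ℂ, algebraMap ℂ K c ∈ R) {q : K} (hq : q ∈ R)
    (hz : q * σ.φ zz ∈ R) (hZ : q * σ.φ ZZ ∈ R) {n : ℕ} {f : S} (hf : f ∈ Dg n) :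
    q ^ n * σ.φ f ∈ R := by
  induction hf using Submodule.span_induction with
  | mem f hf =>
    obtain ⟨i, k, h, rfl⟩ := hf
    obtain ⟨j, rfl⟩ := Nat.exists_eq_add_of_le h
    have : q ^ (i + k + j) * σ.φ (zz ^ i * ZZ ^ k) =
        q ^ j * (q * σ.φ zz) ^ i * (q * σ.φ ZZ) ^ k := by
      rw [map_mul, map_pow, map_pow]; ring
    rw [this]
    exact mul_mem (mul_mem (pow_mem hq _) (pow_mem hz _)) (pow_mem hZ _)
  | zero => simp
  | add f g _ _ hf hg => rw [map_add, mul_add]; exact add_mem hf hg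
  | smul c f _ hf =>
    rw [map_smul, mul_smul_comm, Algebra.smul_def]
    exact mul_mem (hC c) hf

theorem chart2_u (V : ValuationSubring K)
    (hz : 1 < V.valuation (σ.φ zz)) (hZ : V.valuation (σ.φ ZZ) ≤ V.valuation (σ.φ zz)) :
    σ.φ zz ≠ 0 ∧ σ.φ ZZ * (σ.φ zz)⁻¹ ∈ V ∧
      σ.φ xx * (σ.φ zz)⁻¹ ^ 2 = σ.φ ZZ * (σ.φ zz)⁻¹ * (σ.φ zz)⁻¹ - 1 ∧
      V.valuation (σ.φ xx * (σ.φ zz)⁻¹ ^ 2) = 1 := by
  have h0 : σ.φ zz ≠ 0 := fun h => by simp [h] at hz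
  have hw : σ.φ ZZ * (σ.φ zz)⁻¹ ∈ V := by
    rw [chart2_mem_iff, map_mul, map_inv₀]
    exact mul_inv_le_one_of_le₀ hZ zero_le
  have hu : σ.φ xx * (σ.φ zz)⁻¹ ^ 2 = σ.φ ZZ * (σ.φ zz)⁻¹ * (σ.φ zz)⁻¹ - 1 := by
    rw [chart2_ZZ]; field_simp
  refine ⟨h0, hw, hu, ?_⟩
  rw [hu, sub_eq_neg_add]
  exact chart2_add_eq_one V (by simp) (chart2_mul_lt V hw (chart2_inv_lt V hz))

theorem chart2_stable (p : S × S) (d : ℕ) (hp : Vd d p) {y w u : K} (hy : y = (σ.φ zz)⁻¹)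
    (h0 : σ.φ zz ≠ 0) (hw : w = σ.φ ZZ * y) (hu : u = w * y - 1) :
    ∀ f ∈ Algebra.adjoin ℂ {y, w, u⁻¹}, (y ^ d • σ.der p) f ∈ Algebra.adjoin ℂ {y, w, u⁻¹} := by
  obtain ⟨f1, h1, f2, h2, f3, h3, rfl⟩ := hp
  have my : y ∈ Algebra.adjoin ℂ {y, w, u⁻¹} := Algebra.subset_adjoin (by simp)
  have mw : w ∈ Algebra.adjoin ℂ {y, w, u⁻¹} := Algebra.subset_adjoin (by simp)
  have mu : u⁻¹ ∈ Algebra.adjoin ℂ {y, w, u⁻¹} := Algebra.subset_adjoin (by simp)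
  have hyz : y * σ.φ zz = 1 := by rw [hy, inv_mul_cancel₀ h0]
  have key : ∀ {f : S}, f ∈ Dg (d + 1) → y ^ (d + 1) * σ.φ f ∈ Algebra.adjoin ℂ {y, w, u⁻¹} :=
    fun hf => σ.chart2_Dg (Algebra.adjoin ℂ {y, w, u⁻¹}).toSubring
      (fun c => Subalgebra.algebraMap_mem _ c) my (by rw [hyz]; exact one_mem _)
      (by rw [mul_comm, ← hw]; exact mw) hf
  have dz : σ.der (vf f1 f2 f3) y = -y ^ 2 * (σ.φ f1 + σ.φ zz * σ.φ f3) := by
    rw [hy, Derivation.leibniz_inv, chart2_der, chart2_act_z, map_add, map_mul, smul_eq_mul]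
  have Dy : (y ^ d • σ.der (vf f1 f2 f3)) y =
      -(y * (y ^ (d + 1) * σ.φ f1)) - y ^ (d + 1) * σ.φ f3 := by
    rw [Derivation.smul_apply, dz, smul_eq_mul]
    linear_combination (-(y ^ (d + 1)) * σ.φ f3) * hyz
  have Dw : (y ^ d • σ.der (vf f1 f2 f3)) w =
      y ^ (d + 1) * σ.φ f2 - w * (y ^ (d + 1) * σ.φ f1) := by
    rw [Derivation.smul_apply, hw, Derivation.leibniz, dz, chart2_der, chart2_act_Z, map_add,
      map_mul]
    simp only [smul_eq_mul]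
    linear_combination (-(y ^ (d + 1)) * σ.φ f3 * σ.φ ZZ) * hyz
  have my' : (y ^ d • σ.der (vf f1 f2 f3)) y ∈ Algebra.adjoin ℂ {y, w, u⁻¹} := by
    rw [Dy]; exact sub_mem (neg_mem (mul_mem my (key h1))) (key h3)
  have mw' : (y ^ d • σ.der (vf f1 f2 f3)) w ∈ Algebra.adjoin ℂ {y, w, u⁻¹} := by
    rw [Dw]; exact sub_mem (key h2) (mul_mem mw (key h1))
  refine adjoin_stable _ _ ?_
  rintro f (rfl | rfl | rfl)
  · exact my'
  · exact mw'
  · rw [Derivation.leibniz_inv, smul_eq_mul]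
    refine mul_mem (neg_mem (pow_mem mu 2)) ?_
    conv => enter [2, 2]; rw [hu]
    rw [map_sub, Derivation.leibniz, Derivation.map_one_eq_zero, sub_zero, smul_eq_mul, smul_eq_mul]
    exact add_mem (mul_mem mw my') (mul_mem my mw')

/-- the chart `y = 1/z`, `w = Z/z` -/
theorem inf_chart (p1 p2 : S × S) (n1 n2 e1 e2 d1 d2 : ℕ) (hp1 : Vd d1 p1) (hp2 : Vd d2 p2)
    (hdet : det p1 p2 = xx * σ.g) (hd1 : 2 * e1 = d1 + 3 * n1) (hd2 : 2 * e2 = d2 + 3 * n2)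
    (hr : n1 + n2 = σ.r + 1) (hE : e1 + e2 = σ.E + 1)
    (V : ValuationSubring K) (hC : ∀ c : ℂ, algebraMap ℂ K c ∈ V)
    (hz : 1 < V.valuation (σ.φ zz)) (hZ : V.valuation (σ.φ ZZ) ≤ V.valuation (σ.φ zz))
    (hρ : σ.ρ / σ.φ zz ^ 3 ∈ V) (α β : S) (hα : α ∈ Dg 3) (hβ : β ∈ Dg 3) :
    Chart V (σ.tw n1 e1 p1) (σ.tw n2 e2 p2) (σ.fn α) (σ.fn β) := by
  obtain ⟨h0, hwV, hu, huV⟩ := σ.chart2_u V hz hZ
  have hyV := chart2_inv_lt V hz
  obtain ⟨y, hy⟩ : ∃ y, y = (σ.φ zz)⁻¹ := ⟨_, rfl⟩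
  rw [← hy] at hwV hu huV hyV
  obtain ⟨w, hw⟩ : ∃ w, w = σ.φ ZZ * y := ⟨_, rfl⟩
  rw [← hw] at hwV hu
  obtain ⟨u, hux⟩ : ∃ u, u = σ.φ xx * y ^ 2 := ⟨_, rfl⟩
  rw [← hux] at hu huV
  have hu0 : u ≠ 0 := fun h => by simp [h] at huV
  have hx0 : σ.φ xx ≠ 0 := fun h => hu0 (by rw [hux, h, zero_mul])
  have hy0 : y ≠ 0 := by rw [hy]; exact inv_ne_zero h0
  have my : y ∈ Algebra.adjoin ℂ {y, w, u⁻¹} := Algebra.subset_adjoin (by simp)
  have mw : w ∈ Algebra.adjoin ℂ {y, w, u⁻¹} := Algebra.subset_adjoin (by simp)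
  have mu : u⁻¹ ∈ Algebra.adjoin ℂ {y, w, u⁻¹} := Algebra.subset_adjoin (by simp)
  have hyz : y * σ.φ zz = 1 := by rw [hy, inv_mul_cancel₀ h0]
  have key : ∀ {n : ℕ} {f : S}, f ∈ Dg n → y ^ n * σ.φ f ∈ Algebra.adjoin ℂ {y, w, u⁻¹} :=
    fun hf => σ.chart2_Dg (Algebra.adjoin ℂ {y, w, u⁻¹}).toSubring
      (fun c => Subalgebra.algebraMap_mem _ c) my (by rw [hyz]; exact one_mem _)
      (by rw [mul_comm, ← hw]; exact mw) hf
  have hρ' : σ.ρ / σ.φ zz ^ 3 = σ.ρ * y ^ 3 := by rw [hy, div_eq_mul_inv, inv_pow]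
  rw [hρ'] at hρ
  have htw : ∀ (p : S × S) (n e d : ℕ), 2 * e = d + 3 * n →
      σ.tw n e p = (σ.ρ * y ^ 3) ^ n • (u⁻¹ ^ e • (y ^ d • σ.der p)) := by
    intro p n e d hd
    rw [tw, smul_smul, smul_smul]
    congr 1
    have : (y ^ 2) ^ e = y ^ d * (y ^ 3) ^ n := by rw [← pow_mul, ← pow_mul, ← pow_add, hd]
    rw [hux, inv_pow, mul_pow, mul_pow, this]
    field_simp
  have hst : ∀ (p : S × S) (e d : ℕ), Vd d p → ∀ f ∈ Algebra.adjoin ℂ {y, w, u⁻¹},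
      (u⁻¹ ^ e • (y ^ d • σ.der p)) f ∈ Algebra.adjoin ℂ {y, w, u⁻¹} := by
    intro p e d hp f hf
    rw [Derivation.smul_apply, smul_eq_mul]
    exact mul_mem (pow_mem mu e) (σ.chart2_stable p d hp hy h0 hw hu f hf)
  have hfn : ∀ f : S, σ.fn f = σ.ρ * y ^ 3 * (y ^ 3 * σ.φ f * u⁻¹ ^ 3) := by
    intro f
    rw [fn, hux]
    field_simp
  have hg : σ.g ∈ Dg (d1 + d2 + 1) := Dg_colon (by rw [← hdet]; exact det_mem_Dg hp1 hp2)
  refine chart_core V hC (Algebra.adjoin ℂ {y, w, u⁻¹}) (adjoin_le_val V hC _ ?_) _ _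
    (hst p1 e1 d1 hp1) (hst p2 e2 d2 hp2) (σ.ρ * y ^ 3) (y ^ (d1 + d2 + 1) * σ.φ σ.g * u⁻¹ ^ σ.E)
    (mul_mem (key hg) (pow_mem mu _)) σ.r σ.hr ?_ hρ n1 n2 _ _ (htw p1 n1 e1 d1 hd1)
    (htw p2 n2 e2 d2 hd2) _ _ _ _ (mul_mem (key hα) (pow_mem mu 3)) (mul_mem (key hβ) (pow_mem mu 3))
    (hfn α) (hfn β) ?_ y w ((chart2_mem_iff V y).2 hyV.le) hwV (-1) (by simp) ?_
  · rintro f (rfl | rfl | rfl)
    · exact (chart2_mem_iff V _).2 hyV.le
    · exact hwV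
    · rw [chart2_mem_iff, map_inv₀, huV, inv_one]
  · have e : (y ^ 2) ^ σ.E = (y ^ 3) ^ σ.r * y ^ (d1 + d2 + 1) := by
      rw [← pow_mul, ← pow_mul, ← pow_add]; congr 1; omega
    have h1 : u ^ σ.E = (σ.ρ * y ^ 3) ^ σ.r * (y ^ (d1 + d2 + 1) * σ.φ σ.g) := by
      rw [hux, mul_pow, mul_pow, e, ← σ.hρ]; ring
    rw [← mul_assoc, ← h1, inv_pow, mul_inv_cancel₀ (pow_ne_zero _ hu0)]
  · rw [eq_top_iff, ← σ.gen, IntermediateField.adjoin_le_iff]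
    have hsub : ∀ f ∈ Algebra.adjoin ℂ {y, w, u⁻¹}, f ∈ IntermediateField.adjoin ℂ
        (insert (σ.ρ * y ^ 3) (Algebra.adjoin ℂ {y, w, u⁻¹} : Set K)) :=
      fun f hf => IntermediateField.subset_adjoin _ _ (Set.mem_insert_of_mem _ hf)
    have mz : σ.φ zz ∈ IntermediateField.adjoin ℂ
        (insert (σ.ρ * y ^ 3) (Algebra.adjoin ℂ {y, w, u⁻¹} : Set K)) := by
      have := inv_mem (hsub y my)
      rwa [show y⁻¹ = σ.φ zz by rw [hy, inv_inv]] at this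
    rintro f (rfl | rfl | rfl)
    · exact mz
    · have := mul_mem (inv_mem (hsub _ mu)) (pow_mem mz 2)
      rwa [inv_inv, show u * σ.φ zz ^ 2 = σ.φ xx by
        rw [hux, mul_assoc, ← mul_pow, hyz, one_pow, mul_one]] at this
    · have := mul_mem (IntermediateField.subset_adjoin ℂ _ (Set.mem_insert (σ.ρ * y ^ 3)
        (Algebra.adjoin ℂ {y, w, u⁻¹} : Set K))) (pow_mem mz 3)
      rwa [show σ.ρ * y ^ 3 * σ.φ zz ^ 3 = σ.ρ by
        rw [mul_assoc, ← mul_pow, hyz, one_pow, mul_one]] at this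
  · have hd := σ.det_zx p1 p2 n1 n2 e1 e2 hdet hr hE zz ZZ
    have hJ : (pderiv 0 zz * pderiv 1 ZZ - pderiv 1 zz * pderiv 0 ZZ : S) = 1 := by simp [ZZ]
    rw [hJ, map_one, one_mul] at hd
    have dy : ∀ v : Derivation ℂ K K, v y = -y ^ 2 * v (σ.φ zz) := fun v => by
      rw [hy, Derivation.leibniz_inv, smul_eq_mul]
    rw [hw, Derivation.leibniz, Derivation.leibniz, dy, dy]
    simp only [smul_eq_mul]
    linear_combination (-y ^ 3) * hd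

/-- in the chart at infinity, `ρ / z^3` is regular as soon as `a` and `b` are -/
theorem inf_rho (e1 e2 e3 e4 : ℂ) (hs : e1 + e2 - e3 - e4 ≠ 0)
    (V : ValuationSubring K) (hC : ∀ c : ℂ, algebraMap ℂ K c ∈ V)
    (hz : 1 < V.valuation (σ.φ zz)) (hZ : V.valuation (σ.φ ZZ) ≤ V.valuation (σ.φ zz))
    (ha : σ.fn (al0 e1 e2 e3 e4) ∈ V) (hb : σ.fn (al0 e3 e4 e1 e2) ∈ V) :
    σ.ρ / σ.φ zz ^ 3 ∈ V := by
  obtain ⟨h0, hwV, hu, huV⟩ := σ.chart2_u V hz hZ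
  have hyV := chart2_inv_lt V hz
  have hx0 : σ.φ xx ≠ 0 := fun h => by simp [h] at huV
  have key : ∀ a1 a2 a3 a4 : ℂ, σ.fn (al0 a1 a2 a3 a4) ∈ V → σ.ρ / σ.φ zz ^ 3 *
      (σ.φ ZZ * (σ.φ zz)⁻¹ - algebraMap ℂ K (a3 + a4) + algebraMap ℂ K (a3 * a4) * (σ.φ zz)⁻¹) ∈ V := by
    intro a1 a2 a3 a4 h
    have h1 : ∀ a : ℂ, V.valuation (1 + algebraMap ℂ K (-a) * (σ.φ zz)⁻¹) = 1 := fun a =>
      chart2_add_eq_one V (by simp) (chart2_mul_lt V (hC _) hyV)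
    refine chart2_cancel V (h1 a1) (chart2_cancel V (h1 a2) ?_)
    have h2 := mul_mem h (pow_mem ((chart2_mem_iff V _).2 huV.le) 3)
    convert h2 using 1
    have hC' : ∀ a : ℂ, σ.φ (C a) = algebraMap ℂ K a := fun a => σ.φ.commutes a
    have hZ' : σ.φ ZZ = σ.φ xx + σ.φ zz ^ 2 := by rw [chart2_ZZ]; ring
    simp only [fn, al0, lin, map_mul, map_add, map_sub, map_neg, hC', hZ']
    field_simp
    ring
  have h3 := sub_mem (key _ _ _ _ ha) (key _ _ _ _ hb)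
  refine chart2_cancel V (chart2_add_eq_one V (chart2_val_C V hC hs)
    (chart2_mul_lt V (hC (e3 * e4 - e1 * e2)) hyV)) ?_
  convert h3 using 1
  simp only [map_add, map_sub, map_mul]
  ring

/-- valuations centred at the point at infinity of the conic -/
theorem H_region (D T : ℕ) (hg : σ.g ∈ Dg (D + 2)) (hlead : (res σ.g).coeff (2 * (D + 2)) ≠ 0)
    (hT : σ.E = 3 * σ.r + T) (hT0 : 0 < T) (hD : D + 2 = 2 * T + 3 * σ.r)
    (V : ValuationSubring K) (hC : ∀ c : ℂ, algebraMap ℂ K c ∈ V)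
    (hZ : 1 < V.valuation (σ.φ ZZ)) (hz : V.valuation (σ.φ zz) < V.valuation (σ.φ ZZ))
    (α : S) (hα : α ∈ Dg 3) : V.valuation (σ.fn α) < 1 := by
  have h0 : σ.φ ZZ ≠ 0 := fun h => by simp [h] at hZ
  have hq := chart2_inv_lt V hZ
  obtain ⟨q, hq'⟩ : ∃ q, q = (σ.φ ZZ)⁻¹ := ⟨_, rfl⟩
  rw [← hq'] at hq
  have hqZ : q * σ.φ ZZ = 1 := by rw [hq', inv_mul_cancel₀ h0]
  have hp : V.valuation (q * σ.φ zz) < 1 := by
    rw [hq', map_mul, map_inv₀, mul_comm]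
    exact (mul_inv_lt_iff₀ (zero_lt_one.trans hZ)).2 (by rwa [one_mul])
  have mq := (chart2_mem_iff V _).2 hq.le
  have mp := (chart2_mem_iff V _).2 hp.le
  have key : ∀ {n : ℕ} {f : S}, f ∈ Dg n → q ^ n * σ.φ f ∈ V := fun hf =>
    σ.chart2_Dg V.toSubring hC mq mp (by rw [hqZ]; exact one_mem _) hf
  have hx : V.valuation (σ.φ xx * q ^ 2) < 1 := by
    have : σ.φ xx * q ^ 2 = q - (q * σ.φ zz) * (q * σ.φ zz) := by
      rw [chart2_ZZ]; linear_combination q * hqZ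
    rw [this]
    exact V.valuation.map_sub_lt hq (chart2_mul_lt V mp hp)
  have hC' : ∀ a : ℂ, σ.φ (C a) = algebraMap ℂ K a := fun a => σ.φ.commutes a
  have hgV : V.valuation (q ^ (D + 2) * σ.φ σ.g) = 1 := by
    obtain ⟨d, hd, hdec⟩ := Dg_decomp hg
    have hsum := (res σ.g).as_sum_range' (2 * (D + 2) + 1) (Nat.lt_succ_of_le (natDegree_res_le hg))
    have e1 : q ^ (D + 2) * σ.φ σ.g = algebraMap ℂ K ((res σ.g).coeff (2 * (D + 2))) +
        (∑ k ∈ Finset.range (2 * (D + 2)), algebraMap ℂ K ((res σ.g).coeff k) *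
          (q ^ (D + 2) * (σ.φ zz ^ (k % 2) * σ.φ ZZ ^ (k / 2))) +
          q ^ D * σ.φ d * (σ.φ xx * q ^ 2)) := by
      conv_lhs => rw [hdec, hsum]
      rw [map_sum, Finset.sum_range_succ]
      simp only [lift_monomial, map_add, map_sum, map_mul, map_pow, hC', mul_add, Finset.mul_sum]
      have h1 : (2 * D + 2 * 2) % 2 = 0 := by omega
      have h2 : (2 * D + 2 * 2) / 2 = D + 2 := by omega
      have h3 : q ^ (D + 2) * σ.φ ZZ ^ (D + 2) = 1 := by rw [← mul_pow, hqZ, one_pow]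
      rw [h1, h2, Finset.sum_congr rfl fun k _ => mul_left_comm (q ^ (D + 2)) _ _]
      linear_combination (algebraMap ℂ K ((res σ.g).coeff (2 * D + 2 * 2))) * h3
    rw [e1]
    refine chart2_add_eq_one V (chart2_val_C V hC hlead) (V.valuation.map_add_lt
      (V.valuation.map_sum_lt one_ne_zero fun k hk => chart2_mul_lt V (hC _) ?_)
      (chart2_mul_lt V (key hd) hx))
    rw [Finset.mem_range] at hk
    obtain ⟨j, hj⟩ : ∃ j, D + 2 = k / 2 + 1 + j := ⟨D + 2 - (k / 2 + 1), by omega⟩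
    have h3 : q ^ (k / 2) * σ.φ ZZ ^ (k / 2) = 1 := by rw [← mul_pow, hqZ, one_pow]
    rcases Nat.mod_two_eq_zero_or_one k with h | h
    · have : q ^ (D + 2) * (σ.φ zz ^ (k % 2) * σ.φ ZZ ^ (k / 2)) = q ^ j * q := by
        rw [h, hj]; linear_combination (q ^ j * q) * h3
      rw [this]
      exact chart2_mul_lt V (pow_mem mq j) hq
    · have : q ^ (D + 2) * (σ.φ zz ^ (k % 2) * σ.φ ZZ ^ (k / 2)) = q ^ j * (q * σ.φ zz) := by
        rw [h, hj]; linear_combination (q ^ j * q * σ.φ zz) * h3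
      rw [this]
      exact chart2_mul_lt V (pow_mem mq j) hp
  have e2 : σ.fn α ^ σ.r * (q ^ (D + 2) * σ.φ σ.g) =
      (q ^ 3 * σ.φ α) ^ σ.r * (σ.φ xx * q ^ 2) ^ T := by
    rw [mul_left_comm, σ.fn_pow α T hT, hD]; ring
  have e3 : V.valuation (σ.fn α) ^ σ.r < 1 := by
    have e4 := congrArg V.valuation e2
    rw [map_mul, hgV, mul_one, map_pow] at e4
    rw [e4]
    refine chart2_mul_lt V (pow_mem (key hα) _) ?_
    rw [map_pow]
    exact pow_lt_one₀ zero_le hx hT0.ne'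
  by_contra h
  exact absurd e3 (not_lt.2 (one_le_pow₀ (not_lt.1 h)))

end Setup

end Crest.Agent.R278
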