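import Mathlib

/-! # Row 278 (Zariski–Lipman counterexample): basic definitions

`S = ℂ[z,x]`, the conic is `x = 0` where `x = Z - z^2`.  Vector fields `A ∂z + B ∂x` are pairs
`(A, B) : S × S`. -/

set_option autoImplicit false

noncomputable section

namespace Crest.Agent.R278

open MvPolynomial

abbrev S : Type := MvPolynomial (Fin 2) ℂ

/-- the coordinate `z` -/
abbrev zz : S := X 0
/-- the equation of the conic -/
abbrev xx : S := X 1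
/-- the second affine coordinate of the plane -/
def ZZ : S := xx + zz ^ 2

/-- restriction to the conic `x = 0` -/
def res : S →ₐ[ℂ] Polynomial ℂ := aeval ![Polynomial.X, 0]
/-- polynomials in `z` -/
def emb : Polynomial ℂ →ₐ[ℂ] S := Polynomial.aeval zz

/-- action of the vector field `p.1 ∂z + p.2 ∂x` -/
def act (p : S × S) (f : S) : S := p.1 * pderiv 0 f + p.2 * pderiv 1 f

def det (p q : S × S) : S := p.1 * q.2 - q.1 * p.2

/-- the filtration in which `x, ζ` have weight `1` and `Q` has weight `α` -/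
def Fil (ζ Q : S) (α n : ℕ) : Ideal S :=
  Ideal.span {f | ∃ i k l : ℕ, n ≤ i + k + α * l ∧ f = xx ^ i * ζ ^ k * Q ^ l}

/-- data of a family of arms: `ζ = x, Q = U, (u,w) = (0,3)` for the `A₂` arms and
`ζ = z - e`, `Q` homogeneous of degree `α - 1`, `(u,w) = (α-2,2)` for the other arms -/
structure Arm where
  ζ : S
  Q : S
  u : ℕ
  w : ℕ

namespace Arm

def α (a : Arm) : ℕ := a.u + a.w

def F (a : Arm) (n : ℕ) : Ideal S := Fil a.ζ a.Q a.α n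

/-- vector fields `ξ` such that `x^{-κ} ξ` preserves `ℂ[z, x, ζ/x, Q/x^α]` -/
def M (a : Arm) (κ : ℕ) (p : S × S) : Prop :=
  p.1 ∈ a.F κ ∧ p.2 ∈ a.F κ ∧ xx * act p a.ζ - a.ζ * p.2 ∈ a.F (κ + 2) ∧
    xx * act p a.Q - (a.α : S) * a.Q * p.2 ∈ a.F (κ + a.α + 1)

structure Good (a : Arm) : Prop where
  hw : 2 ≤ a.w
  hQz : pderiv 0 a.Q ∈ a.F a.u
  hQx : pderiv 1 a.Q ∈ a.F a.u
  hQ : res a.Q ≠ 0
  shape : a.ζ = xx ∨ (res a.ζ ≠ 0 ∧ a.w = 2 ∧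
    ∃ j ∈ (Ideal.span {xx, a.ζ}) ^ a.u, a.Q = a.ζ ^ (a.u + 1) + xx * j)
  bez : ∃ s : ℕ, ∃ b ∈ a.F s, xx ^ (s + a.u) - b * pderiv 0 a.Q ∈ a.F (s + a.u + 1)

end Arm

/-- polynomials of degree `≤ n` in `(z, Z)` -/
def Dg (n : ℕ) : Submodule ℂ S :=
  Submodule.span ℂ {f | ∃ i k : ℕ, i + k ≤ n ∧ f = zz ^ i * ZZ ^ k}

/-- `f1 ∂z + f2 ∂Z + f3 (z ∂z + Z ∂Z)` written in the coordinates `(z, x)` -/
def vf (f1 f2 f3 : S) : S × S :=
  (f1 + zz * f3, -2 * zz * f1 + f2 + (xx - zz ^ 2) * f3)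

/-- vector fields with a pole of order `≤ d` along the line at infinity -/
def Vd (d : ℕ) (p : S × S) : Prop :=
  ∃ f1 ∈ Dg (d + 1), ∃ f2 ∈ Dg (d + 1), ∃ f3 ∈ Dg (d + 1), p = vf f1 f2 f3

/-- `z - e` -/
def lin (e : ℂ) : S := zz - C e

/-- `α₀ = π₁₂ (x + π₃₄)` -/
def al0 (e1 e2 e3 e4 : ℂ) : S := lin e1 * lin e2 * (xx + lin e3 * lin e4)

/-- the product `U^t Q₀^{q₀} Q₁^{q₀} Q₂^{q₁} Q₃^{q₁}` -/
def Lam (aU : Arm) (aE : Fin 4 → Arm) (t q0 q1 : ℕ) : S :=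
  aU.Q ^ t * (aE 0).Q ^ q0 * (aE 1).Q ^ q0 * (aE 2).Q ^ q1 * (aE 3).Q ^ q1

/-- the configuration of arms: nine `A₂` arms at the roots of `P = res U`, four arms at `e k` -/
structure Config where
  e : Fin 4 → ℂ
  e_inj : Function.Injective e
  hs : e 0 + e 1 - e 2 - e 3 ≠ 0
  aU : Arm
  aE : Fin 4 → Arm
  goodU : aU.Good
  Uζ : aU.ζ = xx
  Uu : aU.u = 0
  Uw : aU.w = 3
  Ux : xx ∣ pderiv 1 aU.Q
  Umonic : (res aU.Q).Monic
  Udeg : (res aU.Q).natDegree = 9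
  Ue : ∀ k, (res aU.Q).eval (e k) ≠ 0
  goodE : ∀ k, (aE k).Good
  Eζ : ∀ k, (aE k).ζ = lin (e k)
  Eu : ∀ k, (aE k).u = ![2, 2, 3, 3] k
  Ew : ∀ k, (aE k).w = 2

namespace Config
variable (c : Config)
/-- the common point `Q₀ = (z₀, x₀)` of the lines `x + π₁₂ = 0` and `x + π₃₄ = 0` -/
def z0 : ℂ := (c.e 0 * c.e 1 - c.e 2 * c.e 3) / (c.e 0 + c.e 1 - c.e 2 - c.e 3)
def x0 : ℂ := -((c.z0 - c.e 0) * (c.z0 - c.e 1))
def fa : S := al0 (c.e 0) (c.e 1) (c.e 2) (c.e 3)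
def fb : S := al0 (c.e 2) (c.e 3) (c.e 0) (c.e 1)
end Config

/-- the output of the finite computation (jets of order `3` along the conic) -/
structure Base extends Config where
  W1 : S × S
  W2 : S × S
  U1 : ∃ η : S × S, aU.M 2 (W1 + xx ^ 4 • η)
  U2 : ∃ η : S × S, aU.M 2 (W2 + xx ^ 4 • η)
  E1 : ∀ k, ∃ η : S × S, (aE k).M 4 (W1 + xx ^ 4 • η)
  E2 : ∀ k, ∃ η : S × S, (aE k).M (![3, 3, 5, 5] k) (W2 + xx ^ 4 • η)
  H1 : ∃ η : S × S, Vd 688 (Lam aU aE 54 70 56 • W1 + xx ^ 4 • η)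
  H2 : ∃ η : S × S, Vd 37 (Lam aU aE 2 3 2 • W2 + xx ^ 4 • η)
  c : ℂ
  hc : c ≠ 0
  hdet : ∃ s : S, det W1 W2 = xx * (C c * Lam aU aE 2 2 2) + xx ^ 2 * s

/-- the two global vector fields -/
structure Sol extends Config where
  p1 : S × S
  p2 : S × S
  U1 : aU.M 164 p1
  U2 : aU.M 8 p2
  E1 : ∀ k, (aE k).M 284 p1
  E2 : ∀ k, (aE k).M 15 p2
  V1 : Vd 688 p1
  V2 : Vd 37 p2
  g : S
  g1 : S
  c : ℂ
  hc : c ≠ 0
  hdet : det p1 p2 = xx * g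
  hg : g = C c * Lam aU aE 58 75 60 + xx * g1
  hQ0 : eval ![toConfig.z0, toConfig.x0] g ≠ 0

/-! ## the field side -/

section field
variable {K : Type} [Field K] [Algebra ℂ K]

/-- A valuation ring has a chart: a subring stable under both derivations, with fraction field `K`,
and the two derivations are dual to a pair of elements. -/
def Chart (V : ValuationSubring K) (v1 v2 : Derivation ℂ K K) (a b : K) : Prop :=
  (∃ R : Subalgebra ℂ K, (∀ f ∈ R, f ∈ V) ∧ a ∈ R ∧ b ∈ R ∧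
    IntermediateField.adjoin ℂ (R : Set K) = ⊤ ∧ (∀ f ∈ R, v1 f ∈ R) ∧ (∀ f ∈ R, v2 f ∈ R)) ∧
  ∃ s ∈ V, ∃ t ∈ V, V.valuation (v1 s * v2 t - v2 s * v1 t) = 1

/-- the valuation ring is archimedean (rank one) -/
def Arch (V : ValuationSubring K) : Prop :=
  ∀ c β : K, c ≠ 0 → (∀ n : ℕ, c * β ^ n ∈ V) → β ∈ V

/-- the polynomial ring generated by two elements -/
def B2 (a b : K) : Subalgebra ℂ K := Algebra.adjoin ℂ {a, b}

/-- The set-up on the field side: `K = ℂ(z, x, ρ)`, `ρ^r g = x^E`, `δz, δx` the partial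
derivatives. -/
structure Setup (K : Type) [Field K] [Algebra ℂ K] where
  φ : S →ₐ[ℂ] K
  inj : Function.Injective φ
  δz : Derivation ℂ K K
  δx : Derivation ℂ K K
  hδz : ∀ f, δz (φ f) = φ (pderiv 0 f)
  hδx : ∀ f, δx (φ f) = φ (pderiv 1 f)
  ρ : K
  g : S
  r : ℕ
  E : ℕ
  hr : 0 < r
  hρ : ρ ^ r * φ g = φ xx ^ E
  gen : IntermediateField.adjoin ℂ {φ zz, φ xx, ρ} = ⊤

namespace Setup
variable (σ : Setup K)

/-- the derivation of `K` defined by a polynomial vector field -/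
def der (p : S × S) : Derivation ℂ K K := σ.φ p.1 • σ.δz + σ.φ p.2 • σ.δx

/-- `ρ^n x^{-e} ξ` -/
def tw (n e : ℕ) (p : S × S) : Derivation ℂ K K := (σ.ρ ^ n / σ.φ xx ^ e) • σ.der p

/-- `ρ x^{-3} f` -/
def fn (f : S) : K := σ.ρ * σ.φ f / σ.φ xx ^ 3

end Setup
end field

end Crest.Agent.R278
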