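import Crest.Agent.R278.Defs

/-! # The arm filtrations -/

set_option autoImplicit false

noncomputable section

namespace Crest.Agent.R278

open MvPolynomial

theorem res_zz : res zz = Polynomial.X := by
  simp [res]

theorem res_xx : res xx = 0 := by
  simp [res]

theorem res_emb (f : Polynomial ℂ) : res (emb f) = f := by
  unfold emb
  rw [← Polynomial.aeval_algHom_apply, res_zz]
  simp

theorem xx_dvd_sub (f : S) : xx ∣ f - emb (res f) := by
  induction f using MvPolynomial.induction_on with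
  | C c =>
    have : emb (res (C c)) = C c := by
      rw [← MvPolynomial.algebraMap_eq, AlgHom.commutes, AlgHom.commutes]
    rw [this, sub_self]; exact dvd_zero _
  | add p q hp hq =>
    have : p + q - emb (res (p + q)) = (p - emb (res p)) + (q - emb (res q)) := by
      rw [map_add, map_add]; ring
    rw [this]; exact dvd_add hp hq
  | mul_X p i hp =>
    fin_cases i
    · have h1 : emb (res zz) = zz := by rw [res_zz]; simp [emb]
      have : p * zz - emb (res (p * zz)) = (p - emb (res p)) * zz := by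
        rw [map_mul, map_mul, h1]; ring
      exact this ▸ dvd_mul_of_dvd_left hp _
    · have : p * xx - emb (res (p * xx)) = xx * p := by
        rw [map_mul, res_xx, mul_zero, map_zero]; ring
      exact this ▸ dvd_mul_right _ _

theorem xx_dvd_iff (f : S) : xx ∣ f ↔ res f = 0 := by
  constructor
  · rintro ⟨g, rfl⟩
    rw [map_mul, res_xx, zero_mul]
  · intro h
    have := xx_dvd_sub f
    rwa [h, map_zero, sub_zero] at this

theorem xx_ne : (xx : S) ≠ 0 := X_ne_zero 1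

theorem act_add (p q : S × S) (f : S) : act (p + q) f = act p f + act q f := by
  simp only [act, Prod.fst_add, Prod.snd_add]; ring

theorem act_smul (s : S) (p : S × S) (f : S) : act (s • p) f = s * act p f := by
  simp only [act, Prod.smul_fst, Prod.smul_snd, smul_eq_mul]; ring

theorem act_zz (p : S × S) : act p zz = p.1 := by
  simp [act]

theorem act_xx (p : S × S) : act p xx = p.2 := by
  simp [act]

section Fil
variable {ζ Q : S} {α : ℕ}

theorem Fil_gen {n : ℕ} (i k l : ℕ) (h : n ≤ i + k + α * l) :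
    xx ^ i * ζ ^ k * Q ^ l ∈ Fil ζ Q α n :=
  Ideal.subset_span ⟨i, k, l, h, rfl⟩

theorem Fil_zero (f : S) : f ∈ Fil ζ Q α 0 := by
  have h := Fil_gen (ζ := ζ) (Q := Q) (α := α) (n := 0) 0 0 0 (Nat.zero_le _)
  have := Ideal.mul_mem_left _ f h
  simpa using this

theorem Fil_mono {m n : ℕ} (h : m ≤ n) {f : S} (hf : f ∈ Fil ζ Q α n) : f ∈ Fil ζ Q α m := by
  refine Ideal.span_mono ?_ hf
  rintro _ ⟨i, k, l, hl, rfl⟩
  exact ⟨i, k, l, h.trans hl, rfl⟩

theorem Fil_mul {m n : ℕ} {f g : S} (hf : f ∈ Fil ζ Q α m) (hg : g ∈ Fil ζ Q α n) :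
    f * g ∈ Fil ζ Q α (m + n) := by
  have h := Ideal.mul_mem_mul hf hg
  unfold Fil at h
  rw [Ideal.span_mul_span'] at h
  refine (Ideal.span_le.2 ?_) h
  rintro _ ⟨_, ⟨i, k, l, hl, rfl⟩, _, ⟨i', k', l', hl', rfl⟩, rfl⟩
  have e : xx ^ i * ζ ^ k * Q ^ l * (xx ^ i' * ζ ^ k' * Q ^ l') =
      xx ^ (i + i') * ζ ^ (k + k') * Q ^ (l + l') := by ring
  change xx ^ i * ζ ^ k * Q ^ l * (xx ^ i' * ζ ^ k' * Q ^ l') ∈ Fil ζ Q α (m + n)
  rw [e]
  refine Fil_gen _ _ _ ?_
  rw [mul_add]; omega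

/-- flexible form of multiplicativity -/
theorem Fil_mul' {m n k : ℕ} {f g : S} (hf : f ∈ Fil ζ Q α m) (hg : g ∈ Fil ζ Q α n)
    (h : k ≤ m + n) : f * g ∈ Fil ζ Q α k := Fil_mono h (Fil_mul hf hg)

theorem xx_pow_mem (n : ℕ) : xx ^ n ∈ Fil ζ Q α n := by
  simpa using Fil_gen (ζ := ζ) (Q := Q) (α := α) (n := n) n 0 0 (by simp)

theorem ζ_pow_mem (n : ℕ) : ζ ^ n ∈ Fil ζ Q α n := by
  simpa using Fil_gen (ζ := ζ) (Q := Q) (α := α) (n := n) 0 n 0 (by simp)

theorem Q_pow_mem (n : ℕ) : Q ^ n ∈ Fil ζ Q α (α * n) := by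
  simpa using Fil_gen (ζ := ζ) (Q := Q) (α := α) (n := α * n) 0 0 n (by simp)

theorem span_pow_le (n : ℕ) : (Ideal.span {xx, ζ}) ^ n ≤ Fil ζ Q α n := by
  induction n with
  | zero => intro f _; exact Fil_zero f
  | succ n ih =>
    rw [pow_succ, Ideal.mul_le]
    intro r hr s hs
    refine Fil_mul (ih hr) ?_
    refine (Ideal.span_le.2 ?_) hs
    rintro _ (rfl | rfl)
    · simpa using xx_pow_mem (ζ := ζ) (Q := Q) (α := α) 1
    · simpa using ζ_pow_mem (ζ := _) (Q := Q) (α := α) 1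

end Fil

namespace Arm
variable {a : Arm}

/-- the colon property -/
theorem Good.colon (ha : a.Good) {n : ℕ} {f : S} (h : xx * f ∈ a.F (n + 1)) : f ∈ a.F n := by
  have hw := ha.hw
  -- it suffices to find a suitable element `μ`
  suffices H : ∃ μ ∈ a.F n, res μ ≠ 0 ∧ ∀ k l : ℕ, n + 1 ≤ k + a.α * l →
      a.ζ ^ k * a.Q ^ l ∈ Ideal.span {μ} ⊔ Ideal.span {xx} * a.F n by
    obtain ⟨μ, hμ, hμ0, hgen⟩ := H
    have hle : a.F (n + 1) ≤ Ideal.span {μ} ⊔ Ideal.span {xx} * a.F n := by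
      refine Ideal.span_le.2 ?_
      rintro _ ⟨i, k, l, hl, rfl⟩
      rcases i with _ | i
      · have := hgen k l (by simpa using hl)
        simpa using this
      · refine Ideal.mem_sup_right ?_
        have e : xx ^ (i + 1) * a.ζ ^ k * a.Q ^ l = xx * (xx ^ i * a.ζ ^ k * a.Q ^ l) := by ring
        rw [e]
        exact Ideal.mul_mem_mul (Ideal.mem_span_singleton_self _) (Fil_gen _ _ _ (by omega))
    obtain ⟨y, hy, t, ht, hyt⟩ := Submodule.mem_sup.1 (hle h)
    obtain ⟨s, rfl⟩ := Ideal.mem_span_singleton'.1 hy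
    obtain ⟨j, hj, rfl⟩ := Ideal.mem_span_singleton_mul.1 ht
    have h0 : res s = 0 := by
      have := congrArg res hyt
      rw [map_add, map_mul, map_mul, map_mul, res_xx, zero_mul, zero_mul, add_zero] at this
      exact (mul_eq_zero.1 this).resolve_right hμ0
    obtain ⟨s', rfl⟩ := (xx_dvd_iff s).2 h0
    have e : f = s' * μ + j := by
      apply mul_left_cancel₀ xx_ne
      rw [← hyt]; ring
    rw [e]
    exact Ideal.add_mem _ (Ideal.mul_mem_left _ _ hμ) hj
  have hα : 0 < a.α := by unfold Arm.α; omega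
  rcases ha.shape with hζ | ⟨hζ, hw2, j, hj, hQ⟩
  · have hex : ∃ l, n + 1 ≤ a.α * l := ⟨n + 1, Nat.le_mul_of_pos_left _ hα⟩
    classical
    refine ⟨a.Q ^ Nat.find hex, Fil_mono ((Nat.le_succ n).trans (Nat.find_spec hex))
      (Q_pow_mem _), by rw [map_pow]; exact pow_ne_zero _ ha.hQ, ?_⟩
    intro k l hl
    rcases k with _ | k
    · have hl' : Nat.find hex ≤ l := Nat.find_min' hex (by simpa using hl)
      obtain ⟨c, rfl⟩ := Nat.exists_eq_add_of_le hl'
      refine Ideal.mem_sup_left (Ideal.mem_span_singleton'.2 ⟨a.Q ^ c, ?_⟩)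
      ring
    · refine Ideal.mem_sup_right ?_
      have e : a.ζ ^ (k + 1) * a.Q ^ l = xx * (xx ^ 0 * a.ζ ^ k * a.Q ^ l) := by
        rw [pow_succ, ← hζ]; ring
      rw [e]
      exact Ideal.mul_mem_mul (Ideal.mem_span_singleton_self _) (Fil_gen _ _ _ (by omega))
  · have hα2 : a.α = a.u + 2 := by unfold Arm.α; omega
    have hjF : j ∈ a.F a.u := span_pow_le _ hj
    obtain ⟨l0, k0, hk0, hn⟩ : ∃ l0 k0, k0 < a.α ∧ n + 1 = k0 + a.α * l0 :=
      ⟨(n + 1) / a.α, (n + 1) % a.α, Nat.mod_lt _ hα, (Nat.mod_add_div _ _).symm⟩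
    have hgenF : ∀ k l m, m ≤ k + a.α * l → a.ζ ^ k * a.Q ^ l ∈ a.F m := by
      intro k l m hm
      exact Fil_mono hm (Fil_mul (ζ_pow_mem k) (Q_pow_mem l))
    refine ⟨a.ζ ^ k0 * a.Q ^ l0, hgenF _ _ _ (by omega), ?_, ?_⟩
    · rw [map_mul, map_pow, map_pow]
      exact mul_ne_zero (pow_ne_zero _ hζ) (pow_ne_zero _ ha.hQ)
    · set J := Ideal.span {a.ζ ^ k0 * a.Q ^ l0} ⊔ Ideal.span {xx} * a.F n with hJ
      have hx : ∀ y ∈ a.F n, xx * y ∈ J := fun y hy =>
        Ideal.mem_sup_right (Ideal.mul_mem_mul (Ideal.mem_span_singleton_self _) hy)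
      have hμ : ∀ c, k0 ≤ c → a.ζ ^ c * a.Q ^ l0 ∈ J := by
        intro c hc
        obtain ⟨c, rfl⟩ := Nat.exists_eq_add_of_le hc
        refine Ideal.mem_sup_left (Ideal.mem_span_singleton'.2 ⟨a.ζ ^ c, ?_⟩)
        ring
      have hlow : ∀ c l k, l + c = l0 → n + 1 ≤ k + a.α * l → a.ζ ^ k * a.Q ^ l ∈ J := by
        intro c
        induction c with
        | zero =>
          intro l k hl hk
          obtain rfl : l = l0 := by simpa using hl
          exact hμ k (by omega)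
        | succ c ih =>
          intro l k hl hk
          have hk' : a.u + 1 ≤ k := by
            have : a.α * l0 = a.α * l + a.α * c + a.α := by rw [← hl]; ring
            omega
          obtain ⟨k', rfl⟩ := Nat.exists_eq_add_of_le hk'
          have e : a.ζ ^ (a.u + 1 + k') * a.Q ^ l =
              a.ζ ^ k' * a.Q ^ (l + 1) - xx * (j * (a.ζ ^ k' * a.Q ^ l)) := by
            have : a.ζ ^ (a.u + 1) = a.Q - xx * j := by rw [eq_sub_iff_add_eq]; exact hQ.symm
            rw [pow_add, this]; ring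
          rw [e]
          refine Ideal.sub_mem _ (ih (l + 1) k' (by omega) ?_) (hx _ ?_)
          · rw [mul_add, mul_one]; omega
          · exact Fil_mul' hjF (hgenF k' l _ le_rfl) (by omega)
      intro k l hk
      rcases le_or_gt l l0 with hl | hl
      · obtain ⟨c, hc⟩ := Nat.exists_eq_add_of_le hl
        exact hlow c l k hc.symm hk
      · obtain ⟨c, rfl⟩ := Nat.exists_eq_add_of_lt hl
        have e : a.ζ ^ k * a.Q ^ (l0 + c + 1) = a.ζ ^ k * a.Q ^ c *
            (a.ζ ^ (a.u + 1) * a.Q ^ l0 + xx * (j * (a.ζ ^ 0 * a.Q ^ l0))) := by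
          have : a.ζ ^ (a.u + 1) = a.Q - xx * j := by rw [eq_sub_iff_add_eq]; exact hQ.symm
          rw [this]; ring
        rw [e]
        refine Ideal.mul_mem_left _ _ (Ideal.add_mem _ (hμ _ (by omega)) (hx _ ?_))
        exact Fil_mul' hjF (hgenF 0 l0 _ le_rfl) (by omega)

theorem Good.colon_pow (ha : a.Good) {n : ℕ} (k : ℕ) {f : S} (h : xx ^ k * f ∈ a.F (n + k)) :
    f ∈ a.F n := by
  induction k with
  | zero => simpa using h
  | succ k ih =>
    apply ih
    apply ha.colon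
    have e : xx * (xx ^ k * f) = xx ^ (k + 1) * f := by ring
    rw [e]; exact h

theorem M_add {κ : ℕ} {p q : S × S} (hp : a.M κ p) (hq : a.M κ q) : a.M κ (p + q) := by
  obtain ⟨h1, h2, h3, h4⟩ := hp
  obtain ⟨g1, g2, g3, g4⟩ := hq
  refine ⟨Ideal.add_mem _ h1 g1, Ideal.add_mem _ h2 g2, ?_, ?_⟩
  · convert Ideal.add_mem _ h3 g3 using 1
    rw [act_add, Prod.snd_add]; ring
  · convert Ideal.add_mem _ h4 g4 using 1
    rw [act_add, Prod.snd_add]; ring

theorem M_smul {κ : ℕ} (s : S) {p : S × S} (hp : a.M κ p) : a.M κ (s • p) := by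
  obtain ⟨h1, h2, h3, h4⟩ := hp
  refine ⟨Ideal.mul_mem_left _ s h1, Ideal.mul_mem_left _ s h2, ?_, ?_⟩
  · convert Ideal.mul_mem_left _ s h3 using 1
    rw [act_smul, Prod.smul_snd, smul_eq_mul]; ring
  · convert Ideal.mul_mem_left _ s h4 using 1
    rw [act_smul, Prod.smul_snd, smul_eq_mul]; ring

theorem M_smul_F {κ n : ℕ} {s : S} (hs : s ∈ a.F n) {p : S × S} (hp : a.M κ p) :
    a.M (κ + n) (s • p) := by
  obtain ⟨h1, h2, h3, h4⟩ := hp
  refine ⟨Fil_mul' hs h1 (by omega), Fil_mul' hs h2 (by omega), ?_, ?_⟩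
  · have h : _ ∈ a.F (κ + n + 2) := Fil_mul' hs h3 (by omega)
    convert h using 1
    rw [act_smul, Prod.smul_snd, smul_eq_mul]; ring
  · have h : _ ∈ a.F (κ + n + a.α + 1) := Fil_mul' hs h4 (by omega)
    convert h using 1
    rw [act_smul, Prod.smul_snd, smul_eq_mul]; ring

/-- the crude part of the module -/
theorem Good.M_of_mem (ha : a.Good) {κ : ℕ} {p : S × S} (h1 : p.1 ∈ a.F (κ + a.w))
    (h2 : p.2 ∈ a.F (κ + a.w)) : a.M κ p := by
  have hw := ha.hw
  have hx : xx ∈ a.F 1 := by simpa [F] using xx_pow_mem (ζ := a.ζ) (Q := a.Q) (α := a.α) 1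
  have hζ : a.ζ ∈ a.F 1 := by simpa [F] using ζ_pow_mem (ζ := a.ζ) (Q := a.Q) (α := a.α) 1
  have hQ : a.Q ∈ a.F a.α := by simpa [F] using Q_pow_mem (ζ := a.ζ) (Q := a.Q) (α := a.α) 1
  have hα : a.α = a.u + a.w := rfl
  refine ⟨Fil_mono (by omega) h1, Fil_mono (by omega) h2, Ideal.sub_mem _ ?_ ?_,
    Ideal.sub_mem _ ?_ ?_⟩
  · refine Fil_mul' (n := κ + a.w) hx ?_ (by omega)
    exact Ideal.add_mem _ (Ideal.mul_mem_right _ _ h1) (Ideal.mul_mem_right _ _ h2)
  · exact Fil_mul' hζ h2 (by omega)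
  · refine Fil_mul' (n := κ + a.w + a.u) hx ?_ (by omega)
    exact Ideal.add_mem _ (Fil_mul h1 ha.hQz) (Fil_mul h2 ha.hQx)
  · rw [mul_assoc]
    exact Ideal.mul_mem_left _ _ (Fil_mul' hQ h2 (by omega))

/-- the order of the determinant -/
theorem Good.g_mem (ha : a.Good) {κ1 κ2 M : ℕ} {p1 p2 : S × S} (h1 : a.M κ1 p1) (h2 : a.M κ2 p2)
    {g : S} (hdet : det p1 p2 = xx * g) (hM : M + 1 = κ1 + κ2 + a.w) : g ∈ a.F M := by
  obtain ⟨-, hB1, -, hE1⟩ := h1
  obtain ⟨-, hB2, -, hE2⟩ := h2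
  have hα : a.α = a.u + a.w := rfl
  have hQg : pderiv 0 a.Q * g ∈ a.F (M + a.u) := by
    apply ha.colon_pow 2
    have e : xx ^ 2 * (pderiv 0 a.Q * g) =
        (xx * act p1 a.Q - (a.α : S) * a.Q * p1.2) * p2.2 -
          (xx * act p2 a.Q - (a.α : S) * a.Q * p2.2) * p1.2 := by
      unfold det at hdet
      unfold act
      linear_combination (-(xx * pderiv 0 a.Q)) * hdet
    rw [e]
    exact Ideal.sub_mem _ (Fil_mul' hE1 hB2 (by omega)) (Fil_mul' hE2 hB1 (by omega))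
  obtain ⟨s, b, hb, hbez⟩ := ha.bez
  have key : ∀ n, n ≤ M → g ∈ a.F n := by
    intro n
    induction n with
    | zero => intro _; exact Fil_zero g
    | succ n ih =>
      intro hn
      apply ha.colon_pow (s + a.u)
      have e : xx ^ (s + a.u) * g =
          b * (pderiv 0 a.Q * g) + (xx ^ (s + a.u) - b * pderiv 0 a.Q) * g := by ring
      rw [e]
      exact Ideal.add_mem _ (Fil_mul' hb hQg (by omega))
        (Fil_mul' hbez (ih (by omega)) (by omega))
  exact key M le_rfl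

end Arm

end Crest.Agent.R278
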