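import Crest.Agent.R278.Refl
import Crest.Agent.R278.Deg

/-! # Regularity at the point at infinity of the conic, modulo `x^4` -/

set_option autoImplicit false

namespace Crest.Agent.R278

open MvPolynomial

noncomputable section

/-- `z`-degree `< k` -/
def Wd (k : ℕ) : Submodule ℂ S :=
  Submodule.span ℂ {f | ∃ i j : ℕ, i < k ∧ f = zz ^ i * xx ^ j}

theorem Wd_gen {k : ℕ} (i j : ℕ) (h : i < k) : zz ^ i * xx ^ j ∈ Wd k :=
  Submodule.subset_span ⟨i, j, h, rfl⟩

theorem Wd_mul {k l n : ℕ} {f g : S} (hf : f ∈ Wd (k + 1)) (hg : g ∈ Wd l) (h : k + l ≤ n) :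
    f * g ∈ Wd n := by
  induction hf using Submodule.span_induction with
  | mem f hf =>
    obtain ⟨i, j, hi, rfl⟩ := hf
    induction hg using Submodule.span_induction with
    | mem g hg =>
      obtain ⟨i', j', hi', rfl⟩ := hg
      have := Wd_gen (k := n) (i + i') (j + j') (by omega)
      convert this using 1; ring
    | zero => simp
    | add a b _ _ ha hb => rw [mul_add]; exact add_mem ha hb
    | smul c a _ ha => rw [mul_smul_comm]; exact Submodule.smul_mem _ _ ha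
  | zero => simp
  | add a b _ _ ha hb => rw [add_mul]; exact add_mem ha hb
  | smul c a _ ha => rw [smul_mul_assoc]; exact Submodule.smul_mem _ _ ha

theorem zpow_mem (k : ℕ) : zz ^ k ∈ Wd (k + 1) := by
  simpa using Wd_gen (k := k + 1) k 0 (by omega)

theorem den1_mem_Wd : ∀ (u : L1) (k : ℕ), u.length ≤ k → den1 zz u ∈ Wd k
  | [], k, _ => by simp
  | a :: u, k, h => by
    simp only [List.length_cons] at h
    rw [den1_cons]
    refine add_mem ?_ ?_
    · have := Submodule.smul_mem _ (a : ℂ) (Wd_gen (k := k) 0 0 (by omega))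
      rw [Algebra.algebraMap_eq_smul_one]
      simpa using this
    · have h1 : zz ∈ Wd (1 + 1) := by simpa using zpow_mem 1
      exact Wd_mul h1 (den1_mem_Wd u u.length le_rfl) (by omega)

theorem xx_mem_Wd : xx ∈ Wd (0 + 1) := by simpa using Wd_gen (k := 1) 0 1 (by omega)

/-- `z`-degree `< k` modulo `x^4` -/
def Low (k : ℕ) (f : S) : Prop := ∃ a ∈ Wd k, ∃ s, f = a + xx ^ 4 * s

theorem Low.add {k : ℕ} {f g : S} (hf : Low k f) (hg : Low k g) : Low k (f + g) := by
  obtain ⟨a, ha, s, rfl⟩ := hf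
  obtain ⟨b, hb, t, rfl⟩ := hg
  exact ⟨a + b, add_mem ha hb, s + t, by ring⟩

theorem Low.mul {k l n : ℕ} {f g : S} (hf : Low (k + 1) f) (hg : Low l g) (h : k + l ≤ n) :
    Low n (f * g) := by
  obtain ⟨a, ha, s, rfl⟩ := hf
  obtain ⟨b, hb, t, rfl⟩ := hg
  exact ⟨a * b, Wd_mul ha hb h, a * t + s * b + xx ^ 4 * s * t, by ring⟩

theorem Low.of_mem {k : ℕ} {f : S} (hf : f ∈ Wd k) : Low k f := ⟨f, hf, 0, by ring⟩

theorem Low.mono {k l : ℕ} {f : S} (hf : Low k f) (h : k ≤ l) : Low l f := by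
  have := (Low.of_mem (zpow_mem 0)).mul hf (n := l) (by omega)
  simpa using this

end

def trim1 : L1 → L1
  | [] => []
  | a :: u =>
    match trim1 u with
    | [] => if a = 0 then [] else [a]
    | b :: v => a :: b :: v

theorem den1_trim (y : S) : ∀ u : L1, den1 y (trim1 u) = den1 y u
  | [] => rfl
  | a :: u => by
    have := den1_trim y u
    rw [trim1, den1_cons, ← this]
    generalize trim1 u = w
    cases w with
    | nil => by_cases h : a = 0 <;> simp [h]
    | cons b v => simp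

def dropZ (k : ℕ) : L2 → L2
  | [] => []
  | u :: p => trim1 (u.drop k) :: dropZ k p

/-- forces the evaluation of a rational number -/
def frc (c : ℚ) : Bool := c.num.natAbs + c.den != 0

def lenOK : L2 → Bool
  | [] => true
  | u :: p => decide (u.length ≤ 13) && u.all frc && lenOK p

def win (k : ℕ) (p : L2) : L2 := dropZ k (p.take 4)

/-- product truncated below `x^n` -/
def mulT : ℕ → L2 → L2 → L2
  | 0, _, _ => []
  | _ + 1, [], _ => []
  | n + 1, u :: p, q => add2 (rmul u (q.take (n + 1))) ([] :: mulT n p q)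

def mulO : Option L2 → Option L2 → Option L2
  | some h, some h' => if lenOK h && lenOK h' then some (dropZ 12 (mulT 4 h h')) else none
  | _, _ => none

def powO (h : Option L2) : ℕ → Option L2
  | 0 => h
  | n + 1 => mulO (powO h n) h

noncomputable section

theorem den_mulT (y : S) : ∀ (n : ℕ) (p q : L2),
    ∃ s, den y p * den y q = den y (mulT n p q) + xx ^ n * s
  | 0, p, q => ⟨den y p * den y q, by simp [mulT]⟩
  | n + 1, [], q => ⟨0, by simp [mulT]⟩
  | n + 1, u :: p, q => by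
    obtain ⟨s, hs⟩ := den_mulT y n p q
    refine ⟨s + den1 y u * den y (q.drop (n + 1)), ?_⟩
    simp only [mulT, den_add, den_rmul, den_cons, den1_nil]
    have := den_take_drop y (n + 1) q
    linear_combination den1 y u * this + xx * hs

theorem den_dropZ (k : ℕ) : ∀ p : L2, den zz p - zz ^ k * den zz (dropZ k p) ∈ Wd k
  | [] => by simp [dropZ]
  | u :: p => by
    have h1 : den1 zz (u.take k) ∈ Wd k := den1_mem_Wd _ _ (List.length_take_le _ _)
    have h2 := Wd_mul xx_mem_Wd (den_dropZ k p) (n := k) (by omega)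
    have := add_mem h1 h2
    convert this using 1
    simp only [dropZ, den_cons, den1_trim]
    rw [den1_take_drop zz k u]; ring

theorem lenOK_spec : ∀ p : L2, lenOK p = true → den zz p ∈ Wd 13
  | [], _ => by simp
  | u :: p, h => by
    simp only [lenOK, Bool.and_eq_true, decide_eq_true_eq] at h
    exact add_mem (den1_mem_Wd _ _ h.1.1) (Wd_mul xx_mem_Wd (lenOK_spec p h.2) (by omega))

/-- the top thirteen coefficients of `f`, which has `z`-degree `≤ k + 12` modulo `x^4` -/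
def Top (k : ℕ) (f : S) (o : Option L2) : Prop :=
  ∀ h, o = some h → Low k (f - zz ^ k * den zz h)

theorem Top_win (k : ℕ) (p : L2) : Top k (den zz p) (some (win k p)) := by
  rintro h ⟨rfl⟩
  refine ⟨_, den_dropZ k (p.take 4), den zz (p.drop 4), ?_⟩
  have := den_take_drop zz 4 p
  rw [win]
  linear_combination this

theorem Top.mul {k l : ℕ} {f g : S} {o o' : Option L2} (hf : Top k f o) (hg : Top l g o') :
    Top (k + l + 12) (f * g) (mulO o o') := by
  intro h'' hh
  match o, o', hf, hg, hh with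
  | some h, some h', hf, hg, hh =>
    simp only [mulO] at hh
    split_ifs at hh with hok
    simp only [Bool.and_eq_true] at hok
    obtain rfl := Option.some.inj hh
    have h1 := hf h rfl
    have h2 := hg h' rfl
    have l1 : Low (k + 12 + 1) (zz ^ k * den zz h) :=
      Low.of_mem (Wd_mul (zpow_mem k) (lenOK_spec h hok.1) (by omega))
    have l2 : Low (l + 12 + 1) (zz ^ l * den zz h') :=
      Low.of_mem (Wd_mul (zpow_mem l) (lenOK_spec h' hok.2) (by omega))
    have t1 := l1.mul h2 (n := k + l + 12) (by omega)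
    have t2 := l2.mul h1 (n := k + l + 12) (by omega)
    have t3 := (h1.mono (l := k + 1) (by omega)).mul h2 (n := k + l + 12) (by omega)
    obtain ⟨s, hs⟩ := den_mulT zz 4 h h'
    have t4 : Low (k + l + 12) (zz ^ (k + l) * (den zz h * den zz h'
        - zz ^ 12 * den zz (dropZ 12 (mulT 4 h h')))) := by
      refine (Low.of_mem (zpow_mem (k + l))).mul (l := 12) ?_ le_rfl
      exact ⟨_, den_dropZ 12 (mulT 4 h h'), s, by rw [hs]; ring⟩
    have := ((t1.add t2).add t3).add t4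
    convert this using 1
    ring

theorem Top.pow {k : ℕ} {f : S} {o : Option L2} (hf : Top k f o) :
    ∀ n, Top ((n + 1) * k + 12 * n) (f ^ (n + 1)) (powO o n)
  | 0 => by simpa [powO] using hf
  | n + 1 => by
    have := (Top.pow hf n).mul hf
    rw [← pow_succ] at this
    rw [show (n + 1 + 1) * k + 12 * (n + 1) = (n + 1) * k + 12 * n + k + 12 by ring]
    exact this

/-- degree `≤ n` in `(z, Z)` modulo `x^j` -/
def Reg (j n : ℕ) (f : S) : Prop := ∃ a ∈ Dg n, ∃ s, f = a + xx ^ j * s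

theorem Reg.add {j n : ℕ} {f g : S} (hf : Reg j n f) (hg : Reg j n g) : Reg j n (f + g) := by
  obtain ⟨a, ha, s, rfl⟩ := hf
  obtain ⟨b, hb, t, rfl⟩ := hg
  exact ⟨a + b, add_mem ha hb, s + t, by ring⟩

theorem Reg.mul_left {j m n k : ℕ} {f g : S} (hf : f ∈ Dg m) (hg : Reg j n g) (h : m + n ≤ k) :
    Reg j k (f * g) := by
  obtain ⟨b, hb, t, rfl⟩ := hg
  exact ⟨f * b, Dg_mul' hf hb h, f * t, by ring⟩

theorem Reg.smul {j n : ℕ} {f : S} (c : ℂ) (hf : Reg j n f) : Reg j n (c • f) := by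
  obtain ⟨a, ha, s, rfl⟩ := hf
  exact ⟨c • a, Submodule.smul_mem _ _ ha, c • s, by simp [smul_add]⟩

theorem Reg.of_mem {j n : ℕ} {f : S} (hf : f ∈ Dg n) : Reg j n f := ⟨f, hf, 0, by ring⟩

theorem zz_sq : zz ^ 2 = ZZ - xx := by simp [ZZ]

theorem reg_pow : ∀ a j : ℕ, Reg 4 (a + j + 3) (xx ^ j * (ZZ - xx) ^ a)
  | 0, j => by
    by_cases h : j ≤ 3
    · exact Reg.of_mem (by simpa using Dg_mono (by omega) (xx_pow_mem_Dg j))
    · obtain ⟨i, rfl⟩ : ∃ i, j = 4 + i := ⟨j - 4, by omega⟩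
      exact ⟨0, zero_mem _, xx ^ i, by ring⟩
  | a + 1, j => by
    have h1 := Reg.mul_left ZZ_mem_Dg (reg_pow a j) (k := a + 1 + j + 3) (by omega)
    have h2 := (Reg.mul_left (C_mem_Dg (-1) 0) (reg_pow a (j + 1)) (k := a + 1 + j + 3) (by omega))
    convert h1.add h2 using 1
    simp; ring

theorem Low.reg {N : ℕ} {f : S} (hf : Low (2 * N + 6) f) : Reg 4 (N + 9) f := by
  obtain ⟨a, ha, s, rfl⟩ := hf
  refine Reg.add ?_ ⟨0, zero_mem _, s, by ring⟩
  induction ha using Submodule.span_induction with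
  | mem f hf =>
    obtain ⟨i, j, hi, rfl⟩ := hf
    by_cases h : j ≤ 3
    · have h1 : zz ^ (i % 2) ∈ Dg 1 := by
        simpa using Dg_gen (n := 1) (i % 2) 0 (by omega)
      have := Reg.mul_left h1 (reg_pow (i / 2) j) (k := N + 9) (by omega)
      convert this using 1
      rw [← zz_sq, ← pow_mul]
      conv_lhs => rw [← Nat.mod_add_div i 2, pow_add]
      ring
    · obtain ⟨j', rfl⟩ : ∃ i, j = 4 + i := ⟨j - 4, by omega⟩
      exact ⟨0, zero_mem _, zz ^ i * xx ^ j', by ring⟩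
  | zero => exact Reg.of_mem (zero_mem _)
  | add a b _ _ ha hb => exact ha.add hb
  | smul c a _ ha => exact ha.smul c

theorem binom_aux (Z x : S) : ∀ N : ℕ, ∃ s, (Z - x) ^ (N + 3) =
    Z ^ N * (Z ^ 3 - C (((N + 3 : ℚ)) : ℂ) * (Z ^ 2 * x)
      + C ((((N + 3) * (N + 2) / 2 : ℚ)) : ℂ) * (Z * x ^ 2)
      - C ((((N + 3) * (N + 2) * (N + 1) / 6 : ℚ)) : ℂ) * x ^ 3) + x ^ 4 * s
  | 0 => ⟨0, by
      have h3 : (C (3 : ℂ) : S) = 3 := rfl
      norm_num [h3]; ring⟩
  | N + 1 => by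
    obtain ⟨s, hs⟩ := binom_aux Z x N
    refine ⟨(Z - x) * s + C ((((N + 3) * (N + 2) * (N + 1) / 6 : ℚ)) : ℂ) * Z ^ N, ?_⟩
    have e1 : (C (((((N + 1 : ℕ) : ℚ) + 3 : ℚ)) : ℂ) : S) = C (((N + 3 : ℚ)) : ℂ) + 1 := by
      rw [← C_1, ← C_add]; congr 1; push_cast; ring
    have e2 : (C ((((((N + 1 : ℕ) : ℚ) + 3) * (((N + 1 : ℕ) : ℚ) + 2) / 2 : ℚ)) : ℂ) : S) =
        C ((((N + 3) * (N + 2) / 2 : ℚ)) : ℂ) + C (((N + 3 : ℚ)) : ℂ) := by
      rw [← C_add]; congr 1; push_cast; ring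
    have e3 : (C ((((((N + 1 : ℕ) : ℚ) + 3) * (((N + 1 : ℕ) : ℚ) + 2) * (((N + 1 : ℕ) : ℚ) + 1) / 6 : ℚ)) : ℂ) : S) =
        C ((((N + 3) * (N + 2) * (N + 1) / 6 : ℚ)) : ℂ) + C ((((N + 3) * (N + 2) / 2 : ℚ)) : ℂ) := by
      rw [← C_add]; congr 1; push_cast; ring
    rw [e1, e2, e3, show N + 1 + 3 = (N + 3) + 1 by ring, pow_succ, hs]
    ring

end

def ZL : L2 := [[0, 0, 1], [1]]

def betaL (N : ℕ) : L2 :=
  sub2 (add2 (sub2 (mul2 ZL (mul2 ZL ZL)) (smul2 (N + 3) (mul2 (mul2 ZL ZL) (xpow 1))))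
    (smul2 ((N + 3) * (N + 2) / 2) (mul2 ZL (xpow 2))))
    (smul2 ((N + 3) * (N + 2) * (N + 1) / 6) (xpow 3))

def liftL : L1 → L2
  | [] => []
  | [c] => [[c]]
  | c0 :: c1 :: t => add2 [[c0, c1]] (mul2 ZL (liftL t))

def regChk : ℕ → ℕ → L2 → Bool
  | 0, _, _ => true
  | _ + 1, _, [] => true
  | j + 1, n, u :: p =>
    match sub2 (u :: p) (liftL (u.take (2 * n + 1))) with
    | [] => false
    | v :: q => zero1 v && regChk j (n - 2) q

def finChk (N : ℕ) : Option L2 → Bool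
  | none => false
  | some h => regChk 4 9 (mul2 (betaL N) h)

noncomputable section

theorem den_ZL : den zz ZL = ZZ := by simp [ZL, ZZ]; ring

theorem liftL_mem : ∀ (u : L1) (n : ℕ), u.length ≤ 2 * n + 1 → den zz (liftL u) ∈ Dg n
  | [], n, _ => by simp [liftL]
  | [c], n, _ => by simpa [liftL] using C_mem_Dg (c : ℂ) n
  | c0 :: c1 :: t, n, h => by
    simp only [List.length_cons] at h
    obtain ⟨m, rfl⟩ : ∃ m, n = m + 1 := ⟨n - 1, by omega⟩
    rw [liftL, den_add, den_mul, den_ZL]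
    refine add_mem ?_ (Dg_mul' ZZ_mem_Dg (liftL_mem t m (by omega)) (by omega))
    have := add_mem (C_mem_Dg (c0 : ℂ) (m + 1))
      (Dg_mul' zz_mem_Dg (C_mem_Dg (c1 : ℂ) 0) (k := m + 1) (by omega))
    simpa using this

theorem regChk_spec : ∀ (j n : ℕ) (p : L2), 2 * j ≤ n + 2 → regChk j n p = true → Reg j n (den zz p)
  | 0, n, p, _, _ => ⟨0, zero_mem _, den zz p, by simp⟩
  | j + 1, n, [], _, _ => Reg.of_mem (by simp)
  | j + 1, n, u :: p, hn, h => by
    rw [regChk] at h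
    have hs := den_sub zz (u :: p) (liftL (u.take (2 * n + 1)))
    have hl := liftL_mem (u.take (2 * n + 1)) n (List.length_take_le _ _)
    generalize sub2 (u :: p) (liftL (u.take (2 * n + 1))) = d at h hs
    match d, h, hs with
    | v :: q, h, hs =>
      simp only [Bool.and_eq_true] at h
      rw [den_cons, den1_zero zz v h.1, zero_add] at hs
      rcases Nat.eq_zero_or_pos j with rfl | hj
      · exact ⟨_, hl, den zz q, by rw [pow_one, hs]; ring⟩
      · obtain ⟨a, ha, s, hq⟩ := regChk_spec j (n - 2) q (by omega) h.2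
        refine ⟨_, add_mem hl (Dg_mul' xx_mem_Dg ha (by omega)), s, ?_⟩
        rw [hq] at hs
        linear_combination -hs

theorem Top.reg {N k : ℕ} {f : S} {o : Option L2} (hf : Top k f o) (hk : k = 2 * N + 6)
    (h : finChk N o = true) : Reg 4 (N + 9) f := by
  subst hk
  match o, hf, h with
  | some h', hf, h =>
    have h1 := (hf h' rfl).reg
    have h2 := regChk_spec 4 9 _ (by norm_num) h
    have hZ : ZZ ^ N ∈ Dg N := by simpa using Dg_gen (n := N) 0 N (by omega)
    have h3 := Reg.mul_left hZ h2 (k := N + 9) le_rfl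
    obtain ⟨s, hs⟩ := binom_aux ZZ xx N
    have h4 : Reg 4 (N + 9) (xx ^ 4 * (s * den zz h')) := ⟨0, zero_mem _, _, by rw [zero_add]⟩
    have := (h1.add h3).add h4
    convert this using 1
    rw [show 2 * N + 6 = 2 * (N + 3) by ring, pow_mul, zz_sq, hs]
    simp only [betaL, den_mul, den_sub, den_add, den_smul, den_ZL, den_xpow]
    ring

theorem Vd_of_reg {d : ℕ} {L f1 f2 f3 : S} (h1 : Reg 4 (d + 1) (L * f1))
    (h2 : Reg 4 (d + 1) (L * f2)) (h3 : Reg 4 (d + 1) (L * f3)) :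
    ∃ η : S × S, Vd d (L • vf f1 f2 f3 + xx ^ 4 • η) := by
  obtain ⟨a1, ha1, s1, e1⟩ := h1
  obtain ⟨a2, ha2, s2, e2⟩ := h2
  obtain ⟨a3, ha3, s3, e3⟩ := h3
  refine ⟨-vf s1 s2 s3, a1, ha1, a2, ha2, a3, ha3, ?_⟩
  ext1
  · simp only [vf, Prod.fst_add, Prod.smul_fst, Prod.fst_neg, smul_eq_mul]
    linear_combination e1 + zz * e3
  · simp only [vf, Prod.snd_add, Prod.smul_snd, Prod.snd_neg, smul_eq_mul]
    linear_combination (-2 * zz) * e1 + e2 + (xx - zz ^ 2) * e3

end

end Crest.Agent.R278
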