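import Crest.Agent.R278.Deg

/-! # From jets along the conic to global vector fields -/

set_option autoImplicit false

noncomputable section

namespace Crest.Agent.R278

open MvPolynomial

/-- The abstract induction: `Mo i` are `S`-submodules of `S²`, whose lattices of leading
coefficients at level `j` contain `μ i j`. -/
theorem induct {ι : Type} [Fintype ι] (Mo : ι → Submodule S (S × S)) (μ : ι → ℕ → Polynomial ℂ)
    (d j0 J : ℕ) (hJ : j0 ≤ J)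
    (hcop : ∀ j, Pairwise fun i i' => IsCoprime (μ i j) (μ i' j))
    (hne : ∀ i j, μ i j ≠ 0)
    (hdeg : ∀ j, j0 ≤ j → j < J → 2 * j ≤ d ∧ ∑ i, (μ i j).natDegree ≤ 2 * (d - 2 * j) + 4)
    (hA : ∀ i j, j0 ≤ j → j < J → ∃ p : S × S, xx ^ j • p ∈ Mo i ∧ res p.1 = μ i j ∧ res p.2 = 0)
    (hB : ∀ i j, j0 ≤ j → j < J → ∃ p : S × S, xx ^ j • p ∈ Mo i ∧ res p.1 = 0 ∧ res p.2 = μ i j)
    (W : S × S) (hW : ∀ i, ∃ η : S × S, W + xx ^ j0 • η ∈ Mo i)
    (hV : ∃ η : S × S, Vd d (W + xx ^ j0 • η)) :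
    ∃ θ : S × S, Vd d (W + xx ^ j0 • θ) ∧ ∀ i, ∃ η : S × S, W + xx ^ j0 • θ + xx ^ J • η ∈ Mo i := by
  suffices H : ∀ j, j0 ≤ j → j ≤ J → ∃ θ : S × S, Vd d (W + xx ^ j0 • θ) ∧
      ∀ i, ∃ η : S × S, W + xx ^ j0 • θ + xx ^ j • η ∈ Mo i from H J hJ le_rfl
  intro j hj
  induction j, hj using Nat.le_induction with
  | base =>
    intro _
    obtain ⟨θ, hθ⟩ := hV
    refine ⟨θ, hθ, fun i => (hW i).elim fun η hη => ⟨η - θ, ?_⟩⟩
    rwa [smul_sub, add_add_sub_cancel]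
  | succ j hj ih =>
    intro hjJ
    obtain ⟨θ, hθ, hη⟩ := ih (by omega)
    choose η hη using hη
    have crt : ∀ f : ι → Polynomial ℂ, ∃ A, ∀ i, μ i j ∣ A - f i := fun f => by
      simpa only [Ideal.mem_span_singleton] using Ideal.exists_forall_sub_mem_ideal
        (I := fun i => Ideal.span {μ i j})
        (fun i i' h => (Ideal.isCoprime_span_singleton_iff _ _).2 (hcop j h)) f
    obtain ⟨A, hA'⟩ := crt fun i => res (η i).1
    obtain ⟨B, hB'⟩ := crt fun i => res (η i).2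
    obtain ⟨h1, h2⟩ := hdeg j hj hjJ
    obtain ⟨ξ, hξ, h3, h4⟩ := Vd_surj (d - 2 * j) (∏ i, μ i j)
      (Finset.prod_ne_zero_iff.2 fun i _ => hne i j)
      ((Polynomial.natDegree_prod_le _ _).trans h2) A B
    have e : W + xx ^ j0 • (θ + xx ^ (j - j0) • ξ) = W + xx ^ j0 • θ + xx ^ j • ξ := by
      rw [smul_add, smul_smul, ← pow_add, Nat.add_sub_cancel' hj, add_assoc]
    refine ⟨θ + xx ^ (j - j0) • ξ, ?_, fun i => ?_⟩
    · have := Vd_smul (xx_pow_mem_Dg j) hξ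
      rw [Nat.sub_add_cancel h1] at this
      rw [e]
      exact Vd_add hθ this
    · obtain ⟨pA, a1, a2, a3⟩ := hA i j hj hjJ
      obtain ⟨pB, b1, b2, b3⟩ := hB i j hj hjJ
      have hd : μ i j ∣ ∏ i, μ i j := Finset.dvd_prod_of_mem (fun i => μ i j) (Finset.mem_univ i)
      obtain ⟨s1, hs1⟩ := dvd_sub (hA' i) (hd.trans h3)
      obtain ⟨s2, hs2⟩ := dvd_sub (hB' i) (hd.trans h4)
      obtain ⟨t1, ht1⟩ := (xx_dvd_iff ((η i + emb s1 • pA + emb s2 • pB - ξ).1)).2 (by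
        simp only [Prod.fst_sub, Prod.fst_add, Prod.smul_fst, smul_eq_mul, map_sub, map_add, map_mul,
          res_emb, a2, b2]
        linear_combination -hs1)
      obtain ⟨t2, ht2⟩ := (xx_dvd_iff ((η i + emb s1 • pA + emb s2 • pB - ξ).2)).2 (by
        simp only [Prod.snd_sub, Prod.snd_add, Prod.smul_snd, smul_eq_mul, map_sub, map_add, map_mul,
          res_emb, a3, b3]
        linear_combination -hs2)
      have ht : η i + emb s1 • pA + emb s2 • pB - ξ = xx • (t1, t2) := Prod.ext ht1 ht2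
      refine ⟨(t1, t2), ?_⟩
      rw [e, pow_succ, mul_smul, ← ht]
      convert (Mo i).add_mem ((Mo i).add_mem (hη i) ((Mo i).smul_mem (emb s1) a1))
        ((Mo i).smul_mem (emb s2) b1) using 1
      module

/-- `a.M κ` as a submodule -/
def Arm.Mo (a : Arm) (κ : ℕ) : Submodule S (S × S) where
  carrier := {p | a.M κ p}
  add_mem' := Arm.M_add
  zero_mem' := by simp [Arm.M, act]
  smul_mem' := fun s _ => Arm.M_smul s

theorem Arm.Good.xx_pow_smul {a : Arm} (ha : a.Good) {κ n : ℕ} (h : κ + a.w ≤ n) (p : S × S) :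
    a.M κ (xx ^ n • p) :=
  ha.M_of_mem (Ideal.mul_mem_right _ _ (Fil_mono h (xx_pow_mem n)))
    (Ideal.mul_mem_right _ _ (Fil_mono h (xx_pow_mem n)))

theorem res_lin (e : ℂ) : res (lin e) = Polynomial.X - Polynomial.C e := by
  simp [lin, res]

theorem Config.resQ (c : Config) (k : Fin 4) :
    res (c.aE k).Q = (Polynomial.X - Polynomial.C (c.e k)) ^ ((c.aE k).u + 1) := by
  rcases (c.goodE k).shape with h | ⟨-, -, j, -, h⟩
  · have := congrArg res h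
    rw [c.Eζ, res_lin, res_xx] at this
    exact absurd this (Polynomial.X_sub_C_ne_zero _)
  · rw [h, c.Eζ, map_add, map_mul, res_xx, zero_mul, add_zero, map_pow, res_lin]

theorem Config.latU (c : Config) (κ j : ℕ) :
    (∃ p : S × S, c.aU.M κ (xx ^ j • p) ∧ res p.1 = res c.aU.Q ^ max 1 ((κ + 4 - j) / 3) ∧
      res p.2 = 0) ∧
    ∃ p : S × S, c.aU.M κ (xx ^ j • p) ∧ res p.1 = 0 ∧
      res p.2 = res c.aU.Q ^ max 1 ((κ + 4 - j) / 3) := by
  obtain ⟨l, hl⟩ : ∃ l, max 1 ((κ + 4 - j) / 3) = l + 1 := ⟨max 1 ((κ + 4 - j) / 3) - 1, by omega⟩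
  have hα : c.aU.α = 3 := by rw [Arm.α, c.Uu, c.Uw]
  have gen : ∀ n i k (f : S), n ≤ i + 3 * k → xx ^ i * c.aU.Q ^ k * f ∈ c.aU.F n :=
    fun n i k f h => Ideal.mul_mem_right _ _ (Fil_mul' (xx_pow_mem i) (Q_pow_mem k) (by rwa [hα]))
  obtain ⟨V, hV⟩ := c.Ux
  have h3 : (3 : S) * C (1 / 3) = 1 := by
    rw [show (3 : S) = C 3 from rfl, ← map_mul]; norm_num
  rw [hl]
  refine ⟨⟨c.aU.Q ^ l • (c.aU.Q - xx * (C (1 / 3) * pderiv 1 c.aU.Q),
    xx * (C (1 / 3) * pderiv 0 c.aU.Q)), ⟨?_, ?_, ?_, ?_⟩, ?_, ?_⟩,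
    ⟨(0, c.aU.Q ^ (l + 1)), ⟨?_, ?_, ?_, ?_⟩, ?_, ?_⟩⟩
  · convert sub_mem (gen κ j (l + 1) 1 (by omega))
      (gen κ (j + 1) l (C (1 / 3) * pderiv 1 c.aU.Q) (by omega)) using 1
    simp only [Prod.smul_fst, smul_eq_mul]
    ring
  · convert gen κ (j + 1) l (C (1 / 3) * pderiv 0 c.aU.Q) (by omega) using 1
    simp only [Prod.smul_snd, smul_eq_mul]
    ring
  · rw [c.Uζ, act_xx, sub_self]
    exact zero_mem _
  · convert zero_mem (c.aU.F _) using 1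
    simp only [act, hα, Prod.smul_fst, Prod.smul_snd, smul_eq_mul, Nat.cast_ofNat]
    linear_combination (-(xx ^ (j + 1) * c.aU.Q ^ (l + 1) * pderiv 0 c.aU.Q)) * h3
  · simp [res_xx, pow_succ]
  · simp [res_xx]
  · simp
  · simpa using gen κ j (l + 1) 1 (by omega)
  · rw [c.Uζ, act_xx, sub_self]
    exact zero_mem _
  · convert sub_mem (gen (κ + c.aU.α + 1) (j + 2) (l + 1) V (by omega))
      (gen _ j (l + 2) 3 (by omega)) using 1
    simp only [act, hα, hV, Prod.smul_fst, Prod.smul_snd, smul_eq_mul, Nat.cast_ofNat]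
    ring
  · simp
  · simp

theorem Config.latE (c : Config) (k : Fin 4) {m j : ℕ} (hj : j < m + 2) :
    ∃ g : S, xx ^ j * g ∈ (c.aE k).F (m + (c.aE k).w) ∧ res g =
      (Polynomial.X - Polynomial.C (c.e k)) ^ (m + 2 - j - (m + 2 - j) / (c.aE k).α) := by
  have h := Nat.mod_add_div (m + 2 - j) (c.aE k).α
  refine ⟨(c.aE k).ζ ^ ((m + 2 - j) % (c.aE k).α) * (c.aE k).Q ^ ((m + 2 - j) / (c.aE k).α),
    mul_assoc (xx ^ j) _ _ ▸ Fil_gen _ _ _ (by rw [c.Ew, add_assoc, h]; omega), ?_⟩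
  rw [map_mul, map_pow, map_pow, c.resQ, c.Eζ, res_lin, ← pow_mul, ← pow_add]
  congr 1
  have hα : (c.aE k).α = (c.aE k).u + 1 + 1 := by rw [Arm.α, c.Ew]
  generalize (m + 2 - j) / (c.aE k).α = q at h ⊢
  generalize (m + 2 - j) % (c.aE k).α = r at h ⊢
  rw [hα, add_one_mul] at h
  omega

/-- One vector field: `m + 1 = 3 t + n`, `d = 2 m + n`, `κ = 3 t - 1`. The value at a point with
`x ≠ 0` can be prescribed. -/
theorem exists_field (c : Config) (κ m d : ℕ) (hκ : κ + 1 ≤ m) (hm : 2 ≤ m) (hd : 2 * (m + 2) ≤ d)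
    (hdeg : ∀ j, 4 ≤ j → j < m + 2 →
      9 * max 1 ((κ + 4 - j) / 3) + 2 * ((m + 2 - j) - (m + 2 - j) / 4)
        + 2 * ((m + 2 - j) - (m + 2 - j) / 5) ≤ 2 * (d - 2 * j) + 4)
    (W : S × S) (hU : ∃ η : S × S, c.aU.M κ (W + xx ^ 4 • η))
    (hE : ∀ k, ∃ η : S × S, (c.aE k).M m (W + xx ^ 4 • η))
    (hV : ∃ η : S × S, Vd d (W + xx ^ 4 • η)) (z0 x0 : ℂ) (hx0 : x0 ≠ 0) (A B : ℂ) :
    ∃ θ : S × S, Vd d (W + xx ^ 4 • θ) ∧ c.aU.M κ (W + xx ^ 4 • θ) ∧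
      (∀ k, (c.aE k).M m (W + xx ^ 4 • θ)) ∧
      eval ![z0, x0] (W + xx ^ 4 • θ).1 = A ∧ eval ![z0, x0] (W + xx ^ 4 • θ).2 = B := by
  have hP : res c.aU.Q ≠ 0 := c.Umonic.ne_zero
  have hcU : ∀ k, IsCoprime (res c.aU.Q) (Polynomial.X - Polynomial.C (c.e k)) := fun k =>
    ((Polynomial.irreducible_X_sub_C _).coprime_iff_not_dvd.2 fun h =>
      c.Ue k (Polynomial.dvd_iff_isRoot.1 h)).symm
  obtain ⟨θ, hθ, hη⟩ := induct (ι := Option (Fin 4))
    (fun o => o.elim (c.aU.Mo κ) fun k => (c.aE k).Mo m)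
    (fun o j => o.elim (res c.aU.Q ^ max 1 ((κ + 4 - j) / 3)) fun k =>
      (Polynomial.X - Polynomial.C (c.e k)) ^ (m + 2 - j - (m + 2 - j) / (c.aE k).α))
    d 4 (m + 2) (by omega)
    (fun j => by
      rintro (_ | k) (_ | k') h
      · exact absurd rfl h
      · exact (hcU k').pow
      · exact (hcU k).symm.pow
      · exact (Polynomial.pairwise_coprime_X_sub_C c.e_inj fun e => h (congrArg some e)).pow)
    (by
      rintro (_ | k) j
      · exact pow_ne_zero _ hP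
      · exact pow_ne_zero _ (Polynomial.X_sub_C_ne_zero _))
    (fun j h1 h2 => ⟨by omega, by
      have := hdeg j h1 h2
      simp only [Fintype.sum_option, Fin.sum_univ_four, Option.elim, Polynomial.natDegree_pow,
        Polynomial.natDegree_X_sub_C, c.Udeg, Arm.α, c.Eu, c.Ew, Matrix.cons_val]
      omega⟩)
    (by
      rintro (_ | k) j _ h2
      · exact (c.latU κ j).1
      · obtain ⟨g, h3, h4⟩ := c.latE k h2
        exact ⟨(g, 0), (c.goodE k).M_of_mem h3 (by simp), h4, map_zero _⟩)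
    (by
      rintro (_ | k) j _ h2
      · exact (c.latU κ j).2
      · obtain ⟨g, h3, h4⟩ := c.latE k h2
        exact ⟨(0, g), (c.goodE k).M_of_mem (by simp) h3, map_zero _, h4⟩)
    W (by rintro (_ | k); exacts [hU, hE k]) hV
  set a := (A - eval ![z0, x0] (W + xx ^ 4 • θ).1) / x0 ^ (m + 2) with ha
  set b := (B - eval ![z0, x0] (W + xx ^ 4 • θ).2) / x0 ^ (m + 2) + 2 * z0 * a with hb
  have e : W + xx ^ 4 • (θ + xx ^ (m - 2) • vf (C a) (C b) 0) =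
      W + xx ^ 4 • θ + xx ^ (m + 2) • vf (C a) (C b) 0 := by
    rw [smul_add, smul_smul, ← pow_add, show 4 + (m - 2) = m + 2 by omega, add_assoc]
  have key : ∀ {a' : Arm} {n : ℕ} {η : S × S}, a'.Good → n + a'.w ≤ m + 2 →
      a'.M n (W + xx ^ 4 • θ + xx ^ (m + 2) • η) →
      a'.M n (W + xx ^ 4 • θ + xx ^ (m + 2) • vf (C a) (C b) 0) := fun {a' n η} h1 h2 h3 => by
    convert Arm.M_add h3 (h1.xx_pow_smul h2 (vf (C a) (C b) 0 - η)) using 1
    module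
  refine ⟨θ + xx ^ (m - 2) • vf (C a) (C b) 0, ?_⟩
  rw [e]
  refine ⟨Vd_add hθ ?_, (hη none).elim fun η h => key c.goodU (by rw [c.Uw]; omega) h,
    fun k => (hη (some k)).elim fun η h => key (c.goodE k) (by rw [c.Ew]) h, ?_, ?_⟩
  · have := Vd_smul (d := d - 2 * (m + 2)) (xx_pow_mem_Dg (m + 2))
      ⟨_, C_mem_Dg a _, _, C_mem_Dg b _, 0, zero_mem _, rfl⟩
    rwa [Nat.sub_add_cancel hd] at this
  · rw [Prod.fst_add, map_add]
    simp only [vf, Prod.smul_fst, smul_eq_mul, mul_zero, add_zero, map_mul, map_pow, eval_X, eval_C,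
      Matrix.cons_val, ha]
    field_simp
    ring
  · rw [Prod.snd_add, map_add]
    simp only [vf, Prod.smul_snd, smul_eq_mul, mul_zero, add_zero, map_mul, map_pow, eval_X, eval_C,
      Matrix.cons_val, map_add, map_neg, map_ofNat]
    rw [hb]
    field_simp
    ring

theorem Config.x0_ne (c : Config) : c.x0 ≠ 0 := by
  have h := c.hs
  have h0 : c.z0 - c.e 0 = -((c.e 0 - c.e 2) * (c.e 0 - c.e 3)) / (c.e 0 + c.e 1 - c.e 2 - c.e 3) := by
    rw [Config.z0]; field_simp; ring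
  have h1 : c.z0 - c.e 1 = -((c.e 1 - c.e 2) * (c.e 1 - c.e 3)) / (c.e 0 + c.e 1 - c.e 2 - c.e 3) := by
    rw [Config.z0]; field_simp; ring
  have ne : ∀ i j, i ≠ j → c.e i - c.e j ≠ 0 := fun i j h => sub_ne_zero.2 (c.e_inj.ne h)
  rw [Config.x0, h0, h1]
  exact neg_ne_zero.2 (mul_ne_zero
    (div_ne_zero (neg_ne_zero.2 (mul_ne_zero (ne _ _ (by decide)) (ne _ _ (by decide)))) h)
    (div_ne_zero (neg_ne_zero.2 (mul_ne_zero (ne _ _ (by decide)) (ne _ _ (by decide)))) h))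

theorem M_scale {a : Arm} {κ n κ' : ℕ} {W : S × S} {L : S} (q : ℕ) (hL : a.Q ^ q ∣ L)
    (h : ∃ η : S × S, a.M κ (W + xx ^ n • η)) (hκ : κ' = κ + a.α * q) :
    ∃ η : S × S, a.M κ' (L • W + xx ^ n • η) := by
  obtain ⟨η, h⟩ := h
  obtain ⟨L', rfl⟩ := hL
  refine ⟨(a.Q ^ q * L') • η, ?_⟩
  rw [hκ, smul_comm, ← smul_add]
  exact Arm.M_smul_F (Ideal.mul_mem_right _ _ (Q_pow_mem q)) h

theorem dvd_Lam (aU : Arm) (aE : Fin 4 → Arm) (t q0 q1 : ℕ) :
    aU.Q ^ t ∣ Lam aU aE t q0 q1 ∧ ∀ k, (aE k).Q ^ (![q0, q0, q1, q1] k) ∣ Lam aU aE t q0 q1 := by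
  unfold Lam
  refine ⟨by simp only [mul_assoc, dvd_mul_right], fun k => ?_⟩
  fin_cases k
  · exact (((dvd_mul_left _ _).mul_right _).mul_right _).mul_right _
  · exact ((dvd_mul_left _ _).mul_right _).mul_right _
  · exact (dvd_mul_left _ _).mul_right _
  · exact dvd_mul_left _ _

theorem sol_of_base (b : Base) : Nonempty Sol := by
  have hα : b.aU.α = 3 := by rw [Arm.α, b.Uu, b.Uw]
  obtain ⟨θ1, v1, u1, e1, a1, b1⟩ := exists_field b.toConfig 164 284 688 (by omega) (by omega)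
    (by omega) (fun j h1 h2 => by omega) _ (M_scale 54 (dvd_Lam _ _ _ _ _).1 b.U1 (by rw [hα]))
    (fun k => M_scale _ ((dvd_Lam _ _ _ _ _).2 k) (b.E1 k) (by
      rw [Arm.α, b.Eu, b.Ew]; fin_cases k <;> rfl)) b.H1 b.z0 b.x0 b.x0_ne 1 0
  obtain ⟨θ2, v2, u2, e2, a2, b2⟩ := exists_field b.toConfig 8 15 37 (by omega) (by omega)
    (by omega) (fun j h1 h2 => by omega) _ (M_scale 2 (dvd_Lam _ _ _ _ _).1 b.U2 (by rw [hα]))
    (fun k => M_scale _ ((dvd_Lam _ _ _ _ _).2 k) (b.E2 k) (by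
      rw [Arm.α, b.Eu, b.Ew]; fin_cases k <;> rfl)) b.H2 b.z0 b.x0 b.x0_ne 0 1
  obtain ⟨s, hs⟩ := b.hdet
  obtain ⟨g1, hg⟩ : ∃ g1, det (Lam b.aU b.aE 54 70 56 • b.W1 + xx ^ 4 • θ1)
      (Lam b.aU b.aE 2 3 2 • b.W2 + xx ^ 4 • θ2) =
      xx * (C b.c * Lam b.aU b.aE 58 75 60 + xx * g1) := by
    have hL : Lam b.aU b.aE 58 75 60 =
        Lam b.aU b.aE 54 70 56 * Lam b.aU b.aE 2 3 2 * Lam b.aU b.aE 2 2 2 := by
      unfold Lam; ring
    rw [hL]
    generalize Lam b.aU b.aE 54 70 56 = L1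
    generalize Lam b.aU b.aE 2 3 2 = L2
    refine ⟨L1 * L2 * s + xx ^ 2 * (L1 * det b.W1 θ2 + L2 * det θ1 b.W2 + xx ^ 4 * det θ1 θ2), ?_⟩
    simp only [det, Prod.fst_add, Prod.snd_add, Prod.smul_fst, Prod.smul_snd, smul_eq_mul] at hs ⊢
    linear_combination L1 * L2 * hs
  refine ⟨⟨b.toConfig, _, _, u1, u2, e1, e2, v1, v2, _, g1, b.c, b.hc, hg, rfl, fun h => ?_⟩⟩
  have := congrArg (eval ![b.z0, b.x0]) hg
  rw [map_mul, h, det, map_sub, map_mul, map_mul, a1, b1, a2, b2] at this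
  simp at this

end Crest.Agent.R278
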