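import Crest.Agent.R278.Chart2
import Crest.Agent.R278.Abs
import Crest.Agent.R278.Induct

/-! # Assembly on the field side -/

set_option autoImplicit false

noncomputable section

namespace Crest.Agent.R278

open MvPolynomial

variable {K : Type} [Field K] [Algebra ℂ K]

/-! ### polynomial facts -/

theorem main_res_lin (e : ℂ) : res (lin e) = Polynomial.X - Polynomial.C e := by
  simp [lin, res]

theorem main_eval_zero (e : ℂ) (f : S) : eval ![e, 0] f = (res f).eval e := by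
  induction f using MvPolynomial.induction_on with
  | C a => simp [res]
  | add p q hp hq => simp [hp, hq]
  | mul_X p i hp =>
    rw [map_mul, map_mul, Polynomial.eval_mul, hp]
    congr 1
    fin_cases i <;> simp [res]

theorem Config.main_Q_eq (c : Config) (k : Fin 4) :
    ∃ j, (c.aE k).Q = lin (c.e k) ^ ((c.aE k).u + 1) + xx * j := by
  rcases (c.goodE k).shape with h | ⟨-, -, j, -, h⟩
  · rw [c.Eζ] at h
    have := congrArg res h
    rw [main_res_lin, res_xx] at this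
    exact absurd this (Polynomial.X_sub_C_ne_zero _)
  · exact ⟨j, by rw [h, c.Eζ]⟩

theorem Config.main_res_Q (c : Config) (k : Fin 4) :
    res (c.aE k).Q = (Polynomial.X - Polynomial.C (c.e k)) ^ ((c.aE k).u + 1) := by
  obtain ⟨j, hj⟩ := c.main_Q_eq k
  rw [hj, map_add, map_mul, res_xx, zero_mul, add_zero, map_pow, main_res_lin]

theorem Config.main_monic_Q (c : Config) (k : Fin 4) : (res (c.aE k).Q).Monic := by
  rw [c.main_res_Q]; exact (Polynomial.monic_X_sub_C _).pow _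

theorem Config.main_deg_Q (c : Config) (k : Fin 4) :
    (res (c.aE k).Q).natDegree = (c.aE k).u + 1 := by
  rw [c.main_res_Q, Polynomial.natDegree_pow, Polynomial.natDegree_X_sub_C, mul_one]

theorem Config.main_Lam (c : Config) : (res (Lam c.aU c.aE 58 75 60)).Monic ∧
    (res (Lam c.aU c.aE 58 75 60)).natDegree = 1452 := by
  have m0 := (c.main_monic_Q 0).pow (n := 75)
  have m1 := (c.main_monic_Q 1).pow (n := 75)
  have m2 := (c.main_monic_Q 2).pow (n := 60)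
  have m3 := (c.main_monic_Q 3).pow (n := 60)
  have mU := c.Umonic.pow (n := 58)
  simp only [Lam, map_mul, map_pow]
  refine ⟨(((mU.mul m0).mul m1).mul m2).mul m3, ?_⟩
  rw [(((mU.mul m0).mul m1).mul m2).natDegree_mul m3, ((mU.mul m0).mul m1).natDegree_mul m2,
    (mU.mul m0).natDegree_mul m1, mU.natDegree_mul m0]
  simp only [Polynomial.natDegree_pow, c.main_deg_Q, c.Udeg, c.Eu]
  simp

theorem Sol.main_res_g (s : Sol) :
    res s.g = Polynomial.C s.c * res (Lam s.aU s.aE 58 75 60) := by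
  rw [s.hg, map_add, map_mul, map_mul, res_xx, zero_mul, add_zero]
  simp [res]

theorem Sol.main_coeff (s : Sol) : (res s.g).coeff 1452 ≠ 0 := by
  obtain ⟨h1, h2⟩ := s.toConfig.main_Lam
  rw [s.main_res_g, Polynomial.coeff_C_mul, ← h2, h1.coeff_natDegree, mul_one]
  exact s.hc

theorem Sol.main_res_ne (s : Sol) : res s.g ≠ 0 := fun h => s.main_coeff (by rw [h]; simp)

theorem Sol.g_ne (s : Sol) : s.g ≠ 0 := fun h => s.main_res_ne (by rw [h, map_zero])

theorem Config.main_z0 (c : Config) :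
    (c.e 0 + c.e 1 - c.e 2 - c.e 3) * c.z0 = c.e 0 * c.e 1 - c.e 2 * c.e 3 := by
  have := c.hs
  unfold Config.z0
  field_simp

theorem Config.main_x0 (c : Config) : c.x0 = -((c.z0 - c.e 2) * (c.z0 - c.e 3)) := by
  unfold Config.x0
  linear_combination c.main_z0

theorem Config.main_z0_ne (c : Config) (k : Fin 4) : c.z0 - c.e k ≠ 0 := by
  have h := c.x0_ne
  have h' := h
  rw [c.main_x0] at h'
  unfold Config.x0 at h
  simp only [ne_eq, neg_eq_zero, mul_eq_zero, not_or] at h h'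
  fin_cases k
  exacts [h.1, h.2, h'.1, h'.2]

theorem Config.main_sub (c : Config) :
    c.fa - c.fb = xx * (C (-(c.e 0 + c.e 1 - c.e 2 - c.e 3)) * (zz - C c.z0)) := by
  have h : (C (c.e 0) + C (c.e 1) - C (c.e 2) - C (c.e 3) : S) * C c.z0
      = C (c.e 0) * C (c.e 1) - C (c.e 2) * C (c.e 3) := by
    have := congrArg (C : ℂ → S) c.main_z0
    simpa using this
  simp only [Config.fa, Config.fb, al0, lin, map_neg, map_sub, map_add]
  linear_combination (-xx) * h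

theorem Config.main_line (c : Config) : xx + lin (c.e 2) * lin (c.e 3) =
    (xx - C c.x0) + (zz - C c.z0) * (zz + C c.z0 - C (c.e 2) - C (c.e 3)) := by
  rw [c.main_x0]
  simp only [lin, map_neg, map_sub, map_mul]
  ring

theorem Config.main_mem_span (c : Config) (k : Fin 4) :
    c.fa ∈ Ideal.span {xx, lin (c.e k)} ∧ c.fb ∈ Ideal.span {xx, lin (c.e k)} := by
  have hp : lin (c.e 0) * lin (c.e 1) * lin (c.e 2) * lin (c.e 3) ∈
      Ideal.span {xx, lin (c.e k)} := by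
    have hk : lin (c.e k) ∈ Ideal.span {xx, lin (c.e k)} := Ideal.subset_span (by simp)
    fin_cases k
    · exact Ideal.mul_mem_right _ _ (Ideal.mul_mem_right _ _ (Ideal.mul_mem_right _ _ hk))
    · exact Ideal.mul_mem_right _ _ (Ideal.mul_mem_right _ _ (Ideal.mul_mem_left _ _ hk))
    · exact Ideal.mul_mem_right _ _ (Ideal.mul_mem_left _ _ hk)
    · exact Ideal.mul_mem_left _ _ hk
  have hx : xx ∈ Ideal.span {xx, lin (c.e k)} := Ideal.subset_span (by simp)
  constructor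
  · have : c.fa = lin (c.e 0) * lin (c.e 1) * xx +
        lin (c.e 0) * lin (c.e 1) * lin (c.e 2) * lin (c.e 3) := by
      simp only [Config.fa, al0]; ring
    rw [this]
    exact Ideal.add_mem _ (Ideal.mul_mem_left _ _ hx) hp
  · have : c.fb = lin (c.e 2) * lin (c.e 3) * xx +
        lin (c.e 0) * lin (c.e 1) * lin (c.e 2) * lin (c.e 3) := by
      simp only [Config.fb, al0]; ring
    rw [this]
    exact Ideal.add_mem _ (Ideal.mul_mem_left _ _ hx) hp

/-! ### valuation facts -/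

theorem main_val_const (V : ValuationSubring K) (hC : ∀ c : ℂ, algebraMap ℂ K c ∈ V) {c : ℂ}
    (hc : c ≠ 0) : V.valuation (algebraMap ℂ K c) = 1 := by
  have h1 := (V.valuation_le_one_iff _).2 (hC c)
  have h2 := (V.valuation_le_one_iff _).2 (hC c⁻¹)
  rw [map_inv₀] at h2
  have h3 : algebraMap ℂ K c ≠ 0 := by simpa using hc
  exact le_antisymm h1 ((V.valuation.one_le_val_iff h3).2 h2)

omit [Algebra ℂ K] in
theorem main_mem_of_mul (V : ValuationSubring K) {y u : K} (h : y * u ∈ V)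
    (hu : V.valuation u = 1) : y ∈ V := by
  rw [← V.valuation_le_one_iff] at h ⊢
  rwa [map_mul, hu, mul_one] at h

omit [Algebra ℂ K] in
theorem main_mul_lt (V : ValuationSubring K) {y u : K} (h : V.valuation y < 1) (hu : u ∈ V) :
    V.valuation (y * u) < 1 := by
  rw [map_mul]
  exact mul_lt_one_of_nonneg_of_lt_one_left zero_le h ((V.valuation_le_one_iff _).2 hu)

theorem Setup.main_φ_C (σ : Setup K) (c : ℂ) : σ.φ (C c) = algebraMap ℂ K c := by
  rw [← MvPolynomial.algebraMap_eq, AlgHom.commutes]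

theorem Setup.main_rho2 (σ : Setup K) (c : Config) (V : ValuationSubring K)
    (hC : ∀ c : ℂ, algebraMap ℂ K c ∈ V) (ha : σ.fn c.fa ∈ V) (hb : σ.fn c.fb ∈ V)
    (hz : V.valuation (σ.φ (zz - C c.z0)) = 1) : σ.ρ / σ.φ xx ^ 2 ∈ V := by
  refine main_mem_of_mul V
    (u := σ.φ (C (-(c.e 0 + c.e 1 - c.e 2 - c.e 3)) * (zz - C c.z0))) ?_ ?_
  · have : σ.ρ / σ.φ xx ^ 2 * σ.φ (C (-(c.e 0 + c.e 1 - c.e 2 - c.e 3)) * (zz - C c.z0))
        = σ.fn c.fa - σ.fn c.fb := by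
      have hx := σ.x_ne
      rw [Setup.fn, Setup.fn, ← sub_div, ← mul_sub, ← map_sub σ.φ c.fa, c.main_sub,
        map_mul σ.φ xx]
      field_simp
    rw [this]
    exact V.toSubring.sub_mem ha hb
  · rw [map_mul, map_mul, hz, mul_one, σ.main_φ_C]
    exact main_val_const V hC (neg_ne_zero.2 c.hs)

theorem Setup.main_rho3 (σ : Setup K) (f : S) (V : ValuationSubring K) (ha : σ.fn f ∈ V)
    (hf : V.valuation (σ.φ f) = 1) : σ.ρ / σ.φ xx ^ 3 ∈ V := by
  refine main_mem_of_mul V ?_ hf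
  rwa [div_mul_eq_mul_div]

theorem Setup.main_rho0 (σ : Setup K) (V : ValuationSubring K) (hx : σ.φ xx ∈ V) {n : ℕ}
    (h : σ.ρ / σ.φ xx ^ n ∈ V) : σ.ρ ∈ V := by
  have hx0 := σ.x_ne
  have : σ.ρ = σ.ρ / σ.φ xx ^ n * σ.φ xx ^ n := by field_simp
  rw [this]
  exact V.mul_mem _ _ h (V.toSubring.pow_mem hx n)

/-- the affine chart -/
theorem main_good_a (s : Sol) (σ : Setup K) (hg : σ.g = s.g)
    (V : ValuationSubring K) (hC : ∀ c : ℂ, algebraMap ℂ K c ∈ V)
    (ha : σ.fn s.toConfig.fa ∈ V) (hb : σ.fn s.toConfig.fb ∈ V) (hz : σ.φ zz ∈ V)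
    (hx : V.valuation (σ.φ xx) = 1) : σ.ρ ∈ V := by
  have hxV : σ.φ xx ∈ V := (V.valuation_le_one_iff _).1 hx.le
  have hle : ∀ f, V.valuation (σ.φ f) ≤ 1 := fun f =>
    (V.valuation_le_one_iff _).2 (σ.φ_mem V hC hz hxV f)
  rcases (hle (zz - C s.toConfig.z0)).eq_or_lt with h1 | h1
  · exact σ.main_rho0 V hxV (σ.main_rho2 _ V hC ha hb h1)
  rcases (hle (xx - C s.toConfig.x0)).eq_or_lt with h2 | h2
  · refine σ.main_rho0 V hxV (σ.main_rho3 _ V ha ?_)
    have hl : ∀ k, V.valuation (σ.φ (lin (s.e k))) = 1 := by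
      intro k
      have : lin (s.e k) = C (s.toConfig.z0 - s.e k) + (zz - C s.toConfig.z0) := by
        simp only [lin, map_sub]; ring
      have h3 := main_val_const V hC (s.toConfig.main_z0_ne k)
      rw [this, map_add, σ.main_φ_C, V.valuation.map_add_eq_of_lt_left (by rwa [h3]), h3]
    rw [Config.fa, al0, map_mul, map_mul, map_mul, map_mul, hl, hl, s.toConfig.main_line,
      map_add, V.valuation.map_add_eq_of_lt_left, h2, mul_one, mul_one]
    rw [h2, map_mul]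
    exact main_mul_lt V h1 (σ.φ_mem V hC hz hxV _)
  · have h3 := σ.val_eq_one_of_eval V hC _ _ h1 h2 _ s.hQ0
    have h4 := congrArg V.valuation σ.hρ
    rw [map_mul, hg, h3, mul_one, map_pow, map_pow, hx, one_pow] at h4
    rw [← V.valuation_le_one_iff]
    exact ((pow_eq_one_iff_of_nonneg zero_le σ.hr.ne').1 h4).le

theorem main_Lam_split (s : Sol) (k : Fin 4) : ∃ (g0 : S) (q : ℕ), 300 = (s.aE k).α * q ∧
    s.g = g0 * (s.aE k).Q ^ q + xx * s.g1 ∧ eval ![s.e k, 0] g0 ≠ 0 := by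
  have hU : eval ![s.e k, 0] s.aU.Q ≠ 0 := by rw [main_eval_zero]; exact s.Ue k
  have hQ : ∀ j, j ≠ k → eval ![s.e k, 0] (s.aE j).Q ≠ 0 := by
    intro j hj
    rw [main_eval_zero, s.toConfig.main_res_Q]
    simp only [Polynomial.eval_pow, Polynomial.eval_sub, Polynomial.eval_X, Polynomial.eval_C]
    exact pow_ne_zero _ (sub_ne_zero.2 fun h => hj (s.e_inj h).symm)
  have hc := s.hc
  have hu := s.Eu k
  have hw := s.Ew k
  fin_cases k
  · refine ⟨C s.c * (s.aU.Q ^ 58 * (s.aE 1).Q ^ 75 * (s.aE 2).Q ^ 60 * (s.aE 3).Q ^ 60), 75,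
      ?_, ?_, ?_⟩
    · rw [Arm.α, hu, hw]; simp
    · rw [s.hg, Lam]; simp only [Fin.zero_eta, Fin.isValue]; ring
    · simp only [map_mul, map_pow, eval_C]
      exact mul_ne_zero hc (mul_ne_zero (mul_ne_zero (mul_ne_zero (pow_ne_zero _ hU)
        (pow_ne_zero _ (hQ 1 (by decide)))) (pow_ne_zero _ (hQ 2 (by decide))))
        (pow_ne_zero _ (hQ 3 (by decide))))
  · refine ⟨C s.c * (s.aU.Q ^ 58 * (s.aE 0).Q ^ 75 * (s.aE 2).Q ^ 60 * (s.aE 3).Q ^ 60), 75,
      ?_, ?_, ?_⟩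
    · rw [Arm.α, hu, hw]; simp
    · rw [s.hg, Lam]; simp only [Fin.mk_one, Fin.isValue]; ring
    · simp only [map_mul, map_pow, eval_C]
      exact mul_ne_zero hc (mul_ne_zero (mul_ne_zero (mul_ne_zero (pow_ne_zero _ hU)
        (pow_ne_zero _ (hQ 0 (by decide)))) (pow_ne_zero _ (hQ 2 (by decide))))
        (pow_ne_zero _ (hQ 3 (by decide))))
  · refine ⟨C s.c * (s.aU.Q ^ 58 * (s.aE 0).Q ^ 75 * (s.aE 1).Q ^ 75 * (s.aE 3).Q ^ 60), 60,
      ?_, ?_, ?_⟩
    · rw [Arm.α, hu, hw]; simp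
    · rw [s.hg, Lam]; simp only [Fin.reduceFinMk, Fin.isValue]; ring
    · simp only [map_mul, map_pow, eval_C]
      exact mul_ne_zero hc (mul_ne_zero (mul_ne_zero (mul_ne_zero (pow_ne_zero _ hU)
        (pow_ne_zero _ (hQ 0 (by decide)))) (pow_ne_zero _ (hQ 1 (by decide))))
        (pow_ne_zero _ (hQ 3 (by decide))))
  · refine ⟨C s.c * (s.aU.Q ^ 58 * (s.aE 0).Q ^ 75 * (s.aE 1).Q ^ 75 * (s.aE 2).Q ^ 60), 60,
      ?_, ?_, ?_⟩
    · rw [Arm.α, hu, hw]; simp
    · rw [s.hg, Lam]; simp only [Fin.reduceFinMk, Fin.isValue]; ring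
    · simp only [map_mul, map_pow, eval_C]
      exact mul_ne_zero hc (mul_ne_zero (mul_ne_zero (mul_ne_zero (pow_ne_zero _ hU)
        (pow_ne_zero _ (hQ 0 (by decide)))) (pow_ne_zero _ (hQ 1 (by decide))))
        (pow_ne_zero _ (hQ 2 (by decide))))

/-- the arms at `e k` -/
theorem main_good_b (s : Sol) (σ : Setup K) (hg : σ.g = s.g) (hr : σ.r = 126) (hE : σ.E = 552)
    (V : ValuationSubring K) (hC : ∀ c : ℂ, algebraMap ℂ K c ∈ V)
    (ha : σ.fn s.toConfig.fa ∈ V) (hb : σ.fn s.toConfig.fb ∈ V)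
    (hab : V.valuation (σ.fn s.toConfig.fa) = 1 ∨ V.valuation (σ.fn s.toConfig.fb) = 1)
    (hz : σ.φ zz ∈ V) (hx : V.valuation (σ.φ xx) < 1) (k : Fin 4)
    (hk : V.valuation (σ.φ (lin (s.e k))) < 1) :
    Chart V (σ.tw 120 524 s.p1) (σ.tw 7 29 s.p2) (σ.fn s.toConfig.fa) (σ.fn s.toConfig.fb) := by
  have hw := s.Ew k
  have hζ := s.Eζ k
  have hx' : V.valuation (σ.φ (xx - C 0)) < 1 := by simpa using hx
  have hdet : det s.p1 s.p2 = xx * σ.g := by rw [hg, s.hdet]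
  obtain ⟨hfa, hfb⟩ := s.toConfig.main_mem_span k
  have hfa' : s.toConfig.fa ∈ Ideal.span {xx, (s.aE k).ζ} ^ (3 - (s.aE k).w) := by
    rw [hw, hζ]; simpa using hfa
  have hfb' : s.toConfig.fb ∈ Ideal.span {xx, (s.aE k).ζ} ^ (3 - (s.aE k).w) := by
    rw [hw, hζ]; simpa using hfb
  by_cases hin : σ.φ (s.aE k).ζ / σ.φ xx ∈ V ∧ σ.φ (s.aE k).Q / σ.φ xx ^ (s.aE k).α ∈ V
  · refine σ.arm_chart (s.aE k) (s.goodE k) (by omega) s.p1 s.p2 120 7 524 29 284 15 (s.E1 k)
      (s.E2 k) hdet (by rw [hw]) (by rw [hw]) (by rw [hr]) (by rw [hE]) V hC hz hx hin.1 hin.2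
      ?_ _ _ (span_pow_le _ hfa') (span_pow_le _ hfb')
    rw [hw]
    refine σ.main_rho2 _ V hC ha hb (σ.val_eq_one_of_eval V hC _ _ hk hx' _ ?_)
    have := s.toConfig.main_z0_ne k
    simp only [map_sub, eval_X, eval_C, Matrix.cons_val_zero]
    exact fun h => this (by linear_combination -h)
  · obtain ⟨g0, q, hq, hg0, hev⟩ := main_Lam_split s k
    have key := σ.arm_region (s.aE k) (s.goodE k) (by omega) 300 q hq
      (Nat.pos_of_ne_zero fun h => by simp [h] at hq) (by rw [hE, hw, hr]) 174 (by rw [hE, hr])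
      ((s.goodE k).g_mem (s.E1 k) (s.E2 k) hdet (by rw [hw])) g0 s.g1 (by rw [hg, hg0]) V hC hz hx
      (by rwa [hζ]) (σ.val_eq_one_of_eval V hC _ _ hk hx' _ hev) hin
    rcases hab with h | h
    · exact absurd h (key _ hfa').ne
    · exact absurd h (key _ hfb').ne

/-- the `A₂` arms -/
theorem main_good_c (s : Sol) (σ : Setup K) (hg : σ.g = s.g) (hr : σ.r = 126) (hE : σ.E = 552)
    (V : ValuationSubring K) (hC : ∀ c : ℂ, algebraMap ℂ K c ∈ V)
    (ha : σ.fn s.toConfig.fa ∈ V)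
    (hab : V.valuation (σ.fn s.toConfig.fa) = 1 ∨ V.valuation (σ.fn s.toConfig.fb) = 1)
    (hz : σ.φ zz ∈ V) (hx : V.valuation (σ.φ xx) < 1)
    (hk : ∀ k, V.valuation (σ.φ (lin (s.e k))) = 1) :
    Chart V (σ.tw 120 524 s.p1) (σ.tw 7 29 s.p2) (σ.fn s.toConfig.fa) (σ.fn s.toConfig.fb) := by
  have hw := s.Uw
  have hu := s.Uu
  have hζ := s.Uζ
  have hxV : σ.φ xx ∈ V := (V.valuation_le_one_iff _).1 hx.le
  have hdet : det s.p1 s.p2 = xx * σ.g := by rw [hg, s.hdet]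
  by_cases hin : σ.φ s.aU.ζ / σ.φ xx ∈ V ∧ σ.φ s.aU.Q / σ.φ xx ^ s.aU.α ∈ V
  · refine σ.arm_chart s.aU s.goodU (by omega) s.p1 s.p2 120 7 524 29 164 8 s.U1
      s.U2 hdet (by rw [hw]) (by rw [hw]) (by rw [hr]) (by rw [hE]) V hC hz hx hin.1 hin.2
      ?_ _ _ (by rw [hw]; exact Fil_zero _) (by rw [hw]; exact Fil_zero _)
    rw [hw]
    refine σ.main_rho3 _ V ha ?_
    have h1 : V.valuation (σ.φ (lin (s.e 2) * lin (s.e 3))) = 1 := by
      rw [map_mul, map_mul, hk, hk, mul_one]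
    rw [Config.fa, al0, map_mul, map_mul, map_mul, map_mul, hk, hk, map_add,
      V.valuation.map_add_eq_of_lt_right (by rwa [h1]), h1, mul_one, mul_one]
  · have hQ : ∀ k, V.valuation (σ.φ (s.aE k).Q) = 1 := by
      intro k
      obtain ⟨j, hj⟩ := s.toConfig.main_Q_eq k
      have h1 : V.valuation (σ.φ (lin (s.e k) ^ ((s.aE k).u + 1))) = 1 := by
        rw [map_pow, map_pow, hk, one_pow]
      rw [hj, map_add, V.valuation.map_add_eq_of_lt_left, h1]
      rw [h1, map_mul]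
      exact main_mul_lt V hx (σ.φ_mem V hC hz hxV _)
    have key := σ.arm_region s.aU s.goodU (by omega) 174 58 (by rw [Arm.α, hu, hw]) (by norm_num)
      (by rw [hE, hw, hr]) 174 (by rw [hE, hr])
      (s.goodU.g_mem s.U1 s.U2 hdet (by rw [hw]))
      (C s.c * ((s.aE 0).Q ^ 75 * (s.aE 1).Q ^ 75 * (s.aE 2).Q ^ 60 * (s.aE 3).Q ^ 60)) s.g1
      (by rw [hg, s.hg, Lam]; ring) V hC hz hx (by rwa [hζ])
      (by simp only [map_mul, map_pow, hQ, σ.main_φ_C, main_val_const V hC s.hc, one_pow, mul_one])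
      hin
    rcases hab with h | h
    · exact absurd h (key _ (by rw [hw]; simp)).ne
    · exact absurd h (key _ (by rw [hw]; simp)).ne

/-- every valuation ring containing `a, b` in which one of them is a unit lies on a chart -/
theorem good (s : Sol) (σ : Setup K) (hg : σ.g = s.g) (hr : σ.r = 126) (hE : σ.E = 552)
    (V : ValuationSubring K) (hC : ∀ c : ℂ, algebraMap ℂ K c ∈ V)
    (ha : σ.fn s.toConfig.fa ∈ V) (hb : σ.fn s.toConfig.fb ∈ V)
    (hab : V.valuation (σ.fn s.toConfig.fa) = 1 ∨ V.valuation (σ.fn s.toConfig.fb) = 1) :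
    Chart V (σ.tw 120 524 s.p1) (σ.tw 7 29 s.p2) (σ.fn s.toConfig.fa) (σ.fn s.toConfig.fb) := by
  have hdet : det s.p1 s.p2 = xx * σ.g := by rw [hg, s.hdet]
  by_cases hzx : σ.φ zz ∈ V ∧ σ.φ xx ∈ V
  · obtain ⟨hz, hx⟩ := hzx
    rcases ((V.valuation_le_one_iff _).2 hx).eq_or_lt with h1 | h1
    · exact σ.aff_chart s.p1 s.p2 120 7 524 29 hdet (by rw [hr]) (by rw [hE]) V hC hz h1
        (main_good_a s σ hg V hC ha hb hz h1) _ _
    by_cases hk : ∃ k, V.valuation (σ.φ (lin (s.e k))) < 1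
    · obtain ⟨k, hk⟩ := hk
      exact main_good_b s σ hg hr hE V hC ha hb hab hz h1 k hk
    · push Not at hk
      exact main_good_c s σ hg hr hE V hC ha hab hz h1 fun k =>
        le_antisymm ((V.valuation_le_one_iff _).2 (σ.φ_mem V hC hz hx _)) (hk k)
  have hmax : ¬ (V.valuation (σ.φ zz) ≤ 1 ∧ V.valuation (σ.φ ZZ) ≤ 1) := by
    rintro ⟨h1, h2⟩
    rw [V.valuation_le_one_iff] at h1 h2
    refine hzx ⟨h1, ?_⟩
    have : σ.φ xx = σ.φ ZZ - σ.φ zz ^ 2 := by simp [ZZ]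
    rw [this]
    exact V.toSubring.sub_mem h2 (V.toSubring.pow_mem h1 2)
  rcases le_or_gt (V.valuation (σ.φ ZZ)) (V.valuation (σ.φ zz)) with h1 | h1
  · have hz : 1 < V.valuation (σ.φ zz) := by
      by_contra hc
      push Not at hc
      exact hmax ⟨hc, h1.trans hc⟩
    exact σ.inf_chart s.p1 s.p2 120 7 524 29 688 37 s.V1 s.V2 hdet rfl rfl (by rw [hr])
      (by rw [hE]) V hC hz h1 (σ.inf_rho _ _ _ _ s.hs V hC hz h1 ha hb) _ _ (al0_mem_Dg _ _ _ _)
      (al0_mem_Dg _ _ _ _)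
  · have hZ : 1 < V.valuation (σ.φ ZZ) := by
      by_contra hc
      push Not at hc
      exact hmax ⟨h1.le.trans hc, hc⟩
    have hgD : σ.g ∈ Dg (724 + 2) := by
      refine Dg_colon ?_
      rw [← hdet]
      have := det_mem_Dg s.V1 s.V2
      exact this
    have key := σ.H_region 724 174 hgD (by rw [hg]; exact s.main_coeff) (by rw [hE, hr])
      (by norm_num) (by rw [hr]) V hC hZ h1
    rcases hab with h | h
    · exact absurd h (key _ (al0_mem_Dg _ _ _ _)).ne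
    · exact absurd h (key _ (al0_mem_Dg _ _ _ _)).ne

/-! ### logarithmic derivative of `ρ / x³` -/

theorem Setup.main_lam_pow (σ : Setup K) {T : ℕ} (hT : σ.E = 3 * σ.r + T) :
    σ.fn 1 ^ σ.r * σ.φ σ.g = σ.φ xx ^ T := by
  simpa using σ.fn_pow 1 T hT

theorem Setup.main_fn (σ : Setup K) (f : S) : σ.fn f = σ.fn 1 * σ.φ f := by
  simp only [Setup.fn, map_one]; ring

theorem Setup.main_lam_ne (σ : Setup K) : σ.fn 1 ≠ 0 := by
  simp only [Setup.fn, map_one, mul_one]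
  exact div_ne_zero σ.ρ_ne (pow_ne_zero _ σ.x_ne)

theorem Setup.main_log (σ : Setup K) {T : ℕ} (hT : σ.E = 3 * σ.r + T) (D : Derivation ℂ K K) :
    (σ.r : K) * σ.φ xx * σ.φ σ.g * D (σ.fn 1)
      = σ.fn 1 * (T * σ.φ σ.g * D (σ.φ xx) - σ.φ xx * D (σ.φ σ.g)) := by
  have h := σ.main_lam_pow hT
  have h1 := congrArg D h
  obtain ⟨r, hr⟩ : ∃ r, σ.r = r + 1 := ⟨σ.r - 1, by have := σ.hr; omega⟩
  rw [D.leibniz, D.leibniz_pow, D.leibniz_pow] at h1
  simp only [smul_eq_mul, nsmul_eq_mul] at h1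
  have h2 : σ.φ xx * ((T : K) * (σ.φ xx ^ (T - 1) * D (σ.φ xx)))
      = T * σ.φ xx ^ T * D (σ.φ xx) := by
    rcases T with _ | T
    · simp
    · simp only [Nat.add_sub_cancel]; ring
  rw [← h1, ← h, hr] at h2
  simp only [Nat.add_sub_cancel] at h2
  rw [hr]
  refine mul_left_cancel₀ (pow_ne_zero r σ.main_lam_ne) ?_
  linear_combination h2

theorem jac (s : Sol) (σ : Setup K) (hg : σ.g = s.g) (hr : σ.r = 126) (hE : σ.E = 552) :
    σ.tw 120 524 s.p1 (σ.fn s.toConfig.fa) * σ.tw 7 29 s.p2 (σ.fn s.toConfig.fb)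
      - σ.tw 7 29 s.p2 (σ.fn s.toConfig.fa) * σ.tw 120 524 s.p1 (σ.fn s.toConfig.fb) ≠ 0 := by
  have hT : σ.E = 3 * σ.r + 174 := by rw [hE, hr]
  have hx := σ.x_ne
  have hρ := σ.ρ_ne
  have hgn := σ.g_ne
  have hl := σ.main_lam_ne
  set fa := s.toConfig.fa with hfa
  set fb := s.toConfig.fb with hfb
  have hz' := σ.main_log hT σ.δz
  have hx' := σ.main_log hT σ.δx
  rw [σ.hδz, σ.hδz, hr] at hz'
  rw [σ.hδx, σ.hδx, hr] at hx'
  have e0 : pderiv 0 xx = (0 : S) := by simp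
  have e1 : pderiv 1 xx = (1 : S) := by simp
  rw [e0, map_zero] at hz'
  rw [e1, map_one] at hx'
  set N : S := -(xx * pderiv 0 σ.g) * (fa * pderiv 1 fb - pderiv 1 fa * fb)
    + (174 * σ.g - xx * pderiv 1 σ.g) * (pderiv 0 fa * fb - fa * pderiv 0 fb)
    + 126 * xx * σ.g * (pderiv 0 fa * pderiv 1 fb - pderiv 1 fa * pderiv 0 fb) with hN
  have hN0 : N ≠ 0 := by
    intro h0
    have h1 := congrArg (eval ![s.toConfig.z0, s.toConfig.x0]) h0
    have hx0 := s.toConfig.x0_ne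
    have ha : s.toConfig.x0 + (s.toConfig.z0 - s.e 2) * (s.toConfig.z0 - s.e 3) = 0 := by
      rw [s.toConfig.main_x0]; ring
    have hb : s.toConfig.x0 + (s.toConfig.z0 - s.e 0) * (s.toConfig.z0 - s.e 1) = 0 := by
      rw [Config.x0]; ring
    have va : eval ![s.toConfig.z0, s.toConfig.x0] fa = 0 := by
      simp [hfa, Config.fa, al0, lin, ha]
    have vb : eval ![s.toConfig.z0, s.toConfig.x0] fb = 0 := by
      simp [hfb, Config.fb, al0, lin, hb]
    have vJ : eval ![s.toConfig.z0, s.toConfig.x0]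
        (pderiv 0 fa * pderiv 1 fb - pderiv 1 fa * pderiv 0 fb)
        = s.toConfig.x0 ^ 2 * (s.e 0 + s.e 1 - s.e 2 - s.e 3) := by
      simp [hfa, hfb, Config.fa, Config.fb, al0, lin, ha, hb]
      have ha' : (s.toConfig.z0 - s.e 2) * (s.toConfig.z0 - s.e 3) = -s.toConfig.x0 := by
        linear_combination ha
      have hb' : (s.toConfig.z0 - s.e 0) * (s.toConfig.z0 - s.e 1) = -s.toConfig.x0 := by
        linear_combination hb
      rw [ha', hb']
      ring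
    rw [hN, map_add, map_mul _ (126 * xx * σ.g), vJ] at h1
    simp only [map_add, map_mul, map_sub, va, vb, zero_mul, mul_zero, sub_zero, add_zero, zero_add,
      map_zero, hg, eval_X, map_ofNat] at h1
    have h2 := s.hQ0
    have h3 := s.hs
    simp [h2, h3, hx0] at h1
  have hφN : σ.φ N ≠ 0 := fun h => hN0 (σ.inj (by rw [h, map_zero]))
  have hdet : σ.φ s.p1.1 * σ.φ s.p2.2 - σ.φ s.p2.1 * σ.φ s.p1.2 = σ.φ xx * σ.φ σ.g := by
    rw [← map_mul, ← map_mul, ← map_mul, ← map_sub, hg, ← s.hdet, det]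
  have hJ : (126 : K) * σ.φ xx * σ.φ σ.g *
      (σ.δz (σ.fn fa) * σ.δx (σ.fn fb) - σ.δx (σ.fn fa) * σ.δz (σ.fn fb))
      = σ.fn 1 ^ 2 * σ.φ N := by
    rw [σ.main_fn fa, σ.main_fn fb]
    simp only [Derivation.leibniz, smul_eq_mul, σ.hδz, σ.hδx, hN, map_add, map_mul, map_sub,
      map_neg, map_ofNat]
    push_cast at hz' hx'
    linear_combination (σ.fn 1 * (σ.φ fa * σ.φ (pderiv 1 fb) - σ.φ (pderiv 1 fa) * σ.φ fb)) * hz'
      + (σ.fn 1 * (σ.φ (pderiv 0 fa) * σ.φ fb - σ.φ fa * σ.φ (pderiv 0 fb))) * hx'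
  have hJ' : σ.δz (σ.fn fa) * σ.δx (σ.fn fb) - σ.δx (σ.fn fa) * σ.δz (σ.fn fb) ≠ 0 := by
    intro h0
    rw [h0, mul_zero] at hJ
    exact mul_ne_zero (pow_ne_zero _ hl) hφN hJ.symm
  have : σ.tw 120 524 s.p1 (σ.fn fa) * σ.tw 7 29 s.p2 (σ.fn fb)
      - σ.tw 7 29 s.p2 (σ.fn fa) * σ.tw 120 524 s.p1 (σ.fn fb)
      = σ.ρ ^ 120 / σ.φ xx ^ 524 * (σ.ρ ^ 7 / σ.φ xx ^ 29) * (σ.φ xx * σ.φ σ.g) *
        (σ.δz (σ.fn fa) * σ.δx (σ.fn fb) - σ.δx (σ.fn fa) * σ.δz (σ.fn fb)) := by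
    simp only [Setup.tw, Setup.der, Derivation.smul_apply, Derivation.add_apply, smul_eq_mul]
    rw [← hdet]
    ring
  rw [this]
  exact mul_ne_zero (mul_ne_zero (mul_ne_zero (div_ne_zero (pow_ne_zero _ hρ) (pow_ne_zero _ hx))
    (div_ne_zero (pow_ne_zero _ hρ) (pow_ne_zero _ hx))) (mul_ne_zero hx hgn)) hJ'

theorem bad (s : Sol) (σ : Setup K) (hg : σ.g = s.g) (hr : σ.r = 126) (hE : σ.E = 552) :
    ∃ V : ValuationSubring K, (∀ c : ℂ, algebraMap ℂ K c ∈ V) ∧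
      V.valuation (σ.fn s.toConfig.fa) < 1 ∧ V.valuation (σ.fn s.toConfig.fb) < 1 ∧
      ∀ α : K, IsIntegral (B2 (σ.fn s.toConfig.fa) (σ.fn s.toConfig.fb)) α →
        V.valuation (σ.tw 120 524 s.p1 α) < 1 ∧ V.valuation (σ.tw 7 29 s.p2 α) < 1 := by
  have hT : σ.E = 3 * σ.r + 174 := by rw [hE, hr]
  have hx0 := σ.x_ne
  have hg0 := σ.g_ne
  obtain ⟨-, -, -, hmem, -, hdiv⟩ := B2_props _ _ σ.indep
  have hni : ¬ IsIntegral (B2 (σ.φ zz) (σ.φ xx)) (σ.φ xx)⁻¹ := by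
    intro h
    have := hdiv 1 xx xx_ne (by rwa [← σ.φ_eq, ← σ.φ_eq, map_one, one_div])
    exact (X_prime (R := ℂ) (i := (1 : Fin 2))).not_isUnit (isUnit_of_dvd_one this)
  obtain ⟨V, hV, hxV, harch, -, hcop⟩ := exists_dvr _ _ σ.indep σ.alg σ.fg _ hni
  have hφ : ∀ f, σ.φ f ∈ V := fun f => by
    rw [σ.φ_eq]
    exact hV _ (isIntegral_algebraMap (R := B2 (σ.φ zz) (σ.φ xx)) (x := ⟨_, hmem f⟩))
  have hC : ∀ c : ℂ, algebraMap ℂ K c ∈ V := fun c => σ.main_φ_C c ▸ hφ _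
  have hx : V.valuation (σ.φ xx) < 1 := by
    rw [V.valuation.val_lt_one_iff hx0, ← not_le, V.valuation_le_one_iff]
    exact hxV
  have hgv : V.valuation (σ.φ σ.g) = 1 := by
    have h1 : IsRelPrime xx σ.g := by
      rw [(X_prime (R := ℂ) (i := (1 : Fin 2))).irreducible.isRelPrime_iff_not_dvd, xx_dvd_iff, hg]
      exact s.main_res_ne
    have := hcop _ _ h1
    rw [← σ.φ_eq, ← σ.φ_eq] at this
    exact this.resolve_left hx.ne
  have hlam : V.valuation (σ.fn 1) < 1 := by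
    have h1 := congrArg V.valuation (σ.main_lam_pow hT)
    rw [map_mul, hgv, mul_one, map_pow, map_pow] at h1
    refine (pow_lt_one_iff_of_nonneg zero_le σ.hr.ne').1 ?_
    rw [h1]
    exact pow_lt_one₀ zero_le hx (by norm_num)
  have hfn : ∀ f, V.valuation (σ.fn f) < 1 := fun f => by
    rw [σ.main_fn]; exact main_mul_lt V hlam (hφ f)
  set R : Subalgebra ℂ K := Algebra.adjoin ℂ {σ.φ zz, σ.φ xx, (σ.φ σ.g)⁻¹, σ.fn 1} with hR
  have hzR : σ.φ zz ∈ R := Algebra.subset_adjoin (by simp)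
  have hxR : σ.φ xx ∈ R := Algebra.subset_adjoin (by simp)
  have hgR : (σ.φ σ.g)⁻¹ ∈ R := Algebra.subset_adjoin (by simp)
  have hlR : σ.fn 1 ∈ R := Algebra.subset_adjoin (by simp)
  have hφR : ∀ f, σ.φ f ∈ R := fun f => by
    have h1 : B2 (σ.φ zz) (σ.φ xx) ≤ R := Algebra.adjoin_le (by
      rintro _ (rfl | rfl)
      exacts [hzR, hxR])
    rw [σ.φ_eq]
    exact h1 (hmem f)
  have hRV : ∀ f ∈ R, f ∈ V := adjoin_le_val V hC _ (by
    rintro _ (rfl | rfl | rfl | rfl)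
    · exact hφ _
    · exact hφ _
    · rw [← V.valuation_le_one_iff, map_inv₀, hgv, inv_one]
    · exact (V.valuation_le_one_iff _).1 hlam.le)
  have hgen : IntermediateField.adjoin ℂ (R : Set K) = ⊤ := by
    rw [eq_top_iff, ← σ.gen]
    refine IntermediateField.adjoin.mono _ _ _ ?_
    rintro _ (rfl | rfl | rfl)
    · exact hzR
    · exact hxR
    · have : σ.ρ = σ.fn 1 * σ.φ xx ^ 3 := by
        simp only [Setup.fn, map_one]; field_simp
      rw [this]
      exact R.mul_mem hlR (R.pow_mem hxR 3)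
  have hstab : ∀ p : S × S, ∀ f ∈ R, (σ.φ xx • σ.der p) f ∈ R := fun p =>
    adjoin_stable _ _ (by
      rintro _ (rfl | rfl | rfl | rfl)
      · rw [Derivation.smul_apply, σ.der_φ]
        exact R.mul_mem hxR (hφR _)
      · rw [Derivation.smul_apply, σ.der_φ]
        exact R.mul_mem hxR (hφR _)
      · rw [Derivation.smul_apply, Derivation.leibniz_inv, σ.der_φ]
        exact R.mul_mem hxR (R.mul_mem (R.neg_mem (R.pow_mem hgR 2)) (hφR _))
      · have h1 := σ.main_log hT (σ.der p)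
        rw [σ.der_φ, σ.der_φ, hr] at h1
        have h126 : ((126 : ℕ) : K) ≠ 0 := by
          have : algebraMap ℂ K (126 : ℕ) ≠ 0 := by
            rw [map_ne_zero_iff _ (algebraMap ℂ K).injective]; norm_num
          rwa [map_natCast] at this
        have h2 : (σ.φ xx • σ.der p) (σ.fn 1) = algebraMap ℂ K ((126 : ℕ) : ℂ)⁻¹ *
            ((σ.φ σ.g)⁻¹ * (σ.fn 1 * (((174 : ℕ) : K) * σ.φ σ.g * σ.φ (act p xx)
              - σ.φ xx * σ.φ (act p σ.g)))) := by
          rw [← h1, Derivation.smul_apply, smul_eq_mul, map_inv₀, map_natCast]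
          field_simp
        rw [h2]
        exact R.mul_mem (R.algebraMap_mem _) (R.mul_mem hgR (R.mul_mem hlR (R.sub_mem
          (R.mul_mem (R.mul_mem (natCast_mem R _) (hφR _)) (hφR _)) (R.mul_mem hxR (hφR _))))))
  have htw : ∀ (n e k : ℕ) (p : S × S), 552 * n = 126 * (e + 1) + (k + 1) → ∀ α : K,
      IsIntegral R α → V.valuation (σ.tw n e p α) < 1 := by
    intro n e k p hk α hα
    have h1 := seidenberg R _ (hstab p) hgen V hRV harch α hα
    have h2 : σ.tw n e p α = σ.ρ ^ n / σ.φ xx ^ (e + 1) * (σ.φ xx • σ.der p) α := by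
      simp only [Setup.tw, Derivation.smul_apply, smul_eq_mul]
      field_simp
      ring
    rw [h2]
    refine main_mul_lt V ?_ h1
    have h3 := congrArg V.valuation σ.hρ
    rw [map_mul, hgv, mul_one, map_pow, map_pow, hr, hE] at h3
    have hx1 : V.valuation (σ.φ xx) ≠ 0 := by simpa using hx0
    have h4 : V.valuation (σ.ρ ^ n / σ.φ xx ^ (e + 1)) ^ 126 = V.valuation (σ.φ xx) ^ (k + 1) := by
      rw [map_div₀, map_pow, map_pow, div_pow, ← pow_mul, mul_comm n, pow_mul, h3, ← pow_mul, hk,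
        ← pow_mul, mul_comm (e + 1), pow_add _ (126 * (e + 1)),
        mul_div_cancel_left₀ _ (pow_ne_zero _ hx1)]
    refine (pow_lt_one_iff_of_nonneg zero_le (by norm_num : 126 ≠ 0)).1 ?_
    rw [h4]
    exact pow_lt_one₀ zero_le hx (by omega)
  refine ⟨V, hC, hfn _, hfn _, fun α hα => ?_⟩
  have hle : B2 (σ.fn s.toConfig.fa) (σ.fn s.toConfig.fb) ≤ R := Algebra.adjoin_le (by
    rintro _ (rfl | rfl) <;> rw [σ.main_fn] <;> exact R.mul_mem hlR (hφR _))
  have hα' : IsIntegral R α := by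
    obtain ⟨p, hp, hp'⟩ := hα
    refine ⟨p.map (Subalgebra.inclusion hle).toRingHom, hp.map _, ?_⟩
    rw [Polynomial.eval₂_map]
    exact hp'
  exact ⟨htw 120 524 89 _ (by norm_num) α hα', htw 7 29 83 _ (by norm_num) α hα'⟩

theorem main_of_sol (s : Sol) :
    ∃ (A : Type) (_ : CommRing A) (_ : Algebra ℂ A),
      IsDomain A ∧ Algebra.FiniteType ℂ A ∧ IsIntegrallyClosed A ∧
      ringKrullDim A = 2 ∧
      Nonempty (Derivation ℂ A A ≃ₗ[A] (Fin 2 → A)) ∧
      ∃ (m : Ideal A) (_ : m.IsMaximal), ¬ IsRegularLocalRing (Localization.AtPrime m) := by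
  obtain ⟨K, _, _, σ, hg, hr, hE⟩ := exists_setup s.g s.g_ne 126 552 (by norm_num)
  exact abstract _ _ _ _ σ.fg σ.trdeg_le (jac s σ hg hr hE)
    (fun V hC ha hb hab => good s σ hg hr hE V hC ha hb hab) (bad s σ hg hr hE)

end Crest.Agent.R278
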