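import Crest.Agent.R278.Filt

/-! # Dense bivariate polynomials with rational coefficients and their meaning in `S` -/

set_option autoImplicit false

namespace Crest.Agent.R278

open MvPolynomial

abbrev L1 := List ℚ
abbrev L2 := List (List ℚ)

def add1 : L1 → L1 → L1
  | [], v => v
  | a :: u, [] => a :: u
  | a :: u, b :: v => (a + b) :: add1 u v

def smul1 (c : ℚ) : L1 → L1
  | [] => []
  | a :: u => (c * a) :: smul1 c u

def mul1 : L1 → L1 → L1
  | [], _ => []
  | a :: u, v => if a = 0 then 0 :: mul1 u v else add1 (smul1 a v) (0 :: mul1 u v)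

def add2 : L2 → L2 → L2
  | [], q => q
  | u :: p, [] => u :: p
  | u :: p, v :: q => add1 u v :: add2 p q

def smul2 (c : ℚ) : L2 → L2
  | [] => []
  | u :: p => smul1 c u :: smul2 c p

def rmul (u : L1) : L2 → L2
  | [] => []
  | v :: q => mul1 u v :: rmul u q

def mul2 : L2 → L2 → L2
  | [], _ => []
  | u :: p, q => add2 (rmul u q) ([] :: mul2 p q)

def sub2 (p q : L2) : L2 := add2 p (smul2 (-1) q)

def der1 : L1 → L1
  | [] => []
  | _ :: u => add1 u (0 :: der1 u)

def dz2 : L2 → L2
  | [] => []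
  | u :: p => der1 u :: dz2 p

def dx2 : L2 → L2
  | [] => []
  | _ :: p => add2 p ([] :: dx2 p)

def shift1 (c : ℚ) : L1 → L1
  | [] => []
  | a :: u => add1 [a] (mul1 [c, 1] (shift1 c u))

def shift2 (c : ℚ) : L2 → L2
  | [] => []
  | u :: p => shift1 c u :: shift2 c p

def zero1 : L1 → Bool
  | [] => true
  | a :: u => decide (a = 0) && zero1 u

def ev1 (c : ℚ) : L1 → ℚ
  | [] => 0
  | a :: u => a + c * ev1 c u

/-- `x^n` -/
def xpow : ℕ → L2
  | 0 => [[1]]
  | n + 1 => [] :: xpow n

noncomputable section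

section den1
variable {R : Type} [CommRing R] [Algebra ℂ R]

def den1 (y : R) : L1 → R
  | [] => 0
  | a :: u => algebraMap ℂ R (a : ℂ) + y * den1 y u

@[simp] theorem den1_nil (y : R) : den1 y [] = 0 := rfl
@[simp] theorem den1_cons (y : R) (a : ℚ) (u : L1) :
    den1 y (a :: u) = algebraMap ℂ R (a : ℂ) + y * den1 y u := rfl

theorem den1_add (y : R) : ∀ u v : L1, den1 y (add1 u v) = den1 y u + den1 y v
  | [], v => by simp [add1]
  | a :: u, [] => by simp [add1]
  | a :: u, b :: v => by simp only [add1, den1_cons, den1_add y u v]; push_cast; ring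

theorem den1_smul (y : R) (c : ℚ) : ∀ u : L1,
    den1 y (smul1 c u) = algebraMap ℂ R (c : ℂ) * den1 y u
  | [] => by simp [smul1]
  | a :: u => by simp only [smul1, den1_cons, den1_smul y c u]; push_cast; ring

theorem den1_mul (y : R) : ∀ u v : L1, den1 y (mul1 u v) = den1 y u * den1 y v
  | [], v => by simp [mul1]
  | a :: u, v => by
    unfold mul1
    split_ifs with h
    · subst h; simp [den1_mul y u v]; ring
    · simp [den1_add, den1_smul, den1_mul y u v]; ring

theorem den1_shift (y : R) (c : ℚ) : ∀ u : L1,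
    den1 y (shift1 c u) = den1 (y + algebraMap ℂ R (c : ℂ)) u
  | [] => by simp [shift1]
  | a :: u => by simp [shift1, den1_add, den1_mul, den1_shift y c u]; ring

theorem den1_zero (y : R) : ∀ u : L1, zero1 u = true → den1 y u = 0
  | [], _ => rfl
  | a :: u, h => by
    simp only [zero1, Bool.and_eq_true, decide_eq_true_eq] at h
    simp [h.1, den1_zero y u h.2]

theorem den1_take_drop (y : R) : ∀ (n : ℕ) (u : L1),
    den1 y u = den1 y (u.take n) + y ^ n * den1 y (u.drop n)
  | 0, u => by simp
  | n + 1, [] => by simp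
  | n + 1, a :: u => by
    simp only [List.take_succ_cons, List.drop_succ_cons, den1_cons]
    rw [den1_take_drop y n u]; ring

theorem map_den1 {R' : Type} [CommRing R'] [Algebra ℂ R'] (φ : R →ₐ[ℂ] R') (y : R) :
    ∀ u : L1, φ (den1 y u) = den1 (φ y) u
  | [] => by simp
  | a :: u => by simp [map_den1 φ y u]

theorem den1_der (D : Derivation ℂ R R) (y : R) : ∀ u : L1,
    D (den1 y u) = den1 y (der1 u) * D y
  | [] => by simp [der1]
  | a :: u => by
    simp only [der1, den1_cons, den1_add, map_add, Derivation.leibniz, den1_der D y u,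
      Derivation.map_algebraMap, smul_eq_mul]
    simp; ring

end den1

theorem den1_ev (c : ℚ) : ∀ u : L1, den1 (c : ℂ) u = ((ev1 c u : ℚ) : ℂ)
  | [] => by simp [ev1]
  | a :: u => by simp [ev1, den1_ev c u]

/-- meaning of a list of rows: row `j` is the coefficient of `x^j`, a polynomial in `y` -/
def den (y : S) : L2 → S
  | [] => 0
  | u :: p => den1 y u + xx * den y p

@[simp] theorem den_nil (y : S) : den y [] = 0 := rfl
@[simp] theorem den_cons (y : S) (u : L1) (p : L2) : den y (u :: p) = den1 y u + xx * den y p := rfl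

theorem den_add (y : S) : ∀ p q : L2, den y (add2 p q) = den y p + den y q
  | [], q => by simp [add2]
  | u :: p, [] => by simp [add2]
  | u :: p, v :: q => by simp only [add2, den_cons, den_add y p q, den1_add]; ring

theorem den_smul (y : S) (c : ℚ) : ∀ p : L2, den y (smul2 c p) = C (c : ℂ) * den y p
  | [] => by simp [smul2]
  | u :: p => by simp only [smul2, den_cons, den_smul y c p, den1_smul, algebraMap_eq]; ring

theorem den_rmul (y : S) (u : L1) : ∀ p : L2, den y (rmul u p) = den1 y u * den y p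
  | [] => by simp [rmul]
  | v :: p => by simp only [rmul, den_cons, den_rmul y u p, den1_mul]; ring

theorem den_mul (y : S) : ∀ p q : L2, den y (mul2 p q) = den y p * den y q
  | [], q => by simp [mul2]
  | u :: p, q => by simp only [mul2, den_cons, den_add, den_rmul, den_mul y p q, den1_nil]; ring

theorem den_sub (y : S) (p q : L2) : den y (sub2 p q) = den y p - den y q := by
  simp [sub2, den_add, den_smul]; ring

theorem den_xpow (y : S) : ∀ n, den y (xpow n) = xx ^ n
  | 0 => by simp [xpow]
  | n + 1 => by simp [xpow, den_xpow y n, pow_succ']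

theorem den_shift (y : S) (c : ℚ) : ∀ p : L2, den y (shift2 c p) = den (y + C (c : ℂ)) p
  | [] => by simp [shift2]
  | u :: p => by simp [shift2, den1_shift, den_shift y c p]

theorem den_dz (y : S) (hy : pderiv 0 y = 1) : ∀ p : L2, pderiv 0 (den y p) = den y (dz2 p)
  | [] => by simp [dz2]
  | u :: p => by
    simp [dz2, den1_der, hy, den_dz y hy p, Derivation.leibniz]

theorem den_dx (y : S) (hy : pderiv 1 y = 0) : ∀ p : L2, pderiv 1 (den y p) = den y (dx2 p)
  | [] => by simp [dx2]
  | u :: p => by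
    simp [dx2, den1_der, hy, den_dx y hy p, Derivation.leibniz, den_add]; ring

theorem den_take_drop (y : S) : ∀ (n : ℕ) (p : L2),
    den y p = den y (p.take n) + xx ^ n * den y (p.drop n)
  | 0, p => by simp
  | n + 1, [] => by simp
  | n + 1, u :: p => by
    simp only [List.take_succ_cons, List.drop_succ_cons, den_cons]
    rw [den_take_drop y n p]; ring

theorem res_den (y : S) (u : L1) (p : L2) : res (den y (u :: p)) = den1 (res y) u := by
  simp [res_xx, map_den1]

end

/-! ## membership in the arm filtrations -/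

/-- all monomials of weight `< n` vanish; `y` has weight one if `b` and weight zero otherwise -/
def ordOK (b : Bool) : ℕ → L2 → Bool
  | 0, _ => true
  | _ + 1, [] => true
  | n + 1, u :: p => zero1 (if b then u.take (n + 1) else u) && ordOK b n p

theorem ordOK_spec (b : Bool) (y ζ : S) (hb : b = true → y = ζ) : ∀ (n : ℕ) (p : L2),
    ordOK b n p = true → den y p ∈ (Ideal.span {xx, ζ}) ^ n
  | 0, p, _ => by simp
  | n + 1, [], _ => by simp
  | n + 1, u :: p, h => by
    simp only [ordOK, Bool.and_eq_true] at h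
    have hx : xx ∈ Ideal.span {xx, ζ} := Ideal.subset_span (by simp)
    have hζ : ζ ∈ Ideal.span {xx, ζ} := Ideal.subset_span (by simp)
    rw [den_cons]
    refine Ideal.add_mem _ ?_ ?_
    · cases b with
      | false => rw [den1_zero y u (by simpa using h.1)]; simp
      | true =>
        rw [den1_take_drop y (n + 1) u, den1_zero y _ (by simpa using h.1), zero_add, hb rfl]
        exact Ideal.mul_mem_right _ _ (Ideal.pow_mem_pow hζ _)
    · rw [pow_succ']
      exact Ideal.mul_mem_mul hx (ordOK_spec b y ζ hb n p h.2)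

/-- long division on reversed lists (untrusted) -/
def divRev (d : L1) : ℕ → L1 → L1
  | 0, _ => []
  | _ + 1, [] => []
  | k + 1, c :: t => c :: divRev d k (add1 t (smul1 (-c) d))

/-- quotient by a monic polynomial (untrusted) -/
def div1 (m u : L1) : L1 :=
  (divRev m.reverse.tail (u.length + 1 - m.length) u.reverse).reverse

/-- `x`-adic quotient by `Q` (untrusted) -/
def quot2 (Q : L2) : ℕ → L2 → L2
  | 0, _ => []
  | _ + 1, [] => []
  | n + 1, u :: p =>
    div1 (Q.headD []) u :: quot2 Q n (sub2 p (rmul (div1 (Q.headD []) u) Q.tail))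

def memF (b : Bool) (Q : L2) (α : ℕ) : ℕ → ℕ → L2 → Bool
  | 0, n, p => ordOK b n p
  | f + 1, n, p => ordOK b n (sub2 p (mul2 (quot2 Q n p) Q)) && memF b Q α f (n - α) (quot2 Q n p)

theorem memF_spec (b : Bool) (y ζ : S) (hb : b = true → y = ζ) (Q : L2) (α : ℕ) :
    ∀ (f n : ℕ) (p : L2), memF b Q α f n p = true → den y p ∈ Fil ζ (den y Q) α n
  | 0, n, p, h => span_pow_le n (ordOK_spec b y ζ hb n p h)
  | f + 1, n, p, h => by
    simp only [memF, Bool.and_eq_true] at h
    have h1 := span_pow_le (Q := den y Q) (α := α) n (ordOK_spec b y ζ hb n _ h.1)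
    have h2 := memF_spec b y ζ hb Q α f _ _ h.2
    have h3 : den y Q ∈ Fil ζ (den y Q) α α := by simpa using Q_pow_mem (ζ := ζ) (Q := den y Q) (α := α) 1
    have h4 := Fil_mul' (k := n) h2 h3 (by omega)
    rw [den_sub, den_mul] at h1
    simpa using Ideal.add_mem _ h1 h4

def actL (A B f : L2) : L2 := add2 (mul2 A (dz2 f)) (mul2 B (dx2 f))

theorem act_den (y : S) (hy0 : pderiv 0 y = 1) (hy1 : pderiv 1 y = 0) (A B f : L2) :
    act (den y A, den y B) (den y f) = den y (actL A B f) := by
  simp [act, actL, den_add, den_mul, den_dz y hy0, den_dx y hy1]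

def chkM (b : Bool) (ζ Q : L2) (α κ : ℕ) (A B : L2) : Bool :=
  memF b Q α 3 κ A && memF b Q α 3 κ B &&
  memF b Q α 3 (κ + 2) (sub2 ([] :: actL A B ζ) (mul2 ζ B)) &&
  memF b Q α 3 (κ + α + 1) (sub2 ([] :: actL A B Q) (smul2 (α : ℚ) (mul2 Q B)))

theorem chkM_spec (b : Bool) (y : S) (hy0 : pderiv 0 y = 1) (hy1 : pderiv 1 y = 0) (ζ Q : L2)
    (hb : b = true → y = den y ζ) (u w κ : ℕ) (A B : L2) (h : chkM b ζ Q (u + w) κ A B = true) :
    Arm.M ⟨den y ζ, den y Q, u, w⟩ κ (den y A, den y B) := by
  simp only [chkM, Bool.and_eq_true] at h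
  obtain ⟨⟨⟨h1, h2⟩, h3⟩, h4⟩ := h
  refine ⟨memF_spec b y _ hb Q _ _ _ _ h1, memF_spec b y _ hb Q _ _ _ _ h2, ?_, ?_⟩
  · have := memF_spec b y _ hb Q _ _ _ _ h3
    rw [den_sub, den_mul, den_cons, den1_nil, zero_add, ← act_den y hy0 hy1] at this
    exact this
  · have := memF_spec b y _ hb Q _ _ _ _ h4
    rw [den_sub, den_smul, den_mul, den_cons, den1_nil, zero_add, ← act_den y hy0 hy1] at this
    simpa [Arm.F, Arm.α, mul_assoc] using this

/-- `W + x^4 η` from the rows of `W` below `x^4` and an explicit `η` -/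
def ext4 (W η : L2) : L2 := add2 (W.take 4) ([] :: [] :: [] :: [] :: η)

theorem den_ext4 (y : S) (W η : L2) : ∃ s, den y (ext4 W η) = den y W + xx ^ 4 * s := by
  refine ⟨den y η - den y (W.drop 4), ?_⟩
  rw [den_take_drop y 4 W]
  simp [ext4, den_add]; ring

theorem exists_M (b : Bool) (y : S) (hy0 : pderiv 0 y = 1) (hy1 : pderiv 1 y = 0) (ζ Q : L2)
    (hb : b = true → y = den y ζ) (u w κ : ℕ) (A B ηA ηB : L2)
    (h : chkM b ζ Q (u + w) κ (ext4 A ηA) (ext4 B ηB) = true) :
    ∃ η : S × S, Arm.M ⟨den y ζ, den y Q, u, w⟩ κ ((den y A, den y B) + xx ^ 4 • η) := by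
  obtain ⟨s1, h1⟩ := den_ext4 y A ηA
  obtain ⟨s2, h2⟩ := den_ext4 y B ηB
  refine ⟨(s1, s2), ?_⟩
  have := chkM_spec b y hy0 hy1 ζ Q hb u w κ _ _ h
  rw [h1, h2] at this
  simpa using this

end Crest.Agent.R278
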